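import Vale.Agent.Lib.P137F.Approx

/-!
# P137F: the weak gradient of `|f|`

Take `f_n → f` from `approx`, `ψ_δ s = √(s² + δ²) - δ`.  The gradient of `ψ_δ ∘ f_n` is
`ψ_δ'(f_n) ∇f_n`; pass to the limit `n → ∞` along an a.e. convergent subsequence (dominated
convergence), then `δ → 0`: the weak gradient of `|f|` is `sign (f) F`.
-/

namespace Vale.Agent.P137F

open MeasureTheory Metric Set ENNReal Filter Topology

noncomputable section

namespace AbsWeak

/-- smooth approximation of the absolute value -/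
def psi (δ s : ℝ) : ℝ := Real.sqrt (s ^ 2 + δ ^ 2) - δ

/-- its derivative -/
def dpsi (δ s : ℝ) : ℝ := s / Real.sqrt (s ^ 2 + δ ^ 2)

theorem hasDerivAt_psi {δ : ℝ} (hδ : 0 < δ) (s : ℝ) : HasDerivAt (psi δ) (dpsi δ s) s := by
  unfold psi dpsi
  have h0 : s ^ 2 + δ ^ 2 ≠ 0 := by positivity
  have h1 : HasDerivAt (fun s : ℝ => s ^ 2 + δ ^ 2) (2 * s) s := by
    simpa using (hasDerivAt_pow 2 s).add_const (δ ^ 2)
  have h2 := (h1.sqrt h0).sub_const δ
  rw [mul_div_mul_left _ _ (two_ne_zero : (2 : ℝ) ≠ 0)] at h2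
  exact h2

theorem sqrt_pos' {δ : ℝ} (hδ : 0 < δ) (s : ℝ) : 0 < Real.sqrt (s ^ 2 + δ ^ 2) :=
  Real.sqrt_pos.2 (by positivity)

theorem abs_le_sqrt' (δ s : ℝ) : |s| ≤ Real.sqrt (s ^ 2 + δ ^ 2) := by
  rw [← Real.sqrt_sq_eq_abs]
  exact Real.sqrt_le_sqrt (by nlinarith [sq_nonneg δ])

theorem abs_dpsi_le (δ s : ℝ) : |dpsi δ s| ≤ 1 := by
  unfold dpsi
  rw [abs_div, abs_of_nonneg (Real.sqrt_nonneg _)]
  exact div_le_one_of_le₀ (abs_le_sqrt' δ s) (Real.sqrt_nonneg _)

theorem continuous_psi (δ : ℝ) : Continuous (psi δ) := by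
  unfold psi
  fun_prop

theorem continuous_dpsi {δ : ℝ} (hδ : 0 < δ) : Continuous (dpsi δ) := by
  unfold dpsi
  exact continuous_id.div (by fun_prop) fun s => (sqrt_pos' hδ s).ne'

theorem psi_lip {δ : ℝ} (hδ : 0 < δ) (s t : ℝ) : |psi δ s - psi δ t| ≤ |s - t| := by
  have h := Convex.norm_image_sub_le_of_norm_hasDerivWithin_le (f := psi δ) (f' := dpsi δ)
    (s := Set.univ) (C := 1) (x := t) (y := s)
    (fun x _ => (hasDerivAt_psi hδ x).hasDerivWithinAt) (fun x _ => by
      rw [Real.norm_eq_abs]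
      exact abs_dpsi_le δ x) convex_univ (mem_univ _) (mem_univ _)
  simpa [Real.norm_eq_abs] using h

theorem psi_zero {δ : ℝ} (hδ : 0 < δ) : psi δ 0 = 0 := by
  unfold psi
  simp [Real.sqrt_sq hδ.le]

theorem abs_psi_le {δ : ℝ} (hδ : 0 < δ) (s : ℝ) : |psi δ s| ≤ |s| := by
  have := psi_lip hδ s 0
  simpa [psi_zero hδ] using this

theorem tendsto_psi (s : ℝ) : Tendsto (fun n : ℕ => psi (1 / ((n : ℝ) + 1)) s) atTop (𝓝 |s|) := by
  have h0 : Tendsto (fun n : ℕ => 1 / ((n : ℝ) + 1)) atTop (𝓝 0) := tendsto_one_div_add_atTop_nhds_zero_nat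
  have h1 : Continuous (fun δ : ℝ => psi δ s) := by
    unfold psi
    fun_prop
  have h2 := (h1.tendsto 0).comp h0
  have h3 : psi 0 s = |s| := by
    unfold psi
    simp [Real.sqrt_sq_eq_abs]
  rw [h3] at h2
  exact h2

theorem tendsto_dpsi (s : ℝ) :
    Tendsto (fun n : ℕ => dpsi (1 / ((n : ℝ) + 1)) s) atTop (𝓝 (s / |s|)) := by
  have h0 : Tendsto (fun n : ℕ => 1 / ((n : ℝ) + 1)) atTop (𝓝 0) := tendsto_one_div_add_atTop_nhds_zero_nat
  rcases eq_or_ne s 0 with hs | hs
  · subst hs
    simp [dpsi]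
  · have h1 : ContinuousAt (fun δ : ℝ => dpsi δ s) 0 := by
      unfold dpsi
      apply ContinuousAt.div
      · fun_prop
      · fun_prop
      · simp only [ne_eq, OfNat.ofNat_ne_zero, not_false_eq_true, zero_pow, add_zero]
        rw [Real.sqrt_sq_eq_abs]
        exact abs_ne_zero.2 hs
    have h2 := h1.tendsto.comp h0
    have h3 : dpsi 0 s = s / |s| := by
      unfold dpsi
      simp [Real.sqrt_sq_eq_abs]
    rw [h3] at h2
    exact h2

/-- the `i`-th basis vector -/
def ei {d : ℕ} (i : Fin d) : E d := EuclideanSpace.single i 1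

theorem norm_ei {d : ℕ} (i : Fin d) : ‖ei i‖ = 1 := by
  simp [ei]

theorem gradient_coord {d : ℕ} (u : E d → ℝ) (x : E d) (i : Fin d) :
    (gradient u x) i = fderiv ℝ u x (ei i) := by
  have h : inner ℝ (gradient u x) (ei i) = fderiv ℝ u x (ei i) := by
    unfold gradient
    exact InnerProductSpace.toDual_symm_apply
  rw [← h]
  simp only [ei, EuclideanSpace.inner_single_right]
  simp

theorem abs_coord_le {d : ℕ} (v : E d) (i : Fin d) : |v i| ≤ ‖v‖ := by
  have := PiLp.norm_apply_le v i
  simpa using this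

/-- the smooth case -/
theorem smooth_case {d : ℕ} (u : E d → ℝ) (hu : ContDiff ℝ 1 u) (φ : E d → ℝ)
    (hφ : ContDiff ℝ 1 φ) (hc : HasCompactSupport φ) (i : Fin d) :
    ∫ x, u x * fderiv ℝ φ x (ei i) = - ∫ x, fderiv ℝ u x (ei i) * φ x := by
  have hdu : Continuous fun x => fderiv ℝ u x (ei i) :=
    (hu.continuous_fderiv one_ne_zero).clm_apply continuous_const
  have hdφ : Continuous fun x => fderiv ℝ φ x (ei i) :=
    (hφ.continuous_fderiv one_ne_zero).clm_apply continuous_const
  apply integral_mul_fderiv_eq_neg_fderiv_mul_of_integrable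
  · exact (hdu.mul hφ.continuous).integrable_of_hasCompactSupport hc.mul_left
  · exact (hu.continuous.mul hdφ).integrable_of_hasCompactSupport (hc.fderiv_apply (𝕜 := ℝ) _).mul_left
  · exact (hu.continuous.mul hφ.continuous).integrable_of_hasCompactSupport hc.mul_left
  · exact fun x _ => (hu.differentiable one_ne_zero).differentiableAt
  · exact fun x _ => (hφ.differentiable one_ne_zero).differentiableAt

end AbsWeak

open AbsWeak

/-- bounded continuous functions times integrable ones. -/
theorem AbsWeak.integrable_bdd_mul {d : ℕ} {g w : E d → ℝ} (hg : Integrable g)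
    (hw : AEStronglyMeasurable w) {C : ℝ} (hC : ∀ x, |w x| ≤ C) :
    Integrable (fun x => w x * g x) := by
  exact hg.bdd_mul hw (Filter.Eventually.of_forall fun x => by simpa using hC x)

/-- chain rule with `psi` -/
theorem AbsWeak.chain {d : ℕ} {f : E d → ℝ} {F : E d → E d} (hf : Integrable f)
    (hF : Integrable F) (h : IsWeakGrad f F) {δ : ℝ} (hδ : 0 < δ) :
    IsWeakGrad (fun x => psi δ (f x)) (fun x => dpsi δ (f x) • F x) := by
  obtain ⟨hn, hsm, hcs, -, hL, hG⟩ := approx hf hF h
  intro φ hφ hφc i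
  have hφ1 : ContDiff ℝ 1 φ := hφ.of_le (by exact_mod_cast le_top)
  have hsm1 : ∀ n, ContDiff ℝ 1 (hn n) := fun n => (hsm n).of_le (by exact_mod_cast le_top)
  have hnc : ∀ n, Continuous (hn n) := fun n => (hsm1 n).continuous
  change ∫ x, psi δ (f x) * fderiv ℝ φ x (ei i) = - ∫ x, (dpsi δ (f x) • F x) i * φ x
  -- bounds for phi
  have hdφ : Continuous fun x => fderiv ℝ φ x (ei i) :=
    (hφ1.continuous_fderiv one_ne_zero).clm_apply continuous_const
  obtain ⟨C₁, hC₁⟩ := hφc.exists_bound_of_continuous hφ1.continuous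
  obtain ⟨C₂, hC₂⟩ := (hφc.fderiv_apply (𝕜 := ℝ) (ei i)).exists_bound_of_continuous hdφ
  have hC₁' : 0 ≤ C₁ := (norm_nonneg _).trans (hC₁ 0)
  have hC₂' : 0 ≤ C₂ := (norm_nonneg _).trans (hC₂ 0)
  -- the smooth identity
  have hid : ∀ n, ∫ x, psi δ (hn n x) * fderiv ℝ φ x (ei i) =
      - ∫ x, (dpsi δ (hn n x) * fderiv ℝ (hn n) x (ei i)) * φ x := by
    intro n
    have hps : ContDiff ℝ 1 (fun x => psi δ (hn n x)) := by
      unfold psi
      apply ContDiff.sub _ contDiff_const
      apply ContDiff.sqrt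
      · exact ((hsm1 n).pow 2).add contDiff_const
      · intro x
        positivity
    have h1 := smooth_case (fun x => psi δ (hn n x)) hps φ hφ1 hφc i
    rw [h1]
    congr 1
    refine integral_congr_ae (Filter.Eventually.of_forall fun x => ?_)
    change fderiv ℝ (fun x => psi δ (hn n x)) x (ei i) * φ x
      = (dpsi δ (hn n x) * fderiv ℝ (hn n) x (ei i)) * φ x
    have h2 : HasFDerivAt (fun x => psi δ (hn n x)) (dpsi δ (hn n x) • fderiv ℝ (hn n) x) x :=
      (hasDerivAt_psi hδ (hn n x)).comp_hasFDerivAt x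
        ((hsm1 n).differentiable one_ne_zero).differentiableAt.hasFDerivAt
    rw [h2.fderiv]
    simp
  -- subsequence converging a.e.
  have hmeas : TendstoInMeasure volume hn atTop f := by
    refine tendstoInMeasure_of_tendsto_eLpNorm (p := 1) one_ne_zero
      (fun n => (hnc n).aestronglyMeasurable) hf.aestronglyMeasurable ?_
    refine hL.congr fun n => ?_
    rw [eLpNorm_one_eq_lintegral_enorm]
    refine lintegral_congr fun x => ?_
    rw [Pi.sub_apply, Real.enorm_eq_ofReal_abs]
  obtain ⟨ns, hns, hae⟩ := hmeas.exists_seq_tendsto_ae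
  have hL' := hL.comp hns.tendsto_atTop
  have hG' := hG.comp hns.tendsto_atTop
  -- left side
  have hleft : Tendsto (fun k => ∫ x, psi δ (hn (ns k) x) * fderiv ℝ φ x (ei i)) atTop
      (𝓝 (∫ x, psi δ (f x) * fderiv ℝ φ x (ei i))) := by
    apply tendsto_integral_of_L1
    · exact ((continuous_psi δ).comp_aestronglyMeasurable hf.aestronglyMeasurable).mul
        hdφ.aestronglyMeasurable
    · refine Filter.Eventually.of_forall fun k => ?_
      exact ((((continuous_psi δ).comp (hnc _)).mul hdφ).integrable_of_hasCompactSupport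
        (hφc.fderiv_apply (𝕜 := ℝ) _).mul_left)
    · have hb : Tendsto (fun k => ENNReal.ofReal C₂ *
          ∫⁻ x, ENNReal.ofReal |hn (ns k) x - f x|) atTop (𝓝 0) := by
        have := ENNReal.Tendsto.const_mul (a := ENNReal.ofReal C₂) hL'
          (Or.inr ENNReal.ofReal_ne_top)
        simpa using this
      refine tendsto_of_tendsto_of_tendsto_of_le_of_le tendsto_const_nhds hb
        (fun _ => bot_le) fun k => ?_
      change ∫⁻ x, ‖psi δ (hn (ns k) x) * fderiv ℝ φ x (ei i)
        - psi δ (f x) * fderiv ℝ φ x (ei i)‖ₑ ≤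
          ENNReal.ofReal C₂ * ∫⁻ x, ENNReal.ofReal |hn (ns k) x - f x|
      rw [← lintegral_const_mul' _ _ ENNReal.ofReal_ne_top]
      refine lintegral_mono fun x => ?_
      rw [← ENNReal.ofReal_mul hC₂', Real.enorm_eq_ofReal_abs]
      apply ENNReal.ofReal_le_ofReal
      rw [← sub_mul, abs_mul, mul_comm]
      exact mul_le_mul (by simpa using hC₂ x) (psi_lip hδ _ _) (abs_nonneg _) hC₂'
  -- right side, first part
  have hright1 : Tendsto (fun k => ∫ x, dpsi δ (hn (ns k) x) *
      (fderiv ℝ (hn (ns k)) x (ei i) - F x i) * φ x) atTop (𝓝 0) := by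
    rw [tendsto_zero_iff_norm_tendsto_zero]
    have hb : Tendsto (fun k => (ENNReal.ofReal C₁ *
        ∫⁻ x, ENNReal.ofReal ‖gradient (hn (ns k)) x - F x‖).toReal) atTop (𝓝 0) := by
      have h1 := ENNReal.Tendsto.const_mul (a := ENNReal.ofReal C₁) hG'
        (Or.inr ENNReal.ofReal_ne_top)
      rw [mul_zero] at h1
      have h2 := (ENNReal.tendsto_toReal ENNReal.zero_ne_top).comp h1
      rw [ENNReal.toReal_zero] at h2
      exact h2
    have hfin : ∀ᶠ k in atTop, (ENNReal.ofReal C₁ *
        ∫⁻ x, ENNReal.ofReal ‖gradient (hn (ns k)) x - F x‖) < ⊤ := by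
      have h1 := ENNReal.Tendsto.const_mul (a := ENNReal.ofReal C₁) hG'
        (Or.inr ENNReal.ofReal_ne_top)
      rw [mul_zero] at h1
      exact h1.eventually_lt_const ENNReal.zero_lt_top
    refine squeeze_zero' (Filter.Eventually.of_forall fun _ => norm_nonneg _) ?_ hb
    filter_upwards [hfin] with k hk
    have h1 := norm_integral_le_lintegral_norm (μ := volume) (fun x => dpsi δ (hn (ns k) x) *
      (fderiv ℝ (hn (ns k)) x (ei i) - F x i) * φ x)
    refine h1.trans ?_
    refine ENNReal.toReal_mono hk.ne ?_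
    rw [← lintegral_const_mul' _ _ ENNReal.ofReal_ne_top]
    refine lintegral_mono fun x => ?_
    rw [← ENNReal.ofReal_mul hC₁']
    apply ENNReal.ofReal_le_ofReal
    rw [Real.norm_eq_abs, abs_mul, abs_mul]
    have h2 : |fderiv ℝ (hn (ns k)) x (ei i) - F x i| ≤ ‖gradient (hn (ns k)) x - F x‖ := by
      rw [← gradient_coord]
      exact abs_coord_le (gradient (hn (ns k)) x - F x) i
    have h3 : |φ x| ≤ C₁ := by simpa using hC₁ x
    calc |dpsi δ (hn (ns k) x)| * |fderiv ℝ (hn (ns k)) x (ei i) - F x i| * |φ x|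
        ≤ 1 * ‖gradient (hn (ns k)) x - F x‖ * C₁ := by
          gcongr
          exact abs_dpsi_le _ _
      _ = C₁ * ‖gradient (hn (ns k)) x - F x‖ := by ring
  -- right side, second part
  have hFi : Integrable (fun x => F x i) := by
    have : Integrable (fun x => inner ℝ (F x) (ei i)) := hF.inner_const _
    refine this.congr (Filter.Eventually.of_forall fun x => ?_)
    simp [ei, EuclideanSpace.inner_single_right]
  have hright2 : Tendsto (fun k => ∫ x, dpsi δ (hn (ns k) x) * F x i * φ x) atTop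
      (𝓝 (∫ x, dpsi δ (f x) * F x i * φ x)) := by
    apply tendsto_integral_of_dominated_convergence (fun x => |F x i| * C₁)
    · intro k
      exact ((((continuous_dpsi hδ).comp (hnc _)).aestronglyMeasurable).mul
        hFi.aestronglyMeasurable).mul hφ1.continuous.aestronglyMeasurable
    · exact hFi.abs.mul_const _
    · intro k
      refine Filter.Eventually.of_forall fun x => ?_
      rw [Real.norm_eq_abs, abs_mul, abs_mul]
      have h3 : |φ x| ≤ C₁ := by simpa using hC₁ x
      calc |dpsi δ (hn (ns k) x)| * |F x i| * |φ x| ≤ 1 * |F x i| * C₁ := by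
            gcongr
            exact abs_dpsi_le _ _
        _ = |F x i| * C₁ := by ring
    · filter_upwards [hae] with x hx
      exact ((((continuous_dpsi hδ).tendsto _).comp hx).mul_const _).mul_const _
  -- sum
  have hright : Tendsto (fun k => ∫ x, (dpsi δ (hn (ns k) x) *
      fderiv ℝ (hn (ns k)) x (ei i)) * φ x) atTop (𝓝 (∫ x, dpsi δ (f x) * F x i * φ x)) := by
    have h1 := hright1.add hright2
    rw [zero_add] at h1
    refine h1.congr fun k => ?_
    have hI2 : Integrable (fun x => dpsi δ (hn (ns k) x) * F x i * φ x) := by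
      have h4 : Integrable (fun x => (dpsi δ (hn (ns k) x) * φ x) * F x i) := by
        apply AbsWeak.integrable_bdd_mul hFi (C := C₁)
        · exact (((continuous_dpsi hδ).comp (hnc _)).mul hφ1.continuous).aestronglyMeasurable
        · intro x
          rw [abs_mul]
          have h3 : |φ x| ≤ C₁ := by simpa using hC₁ x
          calc |dpsi δ (hn (ns k) x)| * |φ x| ≤ 1 * C₁ := by
                gcongr
                exact abs_dpsi_le _ _
            _ = C₁ := one_mul _
      refine h4.congr (Filter.Eventually.of_forall fun x => ?_)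
      simp only
      ring
    have hI0 : Integrable (fun x => (dpsi δ (hn (ns k) x) *
        fderiv ℝ (hn (ns k)) x (ei i)) * φ x) := by
      refine Continuous.integrable_of_hasCompactSupport ?_ hφc.mul_left
      refine Continuous.mul (Continuous.mul ((continuous_dpsi hδ).comp (hnc _)) ?_)
        hφ1.continuous
      exact ((hsm1 _).continuous_fderiv one_ne_zero).clm_apply continuous_const
    have hI1 : Integrable (fun x => dpsi δ (hn (ns k) x) *
        (fderiv ℝ (hn (ns k)) x (ei i) - F x i) * φ x) := by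
      refine (hI0.sub hI2).congr (Filter.Eventually.of_forall fun x => ?_)
      simp only [Pi.sub_apply]
      ring
    rw [← integral_add hI1 hI2]
    refine integral_congr_ae (Filter.Eventually.of_forall fun x => ?_)
    simp only
    ring
  have hlim := hright.neg
  have heq : (fun k => ∫ x, psi δ (hn (ns k) x) * fderiv ℝ φ x (ei i)) =
      fun k => - ∫ x, (dpsi δ (hn (ns k) x) * fderiv ℝ (hn (ns k)) x (ei i)) * φ x :=
    funext fun k => hid (ns k)
  rw [heq] at hleft
  have := tendsto_nhds_unique hleft hlim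
  rw [this]
  congr 1

theorem abs_weakGrad {d : ℕ} {f : E d → ℝ} {F : E d → E d} (hf : Integrable f) (hF : Integrable F)
    (h : IsWeakGrad f F) : ∃ H : E d → E d, Integrable H ∧ IsWeakGrad (fun x => |f x|) H ∧
      ∀ᵐ x, ‖H x‖ ≤ ‖F x‖ := by
  have hsg : AEStronglyMeasurable (fun x => f x / |f x|) := by
    have h1 := hf.aestronglyMeasurable.aemeasurable
    exact (h1.div h1.abs).aestronglyMeasurable
  have hsb : ∀ x, |f x / abs (f x)| ≤ 1 := by
    intro x
    rw [abs_div, abs_abs]
    exact div_self_le_one _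
  have hnorm : ∀ x, ‖(f x / |f x|) • F x‖ ≤ ‖F x‖ := by
    intro x
    rw [norm_smul, Real.norm_eq_abs]
    exact mul_le_of_le_one_left (norm_nonneg _) (hsb x)
  refine ⟨fun x => (f x / |f x|) • F x, ?_, ?_, Filter.Eventually.of_forall hnorm⟩
  · exact hF.mono (hsg.smul hF.aestronglyMeasurable) (Filter.Eventually.of_forall hnorm)
  · intro φ hφ hφc i
    have hφ1 : ContDiff ℝ 1 φ := hφ.of_le (by exact_mod_cast le_top)
    change ∫ x, |f x| * fderiv ℝ φ x (ei i) = - ∫ x, ((f x / |f x|) • F x) i * φ x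
    have hdφ : Continuous fun x => fderiv ℝ φ x (ei i) :=
      (hφ1.continuous_fderiv one_ne_zero).clm_apply continuous_const
    obtain ⟨C₁, hC₁⟩ := hφc.exists_bound_of_continuous hφ1.continuous
    obtain ⟨C₂, hC₂⟩ := (hφc.fderiv_apply (𝕜 := ℝ) (ei i)).exists_bound_of_continuous hdφ
    have hC₁' : 0 ≤ C₁ := (norm_nonneg _).trans (hC₁ 0)
    have hC₂' : 0 ≤ C₂ := (norm_nonneg _).trans (hC₂ 0)
    have hpos : ∀ n : ℕ, (0 : ℝ) < 1 / ((n : ℝ) + 1) := fun n => by positivity
    have hFi : Integrable (fun x => F x i) := by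
      have : Integrable (fun x => inner ℝ (F x) (ei i)) := hF.inner_const _
      refine this.congr (Filter.Eventually.of_forall fun x => ?_)
      simp [ei, EuclideanSpace.inner_single_right]
    have hid : ∀ n : ℕ, ∫ x, psi (1 / ((n : ℝ) + 1)) (f x) * fderiv ℝ φ x (ei i)
        = - ∫ x, dpsi (1 / ((n : ℝ) + 1)) (f x) * F x i * φ x := by
      intro n
      exact AbsWeak.chain hf hF h (hpos n) φ hφ hφc i
    have hleft : Tendsto (fun n : ℕ => ∫ x, psi (1 / ((n : ℝ) + 1)) (f x) * fderiv ℝ φ x (ei i))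
        atTop (𝓝 (∫ x, |f x| * fderiv ℝ φ x (ei i))) := by
      apply tendsto_integral_of_dominated_convergence (fun x => |f x| * C₂)
      · intro n
        exact ((continuous_psi _).comp_aestronglyMeasurable hf.aestronglyMeasurable).mul
          hdφ.aestronglyMeasurable
      · exact hf.abs.mul_const _
      · intro n
        refine Filter.Eventually.of_forall fun x => ?_
        rw [Real.norm_eq_abs, abs_mul]
        exact mul_le_mul (abs_psi_le (hpos n) _) (by simpa using hC₂ x) (abs_nonneg _)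
          (abs_nonneg _)
      · refine Filter.Eventually.of_forall fun x => ?_
        exact (tendsto_psi (f x)).mul_const _
    have hright : Tendsto (fun n : ℕ => ∫ x, dpsi (1 / ((n : ℝ) + 1)) (f x) * F x i * φ x)
        atTop (𝓝 (∫ x, (f x / |f x|) * F x i * φ x)) := by
      apply tendsto_integral_of_dominated_convergence (fun x => |F x i| * C₁)
      · intro n
        exact (((continuous_dpsi (hpos n)).comp_aestronglyMeasurable hf.aestronglyMeasurable).mul
          hFi.aestronglyMeasurable).mul hφ1.continuous.aestronglyMeasurable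
      · exact hFi.abs.mul_const _
      · intro n
        refine Filter.Eventually.of_forall fun x => ?_
        rw [Real.norm_eq_abs, abs_mul, abs_mul]
        have h3 : |φ x| ≤ C₁ := by simpa using hC₁ x
        calc |dpsi (1 / ((n : ℝ) + 1)) (f x)| * |F x i| * |φ x| ≤ 1 * |F x i| * C₁ := by
              gcongr
              exact abs_dpsi_le _ _
          _ = |F x i| * C₁ := by ring
      · refine Filter.Eventually.of_forall fun x => ?_
        exact ((tendsto_dpsi (f x)).mul_const _).mul_const _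
    rw [funext hid] at hleft
    have := tendsto_nhds_unique hleft hright.neg
    rw [this]
    congr 1

end

end Vale.Agent.P137F
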