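import Vale.Agent.Lib.P137F.Defs2

/-!
# P137F: approximation in `W^{1,1}` and the absolute value

`approx`: mollify (`f ⋆ ρ_n`; its gradient is `F ⋆ ρ_n` by the definition of the weak gradient applied
to the test function `y ↦ ρ_n (x - y)`), and multiply by cutoffs `χ (x / m)`; convergence in `L¹` from
continuity of translations in `L¹` (which follows from density of `C_c`).
-/

namespace Vale.Agent.P137F

open MeasureTheory Metric Set ENNReal Filter Topology

noncomputable section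

section gen

variable {d : ℕ} {F : Type*} [NormedAddCommGroup F] [NormedSpace ℝ F]

omit [NormedSpace ℝ F] in
/-- continuity of translations in `L¹` for continuous compactly supported functions -/
theorem approx_transl_cc {g : E d → F} (hg : Continuous g) (hc : HasCompactSupport g) {ε : ℝ≥0∞}
    (hε : ε ≠ 0) : ∃ δ > 0, ∀ t : E d, ‖t‖ < δ → ∫⁻ x, ‖g (x - t) - g x‖ₑ ≤ ε := by
  rcases eq_or_ne ε ⊤ with rfl | hεt
  · exact ⟨1, one_pos, fun _ _ => le_top⟩
  set K : Set (E d) := cthickening 1 (tsupport g) with hK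
  have hKc : IsCompact K := hc.isCompact.cthickening
  have hKm : volume K ≠ ⊤ := hKc.measure_lt_top.ne
  set m : ℝ := (volume K).toReal + 1 with hm
  have hm0 : 0 < m := by have := ENNReal.toReal_nonneg (a := volume K); linarith
  have hε' : 0 < ε.toReal := ENNReal.toReal_pos hε hεt
  obtain ⟨δ, hδ, huc⟩ := Metric.uniformContinuous_iff.mp
    (hc.uniformContinuous_of_continuous hg) (ε.toReal / m) (by positivity)
  refine ⟨min δ 1, lt_min hδ one_pos, fun t ht => ?_⟩
  have ht1 : ‖t‖ < δ := ht.trans_le (min_le_left _ _)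
  have ht2 : ‖t‖ < 1 := ht.trans_le (min_le_right _ _)
  have hpt : ∀ x, ‖g (x - t) - g x‖ₑ ≤ K.indicator (fun _ => ENNReal.ofReal (ε.toReal / m)) x := by
    intro x
    by_cases hx : x ∈ K
    · rw [indicator_of_mem hx, ← ofReal_norm]
      apply ENNReal.ofReal_le_ofReal
      have h1 := @huc (x - t) x (by
        rw [dist_eq_norm]
        simpa using ht1)
      rw [dist_eq_norm] at h1
      exact h1.le
    · rw [indicator_of_notMem hx]
      have h1 : g x = 0 := by
        by_contra h0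
        exact hx (self_subset_cthickening _ (subset_tsupport g h0))
      have h2 : g (x - t) = 0 := by
        by_contra h0
        apply hx
        apply mem_cthickening_of_dist_le x (x - t) 1 (tsupport g) (subset_tsupport g h0)
        rw [dist_eq_norm]
        simpa using ht2.le
      rw [h1, h2, sub_self, enorm_zero]
  calc ∫⁻ x, ‖g (x - t) - g x‖ₑ
      ≤ ∫⁻ x, K.indicator (fun _ => ENNReal.ofReal (ε.toReal / m)) x := lintegral_mono hpt
    _ = ENNReal.ofReal (ε.toReal / m) * volume K := by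
        rw [lintegral_indicator hKc.measurableSet, lintegral_const, Measure.restrict_apply_univ]
    _ = ENNReal.ofReal (ε.toReal / m) * ENNReal.ofReal (volume K).toReal := by
        rw [ENNReal.ofReal_toReal hKm]
    _ = ENNReal.ofReal (ε.toReal / m * (volume K).toReal) := by
        rw [ENNReal.ofReal_mul (by positivity)]
    _ ≤ ENNReal.ofReal ε.toReal := by
        apply ENNReal.ofReal_le_ofReal
        rw [div_mul_eq_mul_div, div_le_iff₀ hm0]
        have : (volume K).toReal ≤ m := by linarith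
        exact mul_le_mul_of_nonneg_left this hε'.le
    _ = ε := ENNReal.ofReal_toReal hεt

/-- continuity of translations in `L¹` -/
theorem approx_transl {g : E d → F} (hg : Integrable g) {ε : ℝ≥0∞}
    (hε : ε ≠ 0) : ∃ δ > 0, ∀ t : E d, ‖t‖ < δ → ∫⁻ x, ‖g (x - t) - g x‖ₑ ≤ ε := by
  have hε3 : ε / 3 ≠ 0 := by
    simp [hε]
  obtain ⟨k, hk1, hk2, hk3, hk4⟩ := hg.exists_hasCompactSupport_lintegral_sub_le hε3
  obtain ⟨δ, hδ, hk5⟩ := approx_transl_cc hk3 hk1 hε3
  refine ⟨δ, hδ, fun t ht => ?_⟩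
  have hm1 : AEMeasurable (fun x => ‖g x - k x‖ₑ) := (hg.sub hk4).1.enorm
  have hgt : Integrable (fun x => g (x - t)) := hg.comp_sub_right t
  have hkt : Integrable (fun x => k (x - t)) := hk4.comp_sub_right t
  have hm2 : AEMeasurable (fun x => ‖g (x - t) - k (x - t)‖ₑ) := (hgt.sub hkt).1.enorm
  have hm3 : AEMeasurable (fun x => ‖k (x - t) - k x‖ₑ) := (hkt.sub hk4).1.enorm
  have hpt : ∀ x, ‖g (x - t) - g x‖ₑ ≤ ‖g (x - t) - k (x - t)‖ₑ
      + (‖k (x - t) - k x‖ₑ + ‖g x - k x‖ₑ) := by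
    intro x
    have e1 : g (x - t) - g x = (g (x - t) - k (x - t)) + ((k (x - t) - k x) - (g x - k x)) := by
      abel
    rw [e1]
    refine (enorm_add_le _ _).trans (add_le_add le_rfl ?_)
    exact enorm_sub_le
  calc ∫⁻ x, ‖g (x - t) - g x‖ₑ
      ≤ ∫⁻ x, (‖g (x - t) - k (x - t)‖ₑ + (‖k (x - t) - k x‖ₑ + ‖g x - k x‖ₑ)) :=
        lintegral_mono hpt
    _ = (∫⁻ x, ‖g (x - t) - k (x - t)‖ₑ) + ((∫⁻ x, ‖k (x - t) - k x‖ₑ) + ∫⁻ x, ‖g x - k x‖ₑ) := by
        rw [lintegral_add_left' hm2, lintegral_add_left' hm3]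
    _ ≤ ε / 3 + (ε / 3 + ε / 3) := by
        refine add_le_add ?_ (add_le_add (hk5 t ht) hk2)
        rw [lintegral_sub_right_eq_self (fun x => ‖g x - k x‖ₑ) t]
        exact hk2
    _ = ε := by
        rw [← add_assoc]
        exact ENNReal.add_thirds ε

theorem approx_conv_exists {ρ : E d → ℝ} (hρ : Continuous ρ) (hρc : HasCompactSupport ρ)
    {g : E d → F} (hg : Integrable g) (x : E d) : Integrable fun t => ρ t • g (x - t) := by
  have h1 := (hρc.convolutionExists_left (L := ContinuousLinearMap.lsmul ℝ ℝ) hρ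
    hg.locallyIntegrable) x
  exact h1.integrable

/-- mollification in `L¹` -/
theorem approx_moll [CompleteSpace F] {g : E d → F} (hg : Integrable g) {ε : ℝ≥0∞} (hε : ε ≠ 0) :
    ∃ δ > 0, ∀ ρ : E d → ℝ, Continuous ρ → HasCompactSupport ρ → (∀ t, 0 ≤ ρ t) →
      (∫ t, ρ t) = 1 → (∀ t, δ ≤ ‖t‖ → ρ t = 0) →
      ∫⁻ x, ‖(∫ t, ρ t • g (x - t)) - g x‖ₑ ≤ ε := by
  obtain ⟨δ, hδ, htr⟩ := approx_transl hg hε
  refine ⟨δ, hδ, fun ρ hρ hρc hρ0 hρ1 hρδ => ?_⟩
  have hρi : Integrable ρ := hρ.integrable_of_hasCompactSupport hρc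
  have hpt : ∀ x, ‖(∫ t, ρ t • g (x - t)) - g x‖ₑ ≤ ∫⁻ t, ‖ρ t‖ₑ * ‖g (x - t) - g x‖ₑ := by
    intro x
    have e1 : (∫ t, ρ t • g (x - t)) - g x = ∫ t, ρ t • (g (x - t) - g x) := by
      have e2 : g x = ∫ t, ρ t • g x := by rw [integral_smul_const, hρ1, one_smul]
      conv_lhs => rw [e2]
      rw [← integral_sub (approx_conv_exists hρ hρc hg x) (hρi.smul_const _)]
      refine integral_congr_ae (Eventually.of_forall fun t => ?_)
      show ρ t • g (x - t) - ρ t • g x = ρ t • (g (x - t) - g x)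
      rw [smul_sub]
    rw [e1]
    refine (enorm_integral_le_lintegral_enorm _).trans (le_of_eq ?_)
    refine lintegral_congr fun t => ?_
    rw [enorm_smul]
  have hmeas : AEMeasurable (Function.uncurry fun (x t : E d) => ‖ρ t‖ₑ * ‖g (x - t) - g x‖ₑ)
      (volume.prod volume) := by
    have h1 : AEStronglyMeasurable (fun p : E d × E d => g (p.1 - p.2)) (volume.prod volume) :=
      hg.1.comp_quasiMeasurePreserving (quasiMeasurePreserving_sub_of_right_invariant volume volume)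
    have h2 : AEStronglyMeasurable (fun p : E d × E d => g p.1) (volume.prod volume) :=
      hg.1.comp_fst
    have h3 : AEMeasurable (fun p : E d × E d => ‖ρ p.2‖ₑ) (volume.prod volume) := by
      have : Continuous fun p : E d × E d => ρ p.2 := hρ.comp continuous_snd
      exact this.measurable.enorm.aemeasurable
    exact h3.mul (h1.sub h2).enorm
  calc ∫⁻ x, ‖(∫ t, ρ t • g (x - t)) - g x‖ₑ
      ≤ ∫⁻ x, ∫⁻ t, ‖ρ t‖ₑ * ‖g (x - t) - g x‖ₑ := lintegral_mono hpt
    _ = ∫⁻ t, ∫⁻ x, ‖ρ t‖ₑ * ‖g (x - t) - g x‖ₑ := lintegral_lintegral_swap hmeas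
    _ ≤ ∫⁻ t, ‖ρ t‖ₑ * ε := by
        refine lintegral_mono fun t => ?_
        show ∫⁻ x, ‖ρ t‖ₑ * ‖g (x - t) - g x‖ₑ ≤ ‖ρ t‖ₑ * ε
        rw [lintegral_const_mul' _ _ enorm_ne_top]
        by_cases ht : ‖t‖ < δ
        · exact mul_le_mul_right (htr t ht) _
        · rw [hρδ t (not_lt.mp ht), enorm_zero, zero_mul, zero_mul]
    _ = (∫⁻ t, ‖ρ t‖ₑ) * ε := by
        rw [lintegral_mul_const]
        exact hρ.measurable.enorm
    _ = ε := by
        have e1 : ∫⁻ t, ‖ρ t‖ₑ = ENNReal.ofReal (∫ t, ρ t) := by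
          rw [ofReal_integral_eq_lintegral_ofReal hρi (Eventually.of_forall hρ0)]
          refine lintegral_congr fun t => ?_
          rw [Real.enorm_of_nonneg (hρ0 t)]
        rw [e1, hρ1, ENNReal.ofReal_one, one_mul]

end gen

theorem approx_gradient_coord {d : ℕ} {u : E d → ℝ} (x : E d) (i : Fin d) :
    gradient u x i = fderiv ℝ u x (EuclideanSpace.single i 1) := by
  have h1 : inner ℝ (gradient u x) (EuclideanSpace.single i (1 : ℝ))
      = fderiv ℝ u x (EuclideanSpace.single i 1) := by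
    unfold gradient
    rw [InnerProductSpace.toDual_symm_apply]
  rw [← h1, EuclideanSpace.inner_single_right]
  simp

theorem approx_grad {d : ℕ} {h : E d → ℝ} {H : E d → E d} (hh : Integrable h) (hH : Integrable H)
    (hw : IsWeakGrad h H) {ρ : E d → ℝ} (hρ : ContDiff ℝ ((⊤ : ℕ∞) : WithTop ℕ∞) ρ)
    (hρc : HasCompactSupport ρ) (x : E d) :
    gradient (fun x => ∫ t, ρ t • h (x - t)) x = ∫ t, ρ t • H (x - t) := by
  have hρcont : Continuous ρ := hρ.continuous
  have hρ1 : ContDiff ℝ 1 ρ := hρ.of_le (by exact_mod_cast le_top)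
  have hder := hρc.hasFDerivAt_convolution_left (L := ContinuousLinearMap.lsmul ℝ ℝ) hρ1
    hh.locallyIntegrable x
  have hfd : fderiv ℝ (fun x => ∫ t, ρ t • h (x - t)) x = _ := hder.fderiv
  have hρ' : Continuous (fderiv ℝ ρ) := hρ1.continuous_fderiv (by norm_num)
  have hex := ((hρc.fderiv ℝ).convolutionExists_left
    (L := ContinuousLinearMap.precompL (E d) (ContinuousLinearMap.lsmul ℝ ℝ : ℝ →L[ℝ] ℝ →L[ℝ] ℝ))
    hρ' hh.locallyIntegrable) x
  ext i
  rw [approx_gradient_coord, hfd]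
  have e1 : (∫ t, ρ t • H (x - t)) i = ∫ t, ρ t * H (x - t) i := by
    have h1 := (EuclideanSpace.proj i : E d →L[ℝ] ℝ).integral_comp_comm
      (approx_conv_exists hρcont hρc hH x)
    have h2 : (EuclideanSpace.proj i : E d →L[ℝ] ℝ) (∫ t, ρ t • H (x - t))
        = (∫ t, ρ t • H (x - t)) i := rfl
    rw [← h2, ← h1]
    refine integral_congr_ae (Eventually.of_forall fun t => ?_)
    simp
  rw [e1]
  have e2 : (convolution (fderiv ℝ ρ) h
      (ContinuousLinearMap.precompL (E d) (ContinuousLinearMap.lsmul ℝ ℝ : ℝ →L[ℝ] ℝ →L[ℝ] ℝ))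
      volume x) (EuclideanSpace.single i 1)
      = ∫ t, fderiv ℝ ρ t (EuclideanSpace.single i 1) * h (x - t) := by
    unfold convolution
    rw [ContinuousLinearMap.integral_apply hex.integrable]
    refine integral_congr_ae (Eventually.of_forall fun t => ?_)
    simp [ContinuousLinearMap.precompL_apply]
  rw [e2]
  -- the weak gradient
  set φ : E d → ℝ := fun y => ρ (x - y) with hφ
  have hφs : ContDiff ℝ ((⊤ : ℕ∞) : WithTop ℕ∞) φ := hρ.comp (contDiff_const.sub contDiff_id)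
  have hφc : HasCompactSupport φ := hρc.comp_homeomorph (Homeomorph.subLeft x)
  have hφd : ∀ y, fderiv ℝ φ y = -fderiv ℝ ρ (x - y) := by
    intro y
    have h1 : HasFDerivAt (fun y : E d => x - y) (-ContinuousLinearMap.id ℝ (E d)) y := by
      simpa using (hasFDerivAt_id y).const_sub x
    have h2 : HasFDerivAt ρ (fderiv ℝ ρ (x - y)) (x - y) :=
      (hρ1.differentiable (by norm_num) _).hasFDerivAt
    have h3 := h2.comp y h1
    rw [hφ]
    have h4 : fderiv ℝ (fun y => ρ (x - y)) y = _ := h3.fderiv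
    rw [h4]
    ext v
    simp
  have h1 := hw φ hφs hφc i
  have e3 : ∫ y, h y * fderiv ℝ φ y (EuclideanSpace.single i 1)
      = -∫ y, fderiv ℝ ρ (x - y) (EuclideanSpace.single i 1) * h y := by
    rw [← integral_neg]
    refine integral_congr_ae (Eventually.of_forall fun y => ?_)
    show h y * fderiv ℝ φ y (EuclideanSpace.single i 1)
      = -(fderiv ℝ ρ (x - y) (EuclideanSpace.single i 1) * h y)
    rw [hφd, _root_.neg_apply]
    ring
  rw [e3, neg_inj] at h1
  have e4 : ∫ y, fderiv ℝ ρ (x - y) (EuclideanSpace.single i 1) * h y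
      = ∫ t, fderiv ℝ ρ t (EuclideanSpace.single i 1) * h (x - t) := by
    rw [← integral_sub_left_eq_self
      (fun y => fderiv ℝ ρ (x - y) (EuclideanSpace.single i 1) * h y) volume x]
    simp only [_root_.sub_sub_cancel]
  have e5 : ∫ y, H y i * φ y = ∫ t, ρ t * H (x - t) i := by
    rw [← integral_sub_left_eq_self (fun y => H y i * φ y) volume x]
    simp only [hφ, _root_.sub_sub_cancel]
    refine integral_congr_ae (Eventually.of_forall fun t => ?_)
    show H (x - t) i * ρ t = ρ t * H (x - t) i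
    ring
  rw [← e4, h1, e5]

theorem approx_lemB {d : ℕ} {h : E d → ℝ} {H : E d → E d} (hh : Integrable h) (hH : Integrable H)
    (hw : IsWeakGrad h H) {ε : ℝ≥0∞} (hε : ε ≠ 0) :
    ∃ g : E d → ℝ, ContDiff ℝ ((⊤ : ℕ∞) : WithTop ℕ∞) g ∧ Integrable g ∧
      Integrable (fun x => gradient g x) ∧ ((∀ x, 0 ≤ h x) → ∀ x, 0 ≤ g x) ∧
      ∫⁻ x, ‖g x - h x‖ₑ ≤ ε ∧ ∫⁻ x, ‖gradient g x - H x‖ₑ ≤ ε := by
  obtain ⟨δ₁, hδ₁, h1⟩ := approx_moll hh hε
  obtain ⟨δ₂, hδ₂, h2⟩ := approx_moll hH hε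
  set δ : ℝ := min δ₁ δ₂ with hδ
  have hδ0 : 0 < δ := lt_min hδ₁ hδ₂
  let b : ContDiffBump (0 : E d) := ⟨δ / 2, δ, by positivity, by linarith⟩
  set ρ : E d → ℝ := b.normed volume with hρ
  have hρs : ContDiff ℝ ((⊤ : ℕ∞) : WithTop ℕ∞) ρ := b.contDiff_normed
  have hρc : HasCompactSupport ρ := b.hasCompactSupport_normed
  have hρ0 : ∀ t, 0 ≤ ρ t := fun t => b.nonneg_normed t
  have hρ1 : (∫ t, ρ t) = 1 := b.integral_normed
  have hρδ : ∀ t, δ ≤ ‖t‖ → ρ t = 0 := by
    intro t ht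
    by_contra h0
    have h3 : t ∈ Function.support ρ := h0
    rw [hρ, b.support_normed_eq, mem_ball_zero_iff] at h3
    exact absurd h3 (not_lt.mpr ht)
  have hρi : Integrable ρ := hρs.continuous.integrable_of_hasCompactSupport hρc
  have hgrad : ∀ x, gradient (fun x => ∫ t, ρ t • h (x - t)) x = ∫ t, ρ t • H (x - t) :=
    fun x => approx_grad hh hH hw hρs hρc x
  refine ⟨fun x => ∫ t, ρ t • h (x - t), ?_, ?_, ?_, ?_, ?_, ?_⟩
  · exact hρc.contDiff_convolution_left (L := ContinuousLinearMap.lsmul ℝ ℝ) hρs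
      hh.locallyIntegrable
  · exact Integrable.integrable_convolution (ContinuousLinearMap.lsmul ℝ ℝ) hρi hh
  · have h3 : (fun x => gradient (fun x => ∫ t, ρ t • h (x - t)) x)
        = fun x => ∫ t, ρ t • H (x - t) := funext hgrad
    rw [h3]
    exact Integrable.integrable_convolution (ContinuousLinearMap.lsmul ℝ ℝ) hρi hH
  · intro h0 x
    exact integral_nonneg fun t => mul_nonneg (hρ0 t) (h0 _)
  · exact h1 ρ hρs.continuous hρc hρ0 hρ1 fun t ht => hρδ t ((min_le_left _ _).trans ht)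
  · simp only [hgrad]
    exact h2 ρ hρs.continuous hρc hρ0 hρ1 fun t ht => hρδ t ((min_le_right _ _).trans ht)

theorem approx_lemC {d : ℕ} {g : E d → ℝ} (hg : ContDiff ℝ ((⊤ : ℕ∞) : WithTop ℕ∞) g)
    (hgi : Integrable g) (hgi' : Integrable (fun x => gradient g x)) {ε : ℝ≥0∞} (hε : ε ≠ 0) :
    ∃ k : E d → ℝ, ContDiff ℝ ((⊤ : ℕ∞) : WithTop ℕ∞) k ∧ HasCompactSupport k ∧
      ((∀ x, 0 ≤ g x) → ∀ x, 0 ≤ k x) ∧
      ∫⁻ x, ‖k x - g x‖ₑ ≤ ε ∧ ∫⁻ x, ‖gradient k x - gradient g x‖ₑ ≤ ε := by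
  let b : ContDiffBump (0 : E d) := ⟨1, 2, one_pos, by norm_num⟩
  set χ : E d → ℝ := fun x => b x with hχ
  have hχs : ContDiff ℝ ((⊤ : ℕ∞) : WithTop ℕ∞) χ := b.contDiff
  have hχc : HasCompactSupport χ := b.hasCompactSupport
  have hχ0 : ∀ x, 0 ≤ χ x := fun x => b.nonneg
  have hχ1 : ∀ x, χ x ≤ 1 := fun x => b.le_one
  have hχb : ∀ x, ‖x‖ ≤ 1 → χ x = 1 := by
    intro x hx
    exact b.one_of_mem_closedBall (by simpa using hx)
  have hχd : Continuous (fderiv ℝ χ) := hχs.continuous_fderiv (by simp)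
  obtain ⟨C, hC⟩ := hχd.bounded_above_of_compact_support (hχc.fderiv ℝ)
  have hC0 : 0 ≤ C := (norm_nonneg _).trans (hC 0)
  -- the cutoffs
  set c : ℕ → ℝ := fun m => 1 / ((m : ℝ) + 1) with hc
  have hcpos : ∀ m, 0 < c m := fun m => by positivity
  have hc1 : ∀ m, c m ≤ 1 := fun m => by
    rw [hc]
    simp only
    rw [div_le_one (by positivity)]
    have : (0 : ℝ) ≤ m := by positivity
    linarith
  set k : ℕ → E d → ℝ := fun m x => χ (c m • x) * g x with hk
  have hgd : Differentiable ℝ g := hg.differentiable (by simp)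
  have hχdiff : Differentiable ℝ χ := hχs.differentiable (by simp)
  have hks : ∀ m, ContDiff ℝ ((⊤ : ℕ∞) : WithTop ℕ∞) (k m) := fun m =>
    (hχs.comp (contDiff_const_smul (c m))).mul hg
  have hkc : ∀ m, HasCompactSupport (k m) := by
    intro m
    have h1 : HasCompactSupport (fun x : E d => χ (c m • x)) :=
      hχc.comp_homeomorph (Homeomorph.smulOfNeZero (c m) (hcpos m).ne')
    exact h1.mul_right
  have hkd : ∀ m x, HasFDerivAt (k m) (χ (c m • x) • fderiv ℝ g x
      + g x • (c m • fderiv ℝ χ (c m • x))) x := by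
    intro m x
    have h1 : HasFDerivAt (fun x : E d => c m • x) (c m • ContinuousLinearMap.id ℝ (E d)) x :=
      (hasFDerivAt_id x).const_smul (c m)
    have h2 := (hχdiff (c m • x)).hasFDerivAt.comp x h1
    have h3 := h2.mul (hgd x).hasFDerivAt
    refine h3.congr_fderiv ?_
    ext v
    simp
  have hgradsub : ∀ m x, ‖gradient (k m) x - gradient g x‖
      = ‖(χ (c m • x) - 1) • fderiv ℝ g x + g x • (c m • fderiv ℝ χ (c m • x))‖ := by
    intro m x
    unfold gradient
    rw [← map_sub, LinearIsometryEquiv.norm_map, (hkd m x).fderiv]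
    congr 1
    rw [sub_smul, one_smul]
    abel
  have hbd1 : ∀ m x, ‖k m x - g x‖ ≤ ‖g x‖ := by
    intro m x
    have e1 : k m x - g x = -((1 - χ (c m • x)) * g x) := by
      simp only [hk]; ring
    rw [e1, norm_neg, norm_mul, Real.norm_of_nonneg (by linarith [hχ1 (c m • x)])]
    calc (1 - χ (c m • x)) * ‖g x‖ ≤ 1 * ‖g x‖ :=
          mul_le_mul_of_nonneg_right (by linarith [hχ0 (c m • x)]) (norm_nonneg _)
      _ = ‖g x‖ := one_mul _
  have hbd2 : ∀ m x, ‖gradient (k m) x - gradient g x‖ ≤ ‖gradient g x‖ + C * ‖g x‖ := by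
    intro m x
    rw [hgradsub]
    refine (norm_add_le _ _).trans (add_le_add ?_ ?_)
    · have e1 : ‖gradient g x‖ = ‖fderiv ℝ g x‖ := by
        unfold gradient
        rw [LinearIsometryEquiv.norm_map]
      rw [norm_smul, e1]
      calc ‖χ (c m • x) - 1‖ * ‖fderiv ℝ g x‖ ≤ 1 * ‖fderiv ℝ g x‖ := by
            apply mul_le_mul_of_nonneg_right _ (norm_nonneg _)
            rw [Real.norm_eq_abs, abs_le]
            constructor <;> linarith [hχ0 (c m • x), hχ1 (c m • x)]
        _ = _ := one_mul _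
    · rw [norm_smul, norm_smul, Real.norm_of_nonneg (hcpos m).le, mul_comm]
      apply mul_le_mul_of_nonneg_right _ (norm_nonneg _)
      calc c m * ‖fderiv ℝ χ (c m • x)‖ ≤ 1 * C :=
            mul_le_mul (hc1 m) (hC _) (norm_nonneg _) zero_le_one
        _ = C := one_mul _
  have hct : Tendsto c atTop (𝓝 0) := tendsto_one_div_add_atTop_nhds_zero_nat
  have hev : ∀ x : E d, ∀ᶠ m in atTop, ‖c m • x‖ < 1 := by
    intro x
    have h1 : Tendsto (fun m => c m * ‖x‖) atTop (𝓝 0) := by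
      have := hct.mul_const ‖x‖
      rwa [zero_mul] at this
    filter_upwards [h1.eventually (gt_mem_nhds one_pos)] with m hm
    rwa [norm_smul, Real.norm_of_nonneg (hcpos m).le]
  have hlim1 : Tendsto (fun m => ∫⁻ x, ‖k m x - g x‖ₑ) atTop (𝓝 (∫⁻ _ : E d, 0)) := by
    refine tendsto_lintegral_of_dominated_convergence (fun x => ‖g x‖ₑ) ?_ ?_ ?_ ?_
    · intro m
      exact ((hks m).continuous.sub hg.continuous).measurable.enorm
    · intro m
      refine Eventually.of_forall fun x => ?_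
      show ‖k m x - g x‖ₑ ≤ ‖g x‖ₑ
      rw [← ofReal_norm, ← ofReal_norm]
      exact ENNReal.ofReal_le_ofReal (hbd1 m x)
    · exact hgi.2.ne
    · refine Eventually.of_forall fun x => ?_
      refine Tendsto.congr' ?_ tendsto_const_nhds
      filter_upwards [hev x] with m hm
      simp only [hk, hχb _ hm.le, one_mul, sub_self, enorm_zero]
  have hcontgrad : ∀ {u : E d → ℝ}, ContDiff ℝ ((⊤ : ℕ∞) : WithTop ℕ∞) u →
      Continuous fun x => gradient u x := by
    intro u hu
    have h1 : Continuous (fderiv ℝ u) := hu.continuous_fderiv (by simp)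
    exact (InnerProductSpace.toDual ℝ (E d)).symm.continuous.comp h1
  have hlim2 : Tendsto (fun m => ∫⁻ x, ‖gradient (k m) x - gradient g x‖ₑ) atTop
      (𝓝 (∫⁻ _ : E d, 0)) := by
    refine tendsto_lintegral_of_dominated_convergence
      (fun x => ENNReal.ofReal (‖gradient g x‖ + C * ‖g x‖)) ?_ ?_ ?_ ?_
    · intro m
      exact ((hcontgrad (hks m)).sub (hcontgrad hg)).measurable.enorm
    · intro m
      refine Eventually.of_forall fun x => ?_
      show ‖gradient (k m) x - gradient g x‖ₑ ≤ ENNReal.ofReal (‖gradient g x‖ + C * ‖g x‖)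
      rw [← ofReal_norm]
      exact ENNReal.ofReal_le_ofReal (hbd2 m x)
    · have h1 : Integrable fun x => ‖gradient g x‖ + C * ‖g x‖ := hgi'.norm.add (hgi.norm.const_mul C)
      have h2 := ofReal_integral_eq_lintegral_ofReal h1
        (Eventually.of_forall fun x => by positivity)
      rw [← h2]
      exact ENNReal.ofReal_ne_top
    · refine Eventually.of_forall fun x => ?_
      refine Tendsto.congr' ?_ tendsto_const_nhds
      filter_upwards [hev x] with m hm
      have h1 : k m =ᶠ[𝓝 x] g := by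
        have hcm : ContinuousAt (fun y : E d => ‖c m • y‖) x := by fun_prop
        filter_upwards [hcm.eventually (gt_mem_nhds hm)] with y hy
        simp only [hk, hχb _ hy.le, one_mul]
      have h2 : gradient (k m) x = gradient g x := by
        unfold gradient
        rw [h1.fderiv_eq]
      rw [h2, sub_self, enorm_zero]
  rw [lintegral_zero] at hlim1 hlim2
  have hpos : (0 : ℝ≥0∞) < ε := pos_iff_ne_zero.mpr hε
  obtain ⟨m, hm1, hm2⟩ := ((hlim1.eventually (gt_mem_nhds hpos)).and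
    (hlim2.eventually (gt_mem_nhds hpos))).exists
  refine ⟨k m, hks m, hkc m, ?_, hm1.le, hm2.le⟩
  intro h0 x
  exact mul_nonneg (hχ0 _) (h0 x)

theorem approx {d : ℕ} {h : E d → ℝ} {H : E d → E d} (hh : Integrable h) (hH : Integrable H)
    (hw : IsWeakGrad h H) :
    ∃ hn : ℕ → E d → ℝ, (∀ n, ContDiff ℝ ((⊤ : ℕ∞) : WithTop ℕ∞) (hn n)) ∧
      (∀ n, HasCompactSupport (hn n)) ∧ ((∀ x, 0 ≤ h x) → ∀ n x, 0 ≤ hn n x) ∧
      Tendsto (fun n => ∫⁻ x, ENNReal.ofReal |hn n x - h x|) atTop (𝓝 0) ∧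
      Tendsto (fun n => ∫⁻ x, ENNReal.ofReal ‖gradient (hn n) x - H x‖) atTop (𝓝 0) := by
  have key : ∀ ε : ℝ≥0∞, ε ≠ 0 → ∃ k : E d → ℝ, ContDiff ℝ ((⊤ : ℕ∞) : WithTop ℕ∞) k ∧
      HasCompactSupport k ∧ ((∀ x, 0 ≤ h x) → ∀ x, 0 ≤ k x) ∧
      ∫⁻ x, ENNReal.ofReal |k x - h x| ≤ ε + ε ∧
      ∫⁻ x, ENNReal.ofReal ‖gradient k x - H x‖ ≤ ε + ε := by
    intro ε hε
    obtain ⟨g, hg1, hg2, hg3, hg4, hg5, hg6⟩ := approx_lemB hh hH hw hε
    obtain ⟨k, hk1, hk2, hk3, hk4, hk5⟩ := approx_lemC hg1 hg2 hg3 hε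
    refine ⟨k, hk1, hk2, fun h0 => hk3 (hg4 h0), ?_, ?_⟩
    · have hki : Integrable k := hk1.continuous.integrable_of_hasCompactSupport hk2
      have hm : AEMeasurable (fun x => ‖k x - g x‖ₑ) := (hki.sub hg2).1.enorm
      calc ∫⁻ x, ENNReal.ofReal |k x - h x| ≤ ∫⁻ x, (‖k x - g x‖ₑ + ‖g x - h x‖ₑ) := by
            refine lintegral_mono fun x => ?_
            show ENNReal.ofReal |k x - h x| ≤ ‖k x - g x‖ₑ + ‖g x - h x‖ₑ
            have e1 : ENNReal.ofReal |k x - h x| = ‖k x - h x‖ₑ := by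
              rw [← ofReal_norm, Real.norm_eq_abs]
            have e2 : k x - h x = (k x - g x) + (g x - h x) := by ring
            rw [e1, e2]
            exact enorm_add_le _ _
        _ = (∫⁻ x, ‖k x - g x‖ₑ) + ∫⁻ x, ‖g x - h x‖ₑ := lintegral_add_left' hm _
        _ ≤ ε + ε := add_le_add hk4 hg5
    · have hm : AEMeasurable (fun x => ‖gradient k x - gradient g x‖ₑ) := by
        have hcontgrad : ∀ {u : E d → ℝ}, ContDiff ℝ ((⊤ : ℕ∞) : WithTop ℕ∞) u →
            Continuous fun x => gradient u x := by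
          intro u hu
          have h1 : Continuous (fderiv ℝ u) := hu.continuous_fderiv (by simp)
          exact (InnerProductSpace.toDual ℝ (E d)).symm.continuous.comp h1
        exact ((hcontgrad hk1).sub (hcontgrad hg1)).measurable.enorm.aemeasurable
      calc ∫⁻ x, ENNReal.ofReal ‖gradient k x - H x‖
          ≤ ∫⁻ x, (‖gradient k x - gradient g x‖ₑ + ‖gradient g x - H x‖ₑ) := by
            refine lintegral_mono fun x => ?_
            show ENNReal.ofReal ‖gradient k x - H x‖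
              ≤ ‖gradient k x - gradient g x‖ₑ + ‖gradient g x - H x‖ₑ
            have e2 : gradient k x - H x
                = (gradient k x - gradient g x) + (gradient g x - H x) := by abel
            rw [ofReal_norm, e2]
            exact enorm_add_le _ _
        _ = (∫⁻ x, ‖gradient k x - gradient g x‖ₑ) + ∫⁻ x, ‖gradient g x - H x‖ₑ :=
            lintegral_add_left' hm _
        _ ≤ ε + ε := add_le_add hk5 hg6
  have hex : ∀ n : ℕ, ∃ k : E d → ℝ, ContDiff ℝ ((⊤ : ℕ∞) : WithTop ℕ∞) k ∧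
      HasCompactSupport k ∧ ((∀ x, 0 ≤ h x) → ∀ x, 0 ≤ k x) ∧
      ∫⁻ x, ENNReal.ofReal |k x - h x| ≤ ENNReal.ofReal (2 * (1 / ((n : ℝ) + 1))) ∧
      ∫⁻ x, ENNReal.ofReal ‖gradient k x - H x‖ ≤ ENNReal.ofReal (2 * (1 / ((n : ℝ) + 1))) := by
    intro n
    have h1 : (0 : ℝ) < 1 / ((n : ℝ) + 1) := by positivity
    have h2 := key (ENNReal.ofReal (1 / ((n : ℝ) + 1))) (by
      rw [Ne, ENNReal.ofReal_eq_zero, not_le]
      exact h1)
    have e1 : ENNReal.ofReal (1 / ((n : ℝ) + 1)) + ENNReal.ofReal (1 / ((n : ℝ) + 1))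
        = ENNReal.ofReal (2 * (1 / ((n : ℝ) + 1))) := by
      rw [← ENNReal.ofReal_add h1.le h1.le, two_mul]
    rwa [e1] at h2
  choose hn h1 h2 h3 h4 h5 using hex
  have hlim : Tendsto (fun n : ℕ => ENNReal.ofReal (2 * (1 / ((n : ℝ) + 1)))) atTop (𝓝 0) := by
    have h6 : Tendsto (fun n : ℕ => 2 * (1 / ((n : ℝ) + 1))) atTop (𝓝 0) := by
      have := (tendsto_one_div_add_atTop_nhds_zero_nat (𝕜 := ℝ)).const_mul 2
      rwa [mul_zero] at this
    have h7 := ENNReal.tendsto_ofReal h6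
    rwa [ENNReal.ofReal_zero] at h7
  exact ⟨hn, h1, h2, fun h0 n => h3 n h0,
    tendsto_of_tendsto_of_tendsto_of_le_of_le tendsto_const_nhds hlim (fun _ => bot_le) h4,
    tendsto_of_tendsto_of_tendsto_of_le_of_le tendsto_const_nhds hlim (fun _ => bot_le) h5⟩

end

end Vale.Agent.P137F
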