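import Vale.Agent.Lib.P137F.Defs

/-!
# P137F: one dimensional area inequality

`area_le`: for `s ∈ A` (differentiable, `deriv G s > 0`) there is a rational `q > s` with
`G y > G s` for all `y ∈ (s, q]`.  For fixed `q` the set `A_q` of such `s` is one on which `G` is
injective (if `s₁ < s₂ ≤ q` in `A_q` then `G s₂ > G s₁`).  Disjointify over the countable set of
`q`, use `MeasureTheory.lintegral_image_eq_lintegral_abs_deriv_mul` (or
`lintegral_abs_det_fderiv_eq_addHaar_image`) on each piece, and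
`∑_q 1_{G '' A'_q}(l) = #(A ∩ G⁻¹{l}) ≤ m l` off `N`.

`null_levels`: the image under a Lipschitz map of the null set of non-differentiability is null, and
the image of the set with zero derivative is null (`addHaar_image_eq_zero_of_det_fderiv_eq_zero`).
-/

namespace Vale.Agent.P137F

open MeasureTheory Metric Set ENNReal

noncomputable section

/-- points of `A` from which `G` stays above its value up to `q` -/
private def pieceQ (G : ℝ → ℝ) (A : Set ℝ) (q : ℚ) : Set ℝ :=
  {s | s ∈ A ∧ s < (q : ℝ) ∧ ∀ y : ℚ, s < (y : ℝ) → y ≤ q → G s ≤ G y}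

private theorem pieceQ_meas (G : ℝ → ℝ) (hG : Continuous G) (A : Set ℝ) (hA : MeasurableSet A)
    (q : ℚ) : MeasurableSet (pieceQ G A q) := by
  have h : pieceQ G A q = A ∩ (Iio (q : ℝ) ∩ ⋂ y : ℚ, {s : ℝ | s < (y : ℝ) → y ≤ q → G s ≤ G y}) := by
    ext s
    simp only [pieceQ, mem_ofPred_eq, mem_inter_iff, mem_Iio, mem_iInter]
  rw [h]
  refine hA.inter (measurableSet_Iio.inter (MeasurableSet.iInter fun y => ?_))
  by_cases hy : y ≤ q
  · have h1 : {s : ℝ | s < (y : ℝ) → y ≤ q → G s ≤ G y} = Ici (y : ℝ) ∪ {s | G s ≤ G y} := by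
      ext s
      simp only [hy, forall_const, mem_ofPred_eq, mem_union, mem_Ici]
      constructor
      · intro h
        rcases lt_or_ge s (y : ℝ) with h' | h'
        · exact Or.inr (h h')
        · exact Or.inl h'
      · rintro (h | h) h'
        · exact absurd h' (not_lt.mpr h)
        · exact h
    rw [h1]
    exact measurableSet_Ici.union (isClosed_le hG continuous_const).measurableSet
  · have h1 : {s : ℝ | s < (y : ℝ) → y ≤ q → G s ≤ G y} = univ := by
      ext s
      simp [hy]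
    rw [h1]
    exact MeasurableSet.univ

private theorem pieceQ_mono (G : ℝ → ℝ) (hG : Continuous G) (A : Set ℝ) (q : ℚ) {s : ℝ}
    (hs : s ∈ pieceQ G A q) {y : ℝ} (hsy : s < y) (hyq : y < q) : G s ≤ G y := by
  by_contra hcon
  push Not at hcon
  have h1 : ∀ᶠ z in nhds y, G z < G s ∧ s < z ∧ z < q := by
    refine (hG.continuousAt.eventually (gt_mem_nhds hcon)).and ?_
    exact (lt_mem_nhds hsy).and (gt_mem_nhds hyq)
  rw [Metric.eventually_nhds_iff] at h1
  obtain ⟨ε, hε, h1⟩ := h1
  obtain ⟨z, hz1, hz2⟩ := exists_rat_btwn (show y < y + ε by linarith)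
  have h2 := h1 (y := (z : ℝ)) (by rw [Real.dist_eq, abs_lt]; constructor <;> linarith)
  have h3 := hs.2.2 z h2.2.1 (by exact_mod_cast h2.2.2.le)
  linarith [h2.1]

private theorem pieceQ_inj (G : ℝ → ℝ) (hG : Continuous G) (A : Set ℝ)
    (hd : ∀ s ∈ A, DifferentiableAt ℝ G s ∧ 0 < deriv G s) (q : ℚ) :
    InjOn G (pieceQ G A q) := by
  have key : ∀ s₁ ∈ pieceQ G A q, ∀ s₂ ∈ pieceQ G A q, s₁ < s₂ → G s₁ ≠ G s₂ := by
    intro s₁ h₁ s₂ h₂ hlt heq
    have hmin : IsLocalMin G s₂ := by
      have h1 : ∀ᶠ z in nhds s₂, s₁ < z ∧ z < q := (lt_mem_nhds hlt).and (gt_mem_nhds h₂.2.1)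
      filter_upwards [h1] with z hz
      rw [← heq]
      exact pieceQ_mono G hG A q h₁ hz.1 hz.2
    have := hmin.deriv_eq_zero
    have hpos := (hd s₂ h₂.1).2
    linarith
  intro s₁ h₁ s₂ h₂ heq
  rcases lt_trichotomy s₁ s₂ with h | h | h
  · exact absurd heq (key s₁ h₁ s₂ h₂ h)
  · exact h
  · exact absurd heq.symm (key s₂ h₂ s₁ h₁ h)

private theorem pieceQ_exists (G : ℝ → ℝ) (A : Set ℝ)
    (hd : ∀ s ∈ A, DifferentiableAt ℝ G s ∧ 0 < deriv G s) {s : ℝ} (hs : s ∈ A) :
    ∃ q : ℚ, s ∈ pieceQ G A q := by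
  obtain ⟨hdiff, hpos⟩ := hd s hs
  have h1 := hdiff.hasDerivAt
  rw [hasDerivAt_iff_tendsto_slope] at h1
  have h2 : ∀ᶠ z in nhdsWithin s {s}ᶜ, 0 < slope G s z := h1.eventually (lt_mem_nhds hpos)
  rw [eventually_nhdsWithin_iff, Metric.eventually_nhds_iff] at h2
  obtain ⟨ε, hε, h2⟩ := h2
  obtain ⟨q, hq1, hq2⟩ := exists_rat_btwn (show s < s + ε by linarith)
  refine ⟨q, hs, hq1, fun y hy hyq => ?_⟩
  have hyq' : (y : ℝ) ≤ q := by exact_mod_cast hyq
  have h3 := h2 (y := (y : ℝ)) (by rw [Real.dist_eq, abs_lt]; constructor <;> linarith)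
    (by simpa using hy.ne')
  rw [slope_def_field, _root_.div_pos_iff] at h3
  rcases h3 with ⟨h3, -⟩ | ⟨-, h3⟩
  · linarith
  · linarith

theorem area_le (G : ℝ → ℝ) (hG : Continuous G) (A : Set ℝ) (hA : MeasurableSet A)
    (hd : ∀ s ∈ A, DifferentiableAt ℝ G s ∧ 0 < deriv G s) (m : ℝ → ℝ≥0∞) (hm : Measurable m)
    (N : Set ℝ) (hN : volume N = 0)
    (h : ∀ l, l ∉ N → ∀ S : Finset ℝ, (∀ s ∈ S, s ∈ A) → (∀ s ∈ S, G s = l) →
      (S.card : ℝ≥0∞) ≤ m l) :
    ∫⁻ s in A, ENNReal.ofReal (deriv G s) ≤ ∫⁻ l, m l := by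
  classical
  obtain ⟨e, he⟩ := exists_surjective_nat ℚ
  set B : ℕ → Set ℝ := fun n => pieceQ G A (e n) with hB
  set C : ℕ → Set ℝ := disjointed B with hC
  have hBm : ∀ n, MeasurableSet (B n) := fun n => pieceQ_meas G hG A hA _
  have hCm : ∀ n, MeasurableSet (C n) := MeasurableSet.disjointed hBm
  have hCB : ∀ n, C n ⊆ B n := fun n => disjointed_subset B n
  have hCd : Pairwise (Function.onFun Disjoint C) := disjoint_disjointed B
  have hCA : ∀ n, C n ⊆ A := fun n s hs => (hCB n hs).1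
  have hCinj : ∀ n, InjOn G (C n) := fun n => (pieceQ_inj G hG A hd (e n)).mono (hCB n)
  have hU : ⋃ n, C n = A := by
    rw [hC, iUnion_disjointed]
    apply Subset.antisymm
    · exact iUnion_subset fun n s hs => hs.1
    · intro s hs
      obtain ⟨q, hq⟩ := pieceQ_exists G A hd hs
      obtain ⟨n, rfl⟩ := he q
      exact mem_iUnion.mpr ⟨n, hq⟩
  have hIm : ∀ n, MeasurableSet (G '' C n) := fun n =>
    (hCm n).image_of_continuousOn_injOn hG.continuousOn (hCinj n)
  have hpiece : ∀ n, ∫⁻ s in C n, ENNReal.ofReal (deriv G s) =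
      ∫⁻ l, (G '' C n).indicator (fun _ => (1 : ℝ≥0∞)) l := by
    intro n
    rw [lintegral_indicator (hIm n)]
    rw [lintegral_image_eq_lintegral_abs_deriv_mul (hCm n)
      (fun x hx => ((hd x (hCA n hx)).1.hasDerivAt).hasDerivWithinAt) (hCinj n) (fun _ => 1)]
    refine setLIntegral_congr_fun (hCm n) fun x hx => ?_
    simp only [mul_one]
    rw [abs_of_pos (hd x (hCA n hx)).2]
  calc ∫⁻ s in A, ENNReal.ofReal (deriv G s)
      = ∫⁻ s in ⋃ n, C n, ENNReal.ofReal (deriv G s) := by rw [hU]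
    _ = ∑' n, ∫⁻ s in C n, ENNReal.ofReal (deriv G s) := lintegral_iUnion hCm hCd _
    _ = ∑' n, ∫⁻ l, (G '' C n).indicator (fun _ => (1 : ℝ≥0∞)) l := by
        congr 1; funext n; exact hpiece n
    _ = ∫⁻ l, ∑' n, (G '' C n).indicator (fun _ => (1 : ℝ≥0∞)) l := by
        rw [lintegral_tsum]
        exact fun n => (measurable_const.indicator (hIm n)).aemeasurable
    _ ≤ ∫⁻ l, m l := by
        refine lintegral_mono_ae ?_
        have hN' : ∀ᵐ l, l ∉ N := measure_eq_zero_iff_ae_notMem.mp hN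
        filter_upwards [hN'] with l hl
        rw [ENNReal.tsum_eq_iSup_sum]
        refine iSup_le fun F => ?_
        have hsum : ∑ n ∈ F, (G '' C n).indicator (fun _ => (1 : ℝ≥0∞)) l =
            ((F.filter fun n => l ∈ G '' C n).card : ℝ≥0∞) := by
          rw [Finset.card_filter]
          push_cast
          refine Finset.sum_congr rfl fun n _ => ?_
          by_cases hn : l ∈ G '' C n
          · simp [hn]
          · simp [hn]
        rw [hsum]
        have hch : ∀ n, ∃ s, l ∈ G '' C n → s ∈ C n ∧ G s = l := by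
          intro n
          by_cases hn : l ∈ G '' C n
          · obtain ⟨s, hs, hs'⟩ := hn
            exact ⟨s, fun _ => ⟨hs, hs'⟩⟩
          · exact ⟨0, fun h => absurd h hn⟩
        choose s hs using hch
        have hinj : Set.InjOn s (F.filter fun n => l ∈ G '' C n : Finset ℕ) := by
          intro a ha b hb hab
          simp only [Finset.coe_filter, mem_ofPred_eq] at ha hb
          by_contra hne
          have h1 := (hs a ha.2).1
          have h2 := (hs b hb.2).1
          rw [← hab] at h2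
          exact Set.disjoint_left.mp (hCd hne) h1 h2
        have hcard := Finset.card_image_of_injOn hinj
        rw [← hcard]
        refine h l hl _ ?_ ?_
        · intro x hx
          obtain ⟨n, hn, rfl⟩ := Finset.mem_image.mp hx
          exact hCA n (hs n (Finset.mem_filter.mp hn).2).1
        · intro x hx
          obtain ⟨n, hn, rfl⟩ := Finset.mem_image.mp hx
          exact (hs n (Finset.mem_filter.mp hn).2).2

theorem null_levels (G : ℝ → ℝ) (hG : ∃ K, LipschitzWith K G) :
    volume (G '' {s | ¬ (DifferentiableAt ℝ G s ∧ deriv G s ≠ 0)}) = 0 := by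
  obtain ⟨K, hK⟩ := hG
  have hsub : {s | ¬ (DifferentiableAt ℝ G s ∧ deriv G s ≠ 0)} ⊆
      {s | ¬ DifferentiableAt ℝ G s} ∪ {s | DifferentiableAt ℝ G s ∧ deriv G s = 0} := by
    intro s hs
    by_cases h : DifferentiableAt ℝ G s
    · right
      refine ⟨h, ?_⟩
      by_contra h'
      exact hs ⟨h, h'⟩
    · exact Or.inl h
  refine measure_mono_null (image_mono hsub) ?_
  rw [image_union]
  refine measure_union_null ?_ ?_
  · have hnull : volume {s | ¬ DifferentiableAt ℝ G s} = 0 := hK.ae_differentiableAt_real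
    have h1 := (hK.lipschitzOnWith (s := {s | ¬ DifferentiableAt ℝ G s})).hausdorffMeasure_image_le
      (d := 1) zero_le_one
    rw [hausdorffMeasure_real, hnull, mul_zero] at h1
    exact le_antisymm h1 bot_le
  · refine addHaar_image_eq_zero_of_det_fderivWithin_eq_zero volume
      (f' := fun _ => ContinuousLinearMap.toSpanSingleton ℝ (0 : ℝ)) ?_ ?_
    · intro x hx
      have h1 := hx.1.hasDerivAt
      rw [hx.2] at h1
      exact h1.hasFDerivAt.hasFDerivWithinAt
    · intro x _
      exact ContinuousLinearMap.det_toSpanSingleton (0 : ℝ)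

end

end Vale.Agent.P137F
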