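import Vale.Agent.Lib.P137F.Area1D

/-!
# P137F: type A points on a line

`G ≥ g`, both Lipschitz.  `A` = points `s` with `G' s > 0` such that `G ≥ G s` on `[s, s+q]`,
`g (s+q) > G s` and `[s, s+q] ⊆ Z`, `Z` open.  Then `∫_A G' ≤ ∫_Z |g'|`.

Proof. Use `area_le` with `m l = liminf_j ∑_i 1[g (i/2^j) ≤ l < g ((i+1)/2^j)]` over the `i` with
`[i/2^j, (i+1)/2^j] ⊆ Z` and `N` = the null set of `null_levels`.  If `s₁ < s₂ < ... < s_J` are points
of `A` with `G s_i = l ∉ N` then `s_{i+1} > s_i + q_i` (otherwise `G ≥ l` near `s_{i+1}`, an interior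
minimum, so `G' (s_{i+1}) = 0`; equality is impossible since `g (s_i+q_i) > l ≥ g (s_{i+1})`).  Just to
the left of `s_i` one has `g ≤ G < l` because `G' s_i > 0`: so there is an upcrossing of the level `l`
by `g` on a closed interval `[t_i, s_i + q_i] ⊆ Z`, these intervals are disjoint (choose `t_i` close to
`s_i`), and for large `j` each contains an index `i` counted in `m`.
`∫ m ≤ liminf ∑ |g ((i+1)/2^j) - g (i/2^j)| ≤ ∫_Z |g'|` (Fatou; Lipschitz functions are integrals of
their derivative).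
-/

namespace Vale.Agent.P137F

open MeasureTheory Metric Set ENNReal

noncomputable section

/-- FTC inequality for Lipschitz functions. -/
theorem lip_sub_le (g : ℝ → ℝ) (hg : ∃ K, LipschitzWith K g) (a b : ℝ) (hab : a ≤ b) :
    ENNReal.ofReal |g b - g a| ≤ ∫⁻ s in Icc a b, ENNReal.ofReal |deriv g s| := by
  obtain ⟨K, hK⟩ := hg
  have hac : AbsolutelyContinuousOnInterval g a b :=
    (hK.lipschitzOnWith (s := uIcc a b)).absolutelyContinuousOnInterval
  have h1 : ∫ x in a..b, deriv g x = g b - g a := hac.integral_deriv_eq_sub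
  rw [← h1, intervalIntegral.integral_of_le hab]
  calc ENNReal.ofReal |∫ x in Ioc a b, deriv g x| = ‖∫ x in Ioc a b, deriv g x‖ₑ := by
        rw [Real.enorm_eq_ofReal_abs]
    _ ≤ ∫⁻ x in Ioc a b, ‖deriv g x‖ₑ := enorm_integral_le_lintegral_enorm _
    _ = ∫⁻ x in Ioc a b, ENNReal.ofReal |deriv g x| := by
        refine lintegral_congr fun x => ?_
        rw [Real.enorm_eq_ofReal_abs]
    _ ≤ _ := lintegral_mono_set Ioc_subset_Icc_self

/-- Fine dyadic grids see an upcrossing. -/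
theorem lineA_upcross (g : ℝ → ℝ) (hg : Continuous g) (t u l : ℝ) (htu : t < u) (ht : g t < l)
    (hu : l < g u) :
    ∀ᶠ j : ℕ in Filter.atTop, ∃ i : ℤ, t ≤ (i : ℝ) / 2 ^ j ∧ ((i : ℝ) + 1) / 2 ^ j ≤ u ∧
      g ((i : ℝ) / 2 ^ j) ≤ l ∧ l < g (((i : ℝ) + 1) / 2 ^ j) := by
  obtain ⟨d1, hd1, h1⟩ := Metric.eventually_nhds_iff.1
    ((hg.tendsto t).eventually (eventually_lt_nhds ht))
  obtain ⟨d2, hd2, h2⟩ := Metric.eventually_nhds_iff.1
    ((hg.tendsto u).eventually (eventually_gt_nhds hu))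
  set δ := min (min d1 d2) ((u - t) / 2) with hδ
  have hδ0 : 0 < δ := lt_min (lt_min hd1 hd2) (by linarith)
  have hev : ∀ᶠ j : ℕ in Filter.atTop, ((1 : ℝ) / 2) ^ j < δ :=
    (_root_.tendsto_pow_atTop_nhds_zero_of_lt_one (by norm_num) (by norm_num)).eventually
      (eventually_lt_nhds hδ0)
  filter_upwards [hev] with j hj
  have h2j : (0 : ℝ) < 2 ^ j := by positivity
  have hj' : (1 : ℝ) / 2 ^ j < δ := by
    rw [one_div_pow] at hj
    exact hj
  set a : ℤ := ⌈t * 2 ^ j⌉ with ha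
  set b : ℤ := ⌊u * 2 ^ j⌋ with hb
  have ha1 : t ≤ (a : ℝ) / 2 ^ j := by
    rw [le_div_iff₀ h2j]
    exact Int.le_ceil _
  have ha2 : (a : ℝ) / 2 ^ j < t + δ := by
    have : (a : ℝ) < t * 2 ^ j + 1 := Int.ceil_lt_add_one _
    calc (a : ℝ) / 2 ^ j < (t * 2 ^ j + 1) / 2 ^ j := by gcongr
      _ = t + 1 / 2 ^ j := by field_simp
      _ < t + δ := by linarith
  have hb1 : (b : ℝ) / 2 ^ j ≤ u := by
    rw [div_le_iff₀ h2j]
    exact Int.floor_le _
  have hb2 : u - δ < (b : ℝ) / 2 ^ j := by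
    have : u * 2 ^ j - 1 < (b : ℝ) := Int.sub_one_lt_floor _
    calc u - δ < u - 1 / 2 ^ j := by linarith
      _ = (u * 2 ^ j - 1) / 2 ^ j := by field_simp
      _ < (b : ℝ) / 2 ^ j := by gcongr
  have hda : δ ≤ d1 := (min_le_left _ _).trans (min_le_left _ _)
  have hdb : δ ≤ d2 := (min_le_left _ _).trans (min_le_right _ _)
  have hdc : δ ≤ (u - t) / 2 := min_le_right _ _
  have hga : g ((a : ℝ) / 2 ^ j) < l := by
    apply h1
    rw [Real.dist_eq, abs_lt]
    constructor <;> linarith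
  have hgb : l < g ((b : ℝ) / 2 ^ j) := by
    apply h2
    rw [Real.dist_eq, abs_lt]
    constructor <;> linarith
  have hab : a ≤ b := by
    have : (a : ℝ) / 2 ^ j < (b : ℝ) / 2 ^ j := by linarith
    have h3 : (a : ℝ) < (b : ℝ) := by
      rwa [div_lt_div_iff_of_pos_right h2j] at this
    exact_mod_cast h3.le
  by_contra hcon
  push Not at hcon
  have hind : ∀ i : ℤ, a ≤ i → i ≤ b → g ((i : ℝ) / 2 ^ j) ≤ l := by
    intro i hi
    induction i, hi using Int.leInduction with
    | base => intro _; exact hga.le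
    | succ n hn ih =>
      intro hnb
      have hnb' : n ≤ b := by omega
      have h4 := hcon n (ha1.trans (by
        have : (a : ℝ) ≤ (n : ℝ) := by exact_mod_cast hn
        gcongr)) (le_trans (by
        have : ((n : ℝ) + 1) ≤ (b : ℝ) := by exact_mod_cast hnb
        gcongr) hb1) (ih hnb')
      push_cast
      exact h4
  exact absurd (hind b hab le_rfl) (not_le.2 hgb)

/-- Just to the left of a point with positive derivative the function is smaller. -/
theorem lineA_left (G : ℝ → ℝ) (s : ℝ) (hd : DifferentiableAt ℝ G s) (hp : 0 < deriv G s) :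
    ∀ᶠ t in nhdsWithin s (Iio s), G t < G s := by
  have h1 := (hasDerivAt_iff_tendsto_slope.1 hd.hasDerivAt).eventually (eventually_gt_nhds hp)
  have h2 : ∀ᶠ t in nhdsWithin s (Iio s), 0 < slope G s t :=
    h1.filter_mono (nhdsWithin_mono s (fun x hx => by
      simp only [mem_Iio] at hx
      simp only [mem_compl_iff, mem_singleton_iff]
      exact hx.ne))
  filter_upwards [h2, self_mem_nhdsWithin] with t ht hts
  rw [slope_def_field] at ht
  simp only [mem_Iio] at hts
  by_contra hcon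
  push Not at hcon
  have : (G t - G s) / (t - s) ≤ 0 :=
    div_nonpos_of_nonneg_of_nonpos (by linarith) (by linarith)
  linarith

/-- The dyadic counting function. -/
def lineACnt (g : ℝ → ℝ) (Z : Set ℝ) (j : ℕ) (l : ℝ) : ℝ≥0∞ :=
  open Classical in
  ∑' i : ℤ, if Icc ((i : ℝ) / 2 ^ j) (((i : ℝ) + 1) / 2 ^ j) ⊆ Z then
    (Ico (g ((i : ℝ) / 2 ^ j)) (g (((i : ℝ) + 1) / 2 ^ j))).indicator (fun _ => (1 : ℝ≥0∞)) l else 0

theorem lineACnt_meas (g : ℝ → ℝ) (Z : Set ℝ) (j : ℕ) : Measurable (lineACnt g Z j) := by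
  classical
  unfold lineACnt
  refine Measurable.tsum fun i => ?_
  by_cases h : Icc ((i : ℝ) / 2 ^ j) (((i : ℝ) + 1) / 2 ^ j) ⊆ Z
  · simp only [h, if_true]
    exact measurable_const.indicator measurableSet_Ico
  · simp only [h, if_false]
    exact measurable_const

theorem lineACnt_int (g : ℝ → ℝ) (hg : ∃ K, LipschitzWith K g) (Z : Set ℝ) (j : ℕ) :
    ∫⁻ l, lineACnt g Z j l ≤ ∫⁻ s in Z, ENNReal.ofReal |deriv g s| := by
  classical
  have h2j : (0 : ℝ) < 2 ^ j := by positivity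
  set D : ℤ → Set ℝ := fun i =>
    if Icc ((i : ℝ) / 2 ^ j) (((i : ℝ) + 1) / 2 ^ j) ⊆ Z then
      Ico ((i : ℝ) / 2 ^ j) (((i : ℝ) + 1) / 2 ^ j) else ∅ with hD
  have hDm : ∀ i, MeasurableSet (D i) := by
    intro i
    simp only [hD]
    split_ifs
    · exact measurableSet_Ico
    · exact MeasurableSet.empty
  have hDd : Pairwise (Function.onFun Disjoint D) := by
    intro i k hik
    refine Set.disjoint_left.2 fun x hxi hxk => hik ?_
    simp only [hD] at hxi hxk
    split_ifs at hxi hxk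
    · have h1 := hxi.1
      have h2 := hxi.2
      have h3 := hxk.1
      have h4 := hxk.2
      rw [div_le_iff₀ h2j] at h1 h3
      rw [lt_div_iff₀ h2j] at h2 h4
      have h5 : (i : ℝ) < (k : ℝ) + 1 := by linarith
      have h6 : (k : ℝ) < (i : ℝ) + 1 := by linarith
      have h7 : i < k + 1 := by exact_mod_cast h5
      have h8 : k < i + 1 := by exact_mod_cast h6
      omega
    all_goals simp_all
  have hDZ : (⋃ i, D i) ⊆ Z := by
    refine iUnion_subset fun i => ?_
    simp only [hD]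
    split_ifs with h
    · exact Ico_subset_Icc_self.trans h
    · exact empty_subset _
  unfold lineACnt
  rw [lintegral_tsum]
  · calc _ ≤ ∑' i : ℤ, ∫⁻ s in D i, ENNReal.ofReal |deriv g s| := by
          refine ENNReal.tsum_le_tsum fun i => ?_
          simp only [hD]
          split_ifs with h
          · rw [lintegral_indicator measurableSet_Ico]
            simp only [lintegral_const, MeasurableSet.univ, Measure.restrict_apply, univ_inter,
              one_mul, Real.volume_Ico]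
            refine le_trans (ENNReal.ofReal_le_ofReal (le_abs_self _)) ?_
            refine le_trans (lip_sub_le g hg ((i : ℝ) / 2 ^ j) (((i : ℝ) + 1) / 2 ^ j) (by
              gcongr; linarith)) ?_
            rw [setLIntegral_congr Ico_ae_eq_Icc.symm]
          · simp
      _ = ∫⁻ s in ⋃ i, D i, ENNReal.ofReal |deriv g s| :=
          (lintegral_iUnion hDm hDd _).symm
      _ ≤ _ := lintegral_mono_set hDZ
  · intro i
    by_cases h : Icc ((i : ℝ) / 2 ^ j) (((i : ℝ) + 1) / 2 ^ j) ⊆ Z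
    · simp only [h, if_true]
      exact (measurable_const.indicator measurableSet_Ico).aemeasurable
    · simp only [h, if_false]
      exact aemeasurable_const

theorem lineA (G g : ℝ → ℝ) (hG : ∃ K, LipschitzWith K G) (hg : ∃ K, LipschitzWith K g)
    (hle : ∀ s, g s ≤ G s) (Z : Set ℝ) (hZ : IsOpen Z) (A : Set ℝ) (hA : MeasurableSet A)
    (h : ∀ s ∈ A, DifferentiableAt ℝ G s ∧ 0 < deriv G s ∧ ∃ q : ℝ, 0 < q ∧ G s < g (s + q) ∧
      ∀ s' : ℝ, 0 ≤ s' → s' ≤ q → G s ≤ G (s + s') ∧ s + s' ∈ Z) :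
    ∫⁻ s in A, ENNReal.ofReal (deriv G s) ≤ ∫⁻ s in Z, ENNReal.ofReal |deriv g s| := by
  classical
  have hgc : Continuous g := by
    obtain ⟨K, hK⟩ := hg
    exact hK.continuous
  have hGc : Continuous G := by
    obtain ⟨K, hK⟩ := hG
    exact hK.continuous
  set m : ℝ → ℝ≥0∞ := fun l => Filter.liminf (fun j => lineACnt g Z j l) Filter.atTop with hm
  have hmm : Measurable m := Measurable.liminf (fun j => lineACnt_meas g Z j)
  have key : ∀ l, l ∉ (∅ : Set ℝ) → ∀ S : Finset ℝ, (∀ s ∈ S, s ∈ A) → (∀ s ∈ S, G s = l) →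
      (S.card : ℝ≥0∞) ≤ m l := by
    intro l _ S hSA hSl
    have h' : ∀ s, s ∈ S → ∃ q : ℝ, 0 < q ∧ l < g (s + q) ∧
        ∀ s' : ℝ, 0 ≤ s' → s' ≤ q → l ≤ G (s + s') ∧ s + s' ∈ Z := by
      intro s hs
      obtain ⟨_, _, q, hq, h1, h2⟩ := h s (hSA s hs)
      rw [hSl s hs] at h1 h2
      exact ⟨q, hq, h1, h2⟩
    choose! q hq0 hql hqZ using h'
    -- separation
    have hsep : ∀ s₁ ∈ S, ∀ s₂ ∈ S, s₁ < s₂ → s₁ + q s₁ < s₂ := by
      intro s₁ h₁ s₂ h₂ h12
      by_contra hcon
      push Not at hcon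
      obtain ⟨hd, hp, _⟩ := h s₂ (hSA s₂ h₂)
      have hev := (lineA_left G s₂ hd hp).and
        ((eventually_gt_nhds h12).filter_mono (nhdsWithin_le_nhds (s := Iio s₂)))
      obtain ⟨t, ⟨ht1, ht2⟩, ht3⟩ := (hev.and (self_mem_nhdsWithin (s := Iio s₂))).exists
      have h5 := (hqZ s₁ h₁ (t - s₁) (by linarith) (by
        have : t < s₂ := ht3
        linarith)).1
      rw [hSl s₂ h₂] at ht1
      rw [show s₁ + (t - s₁) = t by ring] at h5
      linarith
    -- choose the left end points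
    have ht : ∀ s, s ∈ S → ∃ t, t < s ∧ G t < l ∧ Icc t s ⊆ Z ∧
        ∀ s₁ ∈ S, s₁ < s → s₁ + q s₁ < t := by
      intro s hs
      obtain ⟨hd, hp, _⟩ := h s (hSA s hs)
      have e1 := lineA_left G s hd hp
      have e2 : ∀ᶠ t in nhdsWithin s (Iio s), Icc t s ⊆ Z := by
        have hsZ : s ∈ Z := by
          have := (hqZ s hs 0 le_rfl (hq0 s hs).le).2
          simpa using this
        obtain ⟨ε, hε, hball⟩ := Metric.isOpen_iff.1 hZ s hsZ
        have : ∀ᶠ t in nhdsWithin s (Iio s), s - ε < t :=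
          (eventually_gt_nhds (by linarith)).filter_mono nhdsWithin_le_nhds
        filter_upwards [this] with t htt x hx
        apply hball
        rw [Metric.mem_ball, Real.dist_eq, abs_lt]
        constructor
        · linarith [hx.1]
        · linarith [hx.2]
      have e3 : ∀ᶠ t in nhdsWithin s (Iio s), ∀ s₁ ∈ S, s₁ < s → s₁ + q s₁ < t := by
        rw [Filter.eventually_all_finset]
        intro s₁ h₁
        by_cases h12 : s₁ < s
        · have := hsep s₁ h₁ s hs h12
          filter_upwards [(eventually_gt_nhds this).filter_mono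
            (nhdsWithin_le_nhds (s := Iio s))] with t ht _
          exact ht
        · exact Filter.Eventually.of_forall fun t h3 => absurd h3 h12
      obtain ⟨t, h1, h2, h3, h4⟩ :=
        (e1.and (e2.and (e3.and (self_mem_nhdsWithin (s := Iio s))))).exists
      refine ⟨t, h4, ?_, h2, h3⟩
      rw [hSl s hs] at h1
      exact h1
    choose! t hts htG htZ htsep using ht
    have hup : ∀ᶠ j : ℕ in Filter.atTop, ∀ s ∈ S, ∃ i : ℤ, t s ≤ (i : ℝ) / 2 ^ j ∧
        ((i : ℝ) + 1) / 2 ^ j ≤ s + q s ∧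
        g ((i : ℝ) / 2 ^ j) ≤ l ∧ l < g (((i : ℝ) + 1) / 2 ^ j) := by
      rw [Filter.eventually_all_finset]
      intro s hs
      refine lineA_upcross g hgc (t s) (s + q s) l ?_ ?_ (hql s hs)
      · linarith [hts s hs, hq0 s hs]
      · exact lt_of_le_of_lt (hle _) (htG s hs)
    refine Filter.le_liminf_of_le (by isBoundedDefault) ?_
    filter_upwards [hup] with j hj
    choose! φ hφ1 hφ2 hφ3 hφ4 using hj
    have h2j : (0 : ℝ) < 2 ^ j := by positivity
    have hinj : Set.InjOn φ S := by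
      have aux : ∀ s₁ ∈ S, ∀ s₂ ∈ S, s₁ < s₂ → φ s₁ ≠ φ s₂ := by
        intro s₁ h₁ s₂ h₂ h12 heq
        have h3 := htsep s₂ h₂ s₁ h₁ h12
        have h4 := hφ1 s₂ h₂
        have h5 := hφ2 s₁ h₁
        rw [← heq] at h4
        have h6 : (φ s₁ : ℝ) / 2 ^ j ≤ ((φ s₁ : ℝ) + 1) / 2 ^ j := by
          gcongr
          linarith
        linarith
      intro s₁ h₁ s₂ h₂ heq
      rcases lt_trichotomy s₁ s₂ with h12 | h12 | h12
      · exact absurd heq (aux s₁ h₁ s₂ h₂ h12)
      · exact h12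
      · exact absurd heq.symm (aux s₂ h₂ s₁ h₁ h12)
    unfold lineACnt
    calc (S.card : ℝ≥0∞) = ((S.image φ).card : ℝ≥0∞) := by
          rw [Finset.card_image_of_injOn hinj]
      _ = ∑ i ∈ S.image φ, (1 : ℝ≥0∞) := by simp
      _ ≤ ∑ i ∈ S.image φ, (if Icc ((i : ℝ) / 2 ^ j) (((i : ℝ) + 1) / 2 ^ j) ⊆ Z then
            (Ico (g ((i : ℝ) / 2 ^ j)) (g (((i : ℝ) + 1) / 2 ^ j))).indicator
              (fun _ => (1 : ℝ≥0∞)) l else 0) := by
          refine Finset.sum_le_sum fun i hi => ?_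
          obtain ⟨s, hs, rfl⟩ := Finset.mem_image.1 hi
          have hsub : Icc ((φ s : ℝ) / 2 ^ j) (((φ s : ℝ) + 1) / 2 ^ j) ⊆ Z := by
            intro x hx
            have hx1 : t s ≤ x := (hφ1 s hs).trans hx.1
            have hx2 : x ≤ s + q s := hx.2.trans (hφ2 s hs)
            by_cases hxs : x ≤ s
            · exact htZ s hs ⟨hx1, hxs⟩
            · push Not at hxs
              have := (hqZ s hs (x - s) (by linarith) (by linarith)).2
              rwa [show s + (x - s) = x by ring] at this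
          rw [if_pos hsub, indicator_of_mem]
          exact ⟨hφ3 s hs, hφ4 s hs⟩
      _ ≤ _ := ENNReal.sum_le_tsum _
  have hA1 := area_le G hGc A hA (fun s hs => ⟨(h s hs).1, (h s hs).2.1⟩) m hmm ∅ (by simp) key
  refine hA1.trans ?_
  calc ∫⁻ l, m l ≤ Filter.liminf (fun j => ∫⁻ l, lineACnt g Z j l) Filter.atTop :=
        lintegral_liminf_le (fun j => lineACnt_meas g Z j)
    _ ≤ Filter.liminf (fun _ : ℕ => ∫⁻ s in Z, ENNReal.ofReal |deriv g s|) Filter.atTop :=
        Filter.liminf_le_liminf (Filter.Eventually.of_forall fun j => lineACnt_int g hg Z j)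
    _ = _ := by simp

end

end Vale.Agent.P137F
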