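import Vale.Agent.Lib.P137F.Defs

/-!
# P137F: integration along lines without disintegration

For measurable `F ≥ 0`, `θ ≠ 0`, `T > 0`, slab `{x : |⟪x,θ⟫| < T ‖θ‖²}`:
`∫_{slab} ∫_ℝ F (x + s θ) ds dx = 2 T ∫ F` (Tonelli, translation invariance; for fixed `z` the set
of `s` with `z - s θ` in the slab is an interval of length `2T`).
-/

namespace Vale.Agent.P137F

open MeasureTheory Metric Set ENNReal

noncomputable section

def slab {d : ℕ} (θ : E d) (T : ℝ) : Set (E d) := {x | |inner ℝ x θ| < T * ‖θ‖ ^ 2}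

theorem measurableSet_slab {d : ℕ} (θ : E d) (T : ℝ) : MeasurableSet (slab θ T) := by
  unfold slab
  apply measurableSet_lt
  · fun_prop
  · fun_prop

theorem slab_fiber {d : ℕ} (θ : E d) (hθ : θ ≠ 0) (T : ℝ) (z : E d) :
    {s : ℝ | z - s • θ ∈ slab θ T} =
      Ioo (inner ℝ z θ / ‖θ‖ ^ 2 - T) (inner ℝ z θ / ‖θ‖ ^ 2 + T) := by
  have hn : 0 < ‖θ‖ ^ 2 := by positivity
  ext s
  have h1 : inner ℝ (z - s • θ) θ = ‖θ‖ ^ 2 * (inner ℝ z θ / ‖θ‖ ^ 2 - s) := by
    rw [inner_sub_left, inner_smul_left, real_inner_self_eq_norm_sq]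
    field_simp
    simp only [conj_trivial]
    ring
  change |inner ℝ (z - s • θ) θ| < T * ‖θ‖ ^ 2 ↔ _
  rw [h1, abs_mul, abs_of_pos hn, mul_comm T, mul_lt_mul_iff_right₀ hn, abs_lt, mem_Ioo]
  constructor
  · rintro ⟨a, b⟩
    constructor <;> linarith
  · rintro ⟨a, b⟩
    constructor <;> linarith

theorem slab_lintegral {d : ℕ} (F : E d → ℝ≥0∞) (hF : Measurable F) (θ : E d) (hθ : θ ≠ 0)
    (T : ℝ) (hT : 0 < T) :
    ∫⁻ x in slab θ T, ∫⁻ s : ℝ, F (x + s • θ) = ENNReal.ofReal (2 * T) * ∫⁻ x, F x := by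
  have hS := measurableSet_slab θ T
  have hmeas1 : Measurable (fun p : E d × ℝ => (slab θ T).indicator 1 p.1 * F (p.1 + p.2 • θ)) := by
    apply Measurable.mul
    · exact (measurable_one.indicator hS).comp measurable_fst
    · exact hF.comp (by fun_prop)
  have hmeas2 : Measurable (fun p : ℝ × E d =>
      (slab θ T).indicator (1 : E d → ℝ≥0∞) (p.2 - p.1 • θ) * F p.2) := by
    apply Measurable.mul
    · exact (measurable_one.indicator hS).comp (by fun_prop)
    · exact hF.comp (by fun_prop)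
  calc ∫⁻ x in slab θ T, ∫⁻ s : ℝ, F (x + s • θ)
      = ∫⁻ x, ∫⁻ s : ℝ, (slab θ T).indicator 1 x * F (x + s • θ) := by
        rw [← lintegral_indicator hS]
        refine lintegral_congr fun x => ?_
        rw [lintegral_const_mul' _ _ (by
          by_cases hx : x ∈ slab θ T <;> simp [hx])]
        by_cases hx : x ∈ slab θ T <;> simp [hx]
    _ = ∫⁻ s : ℝ, ∫⁻ x, (slab θ T).indicator 1 x * F (x + s • θ) := by
        rw [lintegral_lintegral_swap]
        exact hmeas1.aemeasurable
    _ = ∫⁻ s : ℝ, ∫⁻ x, (slab θ T).indicator 1 (x - s • θ) * F x := by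
        refine lintegral_congr fun s => ?_
        rw [← lintegral_add_right_eq_self (μ := volume)
          (fun x : E d => (slab θ T).indicator (1 : E d → ℝ≥0∞) (x - s • θ) * F x) (s • θ)]
        simp
    _ = ∫⁻ x, ∫⁻ s : ℝ, (slab θ T).indicator 1 (x - s • θ) * F x := by
        rw [lintegral_lintegral_swap]
        exact hmeas2.aemeasurable
    _ = ∫⁻ x, ENNReal.ofReal (2 * T) * F x := by
        refine lintegral_congr fun x => ?_
        have hm : Measurable (fun s : ℝ => (slab θ T).indicator (1 : E d → ℝ≥0∞) (x - s • θ)) :=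
          (measurable_one.indicator hS).comp (by fun_prop)
        rw [lintegral_mul_const _ hm]
        congr 1
        have h2 : (fun s : ℝ => (slab θ T).indicator (1 : E d → ℝ≥0∞) (x - s • θ)) =
            ({s : ℝ | x - s • θ ∈ slab θ T}).indicator 1 := by
          ext s
          rfl
        rw [h2, slab_fiber θ hθ, lintegral_indicator_one measurableSet_Ioo, Real.volume_Ioo]
        congr 1
        ring
    _ = ENNReal.ofReal (2 * T) * ∫⁻ x, F x := lintegral_const_mul _ hF

/-- comparison on lines implies comparison in the space. -/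
theorem lintegral_le_of_lines {d : ℕ} (F H : E d → ℝ≥0∞) (hF : Measurable F) (hH : Measurable H)
    (θ : E d) (hθ : θ ≠ 0)
    (h : ∀ᵐ x, ∫⁻ s : ℝ, F (x + s • θ) ≤ ∫⁻ s : ℝ, H (x + s • θ)) :
    ∫⁻ x, F x ≤ ∫⁻ x, H x := by
  have h1 := slab_lintegral F hF θ hθ (1 / 2) (by norm_num)
  have h2 := slab_lintegral H hH θ hθ (1 / 2) (by norm_num)
  have h3 : ENNReal.ofReal (2 * (1 / 2)) = 1 := by norm_num
  rw [h3, one_mul] at h1 h2
  rw [← h1, ← h2]
  exact lintegral_mono_ae (ae_restrict_of_ae h)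

/-- a property which holds a.e. holds a.e. on almost every line. -/
theorem ae_line {d : ℕ} (P : E d → Prop) (hP : ∀ᵐ x, P x) (θ : E d) :
    ∀ᵐ x, ∀ᵐ s : ℝ, P (x + s • θ) := by
  obtain ⟨N, hN, hNm, hN0⟩ := exists_measurable_superset_of_null (ae_iff.1 hP)
  have hmeas : MeasurableSet {p : ℝ × E d | p.2 + p.1 • θ ∈ N} :=
    (show Measurable (fun p : ℝ × E d => p.2 + p.1 • θ) by fun_prop) hNm
  have hnull : (volume.prod volume : Measure (ℝ × E d)) {p : ℝ × E d | p.2 + p.1 • θ ∈ N} = 0 := by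
    rw [Measure.measure_prod_null hmeas]
    refine Filter.Eventually.of_forall fun s => ?_
    change volume ((fun x : E d => x + s • θ) ⁻¹' N) = 0
    rw [measure_preimage_add_right]
    exact hN0
  have hae : ∀ᵐ p : ℝ × E d ∂(volume.prod volume), p.2 + p.1 • θ ∉ N := by
    rw [ae_iff]
    simpa using hnull
  have hae2 : ∀ᵐ p : E d × ℝ ∂(volume.prod volume), p.1 + p.2 • θ ∉ N := by
    have := (Measure.measurePreserving_swap (μ := (volume : Measure (E d)))
      (ν := (volume : Measure ℝ))).quasiMeasurePreserving.ae hae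
    exact this
  have h3 := Measure.ae_ae_of_ae_prod hae2
  filter_upwards [h3] with x hx
  filter_upwards [hx] with s hs
  by_contra hc
  exact hs (hN hc)

end

end Vale.Agent.P137F
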