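import Vale.Agent.Lib.P137F.Defs2

/-!
# P137F: weak type (1,1) bound for `uM` (Vitali covering lemma), measurability, subadditivity

`Vitali.exists_disjoint_subfamily_covering_enlargement_closedBall` (or the version for balls) in
Mathlib.Topology... / MeasureTheory.Covering.Vitali.  Reduce first to balls of radius `≤ R` (if `g` is
integrable the radii with average `> a` are bounded).
-/

namespace Vale.Agent.P137F

open MeasureTheory Metric Set ENNReal

noncomputable section

theorem lt_uM_iff {d : ℕ} (g : E d → ℝ) (a : ℝ≥0∞) (x : E d) :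
    a < uM g x ↔ ∃ (z : E d) (r : ℝ), x ∈ ball z r ∧
      a < (∫⁻ y in ball z r, ENNReal.ofReal |g y|) / volume (ball z r) := by
  simp only [uM, lt_iSup_iff, exists_prop]

theorem isOpen_superlevel_uM {d : ℕ} (g : E d → ℝ) (a : ℝ≥0∞) : IsOpen {x | a < uM g x} := by
  rw [isOpen_iff_forall_mem_open]
  intro x hx
  obtain ⟨z, r, hxz, hlt⟩ := (lt_uM_iff g a x).1 hx
  refine ⟨ball z r, ?_, isOpen_ball, hxz⟩
  intro y hy
  exact (lt_uM_iff g a y).2 ⟨z, r, hy, hlt⟩

theorem measurable_uM {d : ℕ} (g : E d → ℝ) : Measurable (uM g) :=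
  measurable_of_Ioi fun a => (isOpen_superlevel_uM g a).measurableSet

theorem uM_le_add {d : ℕ} {f g : E d → ℝ} (hf : AEStronglyMeasurable f) (hg : AEStronglyMeasurable g)
    (x : E d) : uM f x ≤ uM g x + uM (fun y => f y - g y) x := by
  have key : ∀ (z : E d) (r : ℝ), x ∈ ball z r →
      (∫⁻ y in ball z r, ENNReal.ofReal |f y|) / volume (ball z r) ≤
        uM g x + uM (fun y => f y - g y) x := by
    intro z r hx
    have h1 : (∫⁻ y in ball z r, ENNReal.ofReal |f y|) ≤
        (∫⁻ y in ball z r, ENNReal.ofReal |g y|) +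
          ∫⁻ y in ball z r, ENNReal.ofReal |f y - g y| := by
      have hm : AEMeasurable (fun y => ENNReal.ofReal |g y|) (volume.restrict (ball z r)) := by
        have h2 : AEMeasurable g (volume.restrict (ball z r)) :=
          (hg.aemeasurable).restrict
        exact (h2.norm).ennreal_ofReal
      rw [← lintegral_add_left' hm]
      refine lintegral_mono fun y => ?_
      rw [← ENNReal.ofReal_add (abs_nonneg _) (abs_nonneg _)]
      refine ENNReal.ofReal_le_ofReal ?_
      calc |f y| = |g y + (f y - g y)| := by ring_nf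
        _ ≤ |g y| + |f y - g y| := abs_add_le _ _
    have h3 : (∫⁻ y in ball z r, ENNReal.ofReal |g y|) / volume (ball z r) ≤ uM g x :=
      le_iSup_of_le z (le_iSup_of_le r (le_iSup_of_le hx le_rfl))
    have h4 : (∫⁻ y in ball z r, ENNReal.ofReal |f y - g y|) / volume (ball z r) ≤
        uM (fun y => f y - g y) x :=
      le_iSup_of_le z (le_iSup_of_le r (le_iSup_of_le hx le_rfl))
    calc (∫⁻ y in ball z r, ENNReal.ofReal |f y|) / volume (ball z r)
        ≤ ((∫⁻ y in ball z r, ENNReal.ofReal |g y|) +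
          ∫⁻ y in ball z r, ENNReal.ofReal |f y - g y|) / volume (ball z r) := by
          gcongr
      _ = (∫⁻ y in ball z r, ENNReal.ofReal |g y|) / volume (ball z r) +
          (∫⁻ y in ball z r, ENNReal.ofReal |f y - g y|) / volume (ball z r) :=
          ENNReal.add_div
      _ ≤ _ := add_le_add h3 h4
  refine iSup_le fun z => iSup_le fun r => iSup_le fun hx => key z r hx

/-- the radii of the balls with average `> a` are bounded. -/
theorem radius_bound (d : ℕ) (hd : 0 < d) (g : E d → ℝ) (hg : Integrable g) (a : ℝ) (ha : 0 < a) :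
    ∃ R : ℝ, ∀ (z : E d) (r : ℝ), 0 < r →
      ENNReal.ofReal a < (∫⁻ y in ball z r, ENNReal.ofReal |g y|) / volume (ball z r) → r ≤ R := by
  have : Nonempty (Fin d) := ⟨⟨0, hd⟩⟩
  have : Nontrivial (E d) := inferInstance
  have hI : (∫⁻ y, ENNReal.ofReal |g y|) ≠ ⊤ := by
    have := hg.hasFiniteIntegral
    rw [hasFiniteIntegral_iff_norm] at this
    exact this.ne
  set I : ℝ := (∫⁻ y, ENNReal.ofReal |g y|).toReal with hIdef
  set κ : ℝ := volume.real (ball (0 : E d) 1) with hκ
  have hκpos : 0 < κ := by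
    rw [hκ, measureReal_def]
    exact ENNReal.toReal_pos (measure_ball_pos _ _ one_pos).ne' measure_ball_lt_top.ne
  refine ⟨max 1 (I / (a * κ)), fun z r hr hlt => ?_⟩
  have hvol0 : volume (ball z r) ≠ 0 := (measure_ball_pos _ _ hr).ne'
  have hvolt : volume (ball z r) ≠ ⊤ := measure_ball_lt_top.ne
  have h1 : ENNReal.ofReal a * volume (ball z r) < ∫⁻ y in ball z r, ENNReal.ofReal |g y| := by
    rwa [ENNReal.lt_div_iff_mul_lt (Or.inl hvol0) (Or.inl hvolt)] at hlt
  have h2 : ENNReal.ofReal a * volume (ball z r) ≤ ∫⁻ y, ENNReal.ofReal |g y| :=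
    h1.le.trans (setLIntegral_le_lintegral _ _)
  have h3 : a * volume.real (ball z r) ≤ I := by
    have := ENNReal.toReal_mono hI h2
    rwa [ENNReal.toReal_mul, ENNReal.toReal_ofReal ha.le] at this
  have h4 : volume.real (ball z r) = r ^ d * κ := by
    have := Measure.addHaar_ball (volume : Measure (E d)) z hr.le
    rw [measureReal_def, this, ENNReal.toReal_mul, finrank_euclideanSpace_fin,
      ENNReal.toReal_ofReal (by positivity), hκ, measureReal_def]
  rw [h4] at h3
  rcases le_total r 1 with h | h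
  · exact h.trans (le_max_left _ _)
  · refine le_trans ?_ (le_max_right _ _)
    rw [le_div_iff₀ (mul_pos ha hκpos)]
    have h5 : r ≤ r ^ d := le_self_pow₀ h hd.ne'
    calc r * (a * κ) ≤ r ^ d * (a * κ) := by
          exact mul_le_mul_of_nonneg_right h5 (mul_pos ha hκpos).le
      _ = a * (r ^ d * κ) := by ring
      _ ≤ I := h3

theorem weak_type (d : ℕ) (hd : 0 < d) : ∃ C : ℝ, 0 < C ∧ ∀ (g : E d → ℝ), Integrable g →
    ∀ a : ℝ, 0 < a → volume {x | ENNReal.ofReal a < uM g x} ≤
      ENNReal.ofReal (C / a) * ∫⁻ x, ENNReal.ofReal |g x| := by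
  have : Nonempty (Fin d) := ⟨⟨0, hd⟩⟩
  have : Nontrivial (E d) := inferInstance
  refine ⟨5 ^ d, by positivity, fun g hg a ha => ?_⟩
  obtain ⟨R, hR⟩ := radius_bound d hd g hg a ha
  set t : Set (E d × ℝ) := {p | 0 < p.2 ∧
    ENNReal.ofReal a < (∫⁻ y in ball p.1 p.2, ENNReal.ofReal |g y|) / volume (ball p.1 p.2)}
    with ht
  obtain ⟨u, hut, hdisj, hcov⟩ :=
    Vitali.exists_disjoint_subfamily_covering_enlargement_closedBall t
      (fun p : E d × ℝ => p.1) (fun p : E d × ℝ => p.2) R
      (fun p hp => hR p.1 p.2 hp.1 hp.2) 5 (by norm_num)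
  have hucount : u.Countable := by
    refine hdisj.countable_of_nonempty_interior fun p hp => ?_
    have hp0 : 0 < p.2 := (hut hp).1
    exact ⟨p.1, ball_subset_interior_closedBall (mem_ball_self hp0)⟩
  have hsub : {x | ENNReal.ofReal a < uM g x} ⊆ ⋃ p ∈ u, closedBall p.1 (5 * p.2) := by
    intro x hx
    obtain ⟨z, r, hxz, hlt⟩ := (lt_uM_iff g _ x).1 hx
    have hr : 0 < r := pos_of_mem_ball hxz
    obtain ⟨b, hbu, hb⟩ := hcov (z, r) ⟨hr, hlt⟩
    exact mem_biUnion hbu (hb (ball_subset_closedBall hxz))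
  have hball : ∀ p ∈ u, volume (closedBall p.1 (5 * p.2)) ≤
      ENNReal.ofReal (5 ^ d / a) * ∫⁻ y in ball p.1 p.2, ENNReal.ofReal |g y| := by
    intro p hp
    obtain ⟨hp0, hplt⟩ := hut hp
    have hvol0 : volume (ball p.1 p.2) ≠ 0 := (measure_ball_pos _ _ hp0).ne'
    have hvolt : volume (ball p.1 p.2) ≠ ⊤ := measure_ball_lt_top.ne
    have h1 : ENNReal.ofReal a * volume (ball p.1 p.2) ≤
        ∫⁻ y in ball p.1 p.2, ENNReal.ofReal |g y| := by
      rw [ENNReal.lt_div_iff_mul_lt (Or.inl hvol0) (Or.inl hvolt)] at hplt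
      exact hplt.le
    have h2 : volume (closedBall p.1 (5 * p.2)) = ENNReal.ofReal (5 ^ d) * volume (ball p.1 p.2) := by
      have e1 := Measure.addHaar_closedBall_mul (volume : Measure (E d)) p.1
        (show (0 : ℝ) ≤ 5 by norm_num) hp0.le
      rw [e1, finrank_euclideanSpace_fin, Measure.addHaar_closedBall_eq_addHaar_ball,
        Measure.addHaar_ball_center _ p.1]
    rw [h2]
    calc ENNReal.ofReal (5 ^ d) * volume (ball p.1 p.2)
        = ENNReal.ofReal (5 ^ d / a) * (ENNReal.ofReal a * volume (ball p.1 p.2)) := by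
          rw [← mul_assoc, ← ENNReal.ofReal_mul (by positivity)]
          congr 2
          field_simp
      _ ≤ _ := by gcongr
  have hdisj' : u.PairwiseDisjoint fun p : E d × ℝ => ball p.1 p.2 := by
    intro p hp q hq hpq
    exact (hdisj hp hq hpq).mono ball_subset_closedBall ball_subset_closedBall
  calc volume {x | ENNReal.ofReal a < uM g x}
      ≤ volume (⋃ p ∈ u, closedBall p.1 (5 * p.2)) := measure_mono hsub
    _ ≤ ∑' p : u, volume (closedBall (p : E d × ℝ).1 (5 * (p : E d × ℝ).2)) :=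
        measure_biUnion_le _ hucount _
    _ ≤ ∑' p : u, ENNReal.ofReal (5 ^ d / a) *
          ∫⁻ y in ball (p : E d × ℝ).1 (p : E d × ℝ).2, ENNReal.ofReal |g y| :=
        ENNReal.tsum_le_tsum fun p => hball p p.2
    _ = ENNReal.ofReal (5 ^ d / a) *
          ∑' p : u, ∫⁻ y in ball (p : E d × ℝ).1 (p : E d × ℝ).2, ENNReal.ofReal |g y| :=
        ENNReal.tsum_mul_left
    _ = ENNReal.ofReal (5 ^ d / a) *
          ∫⁻ y in ⋃ p ∈ u, ball p.1 p.2, ENNReal.ofReal |g y| := by
        rw [lintegral_biUnion hucount (fun p _ => measurableSet_ball) hdisj']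
    _ ≤ ENNReal.ofReal (5 ^ d / a) * ∫⁻ x, ENNReal.ofReal |g x| := by
        exact mul_le_mul_right (setLIntegral_le_lintegral _ _) _

end

end Vale.Agent.P137F
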