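import Vale.Agent.Lib.P137F.MaxFun
import Vale.Agent.Lib.P137F.WeakType
import Vale.Agent.Lib.P137F.LineA
import Vale.Agent.Lib.P137F.Slab

/-!
# P137F: convergence of the maximal functions in `L¹_loc`

`translation_le`: for Lipschitz `w`: `∫ |w (y+v) - w y| ≤ ∫ |fderiv w y v|` (lines: `lip_sub_le`,
or Tonelli).
`excess_le`: put `w = (M - T)₊`, `S = {w > 0}`, `|S| ≤ |ball 0 ρ|/2`.  For `y ∈ S` at least half of the
`v ∈ ball 0 ρ` have `w (y+v) = 0`, so `(|ball 0 ρ|/2) ∫ w ≤ ∫_{v ∈ ball 0 ρ} ∫ |w (y+v) - w y| ≤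
ρ |ball 0 ρ| ∫ ‖∇M‖`.
`conv`: `|uM h_n - uM h| ≤ uM (h_n - h)`, weak type: convergence in measure; `excess_le` with the
weak type bound gives `sup_n ∫ (M_n - T)₊ → 0` as `T → ∞`; Fatou and Vitali convergence.
-/

namespace Vale.Agent.P137F

open MeasureTheory Metric Set ENNReal Filter Topology

noncomputable section

theorem Conv_abs_le {d : ℕ} {w : E d → ℝ} (hw : ∃ K, LipschitzWith K w) (v y : E d)
    (hy : ∀ᵐ s : ℝ, DifferentiableAt ℝ w (y + s • v)) :
    ENNReal.ofReal |w (y + v) - w y| ≤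
      ∫⁻ s in Icc (0 : ℝ) 1, ENNReal.ofReal |fderiv ℝ w (y + s • v) v| := by
  obtain ⟨K, hK⟩ := hw
  have hlip : ∃ K', LipschitzWith K' (fun s : ℝ => w (y + s • v)) := by
    refine ⟨K * ‖v‖₊, LipschitzWith.of_dist_le_mul fun a b => ?_⟩
    refine (hK.dist_le_mul _ _).trans (le_of_eq ?_)
    rw [dist_add_left, dist_eq_norm, dist_eq_norm, ← sub_smul, norm_smul, NNReal.coe_mul,
      coe_nnnorm]
    ring
  have h1 := lip_sub_le (fun s : ℝ => w (y + s • v)) hlip 0 1 zero_le_one
  simp only [one_smul, zero_smul, add_zero] at h1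
  refine h1.trans (le_of_eq (lintegral_congr_ae ?_))
  filter_upwards [ae_restrict_of_ae hy] with s hs
  have h2 : HasDerivAt (fun s : ℝ => y + s • v) v s := by
    have h3 := ((hasDerivAt_id s).smul_const v).const_add y
    simpa using h3
  have h3 : HasDerivAt (fun s : ℝ => w (y + s • v)) (fderiv ℝ w (y + s • v) v) s :=
    hs.hasFDerivAt.comp_hasDerivAt s h2
  rw [h3.deriv]

theorem translation_le {d : ℕ} {w : E d → ℝ} (hw : ∃ K, LipschitzWith K w) (v : E d) :
    ∫⁻ y, ENNReal.ofReal |w (y + v) - w y| ≤ ∫⁻ y, ENNReal.ofReal |fderiv ℝ w y v| := by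
  have hd : ∀ᵐ x : E d, DifferentiableAt ℝ w x := by
    obtain ⟨K, hK⟩ := hw
    exact hK.ae_differentiableAt
  have hmeas : Measurable fun y : E d => ENNReal.ofReal |fderiv ℝ w y v| :=
    (measurable_fderiv_apply_const ℝ w v).abs.ennreal_ofReal
  calc ∫⁻ y, ENNReal.ofReal |w (y + v) - w y|
      ≤ ∫⁻ y, ∫⁻ s in Icc (0 : ℝ) 1, ENNReal.ofReal |fderiv ℝ w (y + s • v) v| := by
        refine lintegral_mono_ae ?_
        filter_upwards [ae_line _ hd v] with y hy
        exact Conv_abs_le hw v y hy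
    _ = ∫⁻ s in Icc (0 : ℝ) 1, ∫⁻ y, ENNReal.ofReal |fderiv ℝ w (y + s • v) v| := by
        rw [lintegral_lintegral_swap]
        have h1 : Measurable fun p : E d × ℝ => p.1 + p.2 • v := by fun_prop
        exact (hmeas.comp h1).aemeasurable
    _ = ∫⁻ s in Icc (0 : ℝ) 1, ∫⁻ y, ENNReal.ofReal |fderiv ℝ w y v| := by
        refine lintegral_congr fun s => ?_
        exact lintegral_add_right_eq_self (μ := volume)
          (fun y : E d => ENNReal.ofReal |fderiv ℝ w y v|) (s • v)
    _ = _ := by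
        rw [lintegral_const, Measure.restrict_apply MeasurableSet.univ, univ_inter,
          Real.volume_Icc, sub_zero, ENNReal.ofReal_one, mul_one]

theorem Conv_fderiv_le {d : ℕ} {M : E d → ℝ} (hM : Continuous M) (T : ℝ) (y : E d) :
    ‖fderiv ℝ (fun x => max (M x - T) 0) y‖ ≤ ‖fderiv ℝ M y‖ := by
  rcases lt_trichotomy (M y) T with h | h | h
  · have h1 : (fun x => max (M x - T) 0) =ᶠ[𝓝 y] fun _ => (0 : ℝ) := by
      filter_upwards [hM.continuousAt.eventually (gt_mem_nhds h)] with x hx
      exact max_eq_right (by linarith)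
    rw [h1.fderiv_eq, fderiv_fun_const]
    simp
  · have h1 : IsLocalMin (fun x => max (M x - T) 0) y := by
      refine Eventually.of_forall fun x => ?_
      change max (M y - T) 0 ≤ max (M x - T) 0
      rw [h, sub_self, max_self]
      exact le_max_right _ _
    rw [h1.fderiv_eq_zero, norm_zero]
    exact norm_nonneg _
  · have h1 : (fun x => max (M x - T) 0) =ᶠ[𝓝 y] fun x => M x - T := by
      filter_upwards [hM.continuousAt.eventually (lt_mem_nhds h)] with x hx
      exact max_eq_left (by linarith)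
    rw [h1.fderiv_eq, fderiv_sub_const]

theorem excess_le {d : ℕ} {M : E d → ℝ} (hM : ∃ K, LipschitzWith K M) (T ρ : ℝ) (hρ : 0 < ρ)
    (hvol : 2 * volume {x | T < M x} ≤ volume (ball (0 : E d) ρ)) :
    ∫⁻ x, ENNReal.ofReal (M x - T) ≤
      ENNReal.ofReal (2 * ρ) * ∫⁻ x, ENNReal.ofReal ‖fderiv ℝ M x‖ := by
  have hMc : Continuous M := by
    obtain ⟨K, hK⟩ := hM
    exact hK.continuous
  set w : E d → ℝ := fun x => max (M x - T) 0 with hwdef
  have hwc : Continuous w := by fun_prop
  have hw0 : ∀ x, 0 ≤ w x := fun x => le_max_right _ _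
  have hw : ∃ K, LipschitzWith K w := by
    obtain ⟨K, hK⟩ := hM
    refine ⟨K, LipschitzWith.of_dist_le_mul fun a b => ?_⟩
    refine le_trans ?_ (hK.dist_le_mul a b)
    rw [Real.dist_eq, Real.dist_eq]
    have h1 := abs_max_sub_max_le_abs (M a - T) (M b - T) 0
    rwa [sub_sub_sub_cancel_right] at h1
  set V : ℝ≥0∞ := volume (ball (0 : E d) ρ) with hV
  have hV0 : V ≠ 0 := (measure_ball_pos volume _ hρ).ne'
  have hVt : V ≠ ⊤ := measure_ball_lt_top.ne
  have hpt : ∀ y : E d, ENNReal.ofReal (w y) * (V / 2) ≤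
      ∫⁻ v in ball (0 : E d) ρ, ENNReal.ofReal |w (y + v) - w y| := by
    intro y
    have hSm : MeasurableSet {v : E d | T < M (y + v)} :=
      (isOpen_lt continuous_const (hMc.comp (continuous_const.add continuous_id))).measurableSet
    have hS : volume {v : E d | T < M (y + v)} = volume {x | T < M x} :=
      measure_preimage_add (volume : Measure (E d)) y {x | T < M x}
    have h1 : V / 2 ≤ volume (ball (0 : E d) ρ \ {v : E d | T < M (y + v)}) := by
      refine le_trans ?_ le_measure_sdiff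
      rw [hS]
      refine ENNReal.le_sub_of_add_le_left ?_ ?_
      · refine ne_top_of_le_ne_top hVt (le_trans ?_ hvol)
        exact le_mul_of_one_le_left zero_le one_le_two
      · have h2 : volume {x | T < M x} ≤ V / 2 := by
          rw [ENNReal.le_div_iff_mul_le (Or.inl two_ne_zero) (Or.inl ENNReal.ofNat_ne_top), mul_comm]
          exact hvol
        calc volume {x | T < M x} + V / 2 ≤ V / 2 + V / 2 := by gcongr
          _ = V := ENNReal.add_halves V
    calc ENNReal.ofReal (w y) * (V / 2)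
        ≤ ENNReal.ofReal (w y) * volume (ball (0 : E d) ρ \ {v : E d | T < M (y + v)}) := by
          gcongr
      _ = ∫⁻ v in ball (0 : E d) ρ \ {v : E d | T < M (y + v)}, ENNReal.ofReal (w y) := by
          rw [setLIntegral_const]
      _ ≤ ∫⁻ v in ball (0 : E d) ρ \ {v : E d | T < M (y + v)},
            ENNReal.ofReal |w (y + v) - w y| := by
          refine setLIntegral_mono' (measurableSet_ball.diff hSm) fun v hv => ?_
          have h3 : ¬ T < M (y + v) := hv.2
          have h4 : w (y + v) = 0 := max_eq_right (by linarith)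
          rw [h4, zero_sub, abs_neg, abs_of_nonneg (hw0 y)]
      _ ≤ _ := lintegral_mono_set sdiff_subset
  have hmeas : Measurable fun y : E d => ENNReal.ofReal ‖fderiv ℝ w y‖ :=
    (measurable_fderiv ℝ w).norm.ennreal_ofReal
  have hmain : (∫⁻ y, ENNReal.ofReal (w y)) * (V / 2) ≤
      V * (ENNReal.ofReal ρ * ∫⁻ y, ENNReal.ofReal ‖fderiv ℝ w y‖) := by
    calc (∫⁻ y, ENNReal.ofReal (w y)) * (V / 2)
        = ∫⁻ y, ENNReal.ofReal (w y) * (V / 2) := by
          rw [lintegral_mul_const _ hwc.measurable.ennreal_ofReal]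
      _ ≤ ∫⁻ y, ∫⁻ v in ball (0 : E d) ρ, ENNReal.ofReal |w (y + v) - w y| :=
          lintegral_mono hpt
      _ = ∫⁻ v in ball (0 : E d) ρ, ∫⁻ y, ENNReal.ofReal |w (y + v) - w y| := by
          rw [lintegral_lintegral_swap]
          refine Measurable.aemeasurable ?_
          refine Measurable.ennreal_ofReal (Continuous.measurable ?_)
          change Continuous fun p : E d × E d => |w (p.1 + p.2) - w p.1|
          fun_prop
      _ ≤ ∫⁻ v in ball (0 : E d) ρ, (ENNReal.ofReal ρ * ∫⁻ y, ENNReal.ofReal ‖fderiv ℝ w y‖) := by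
          refine setLIntegral_mono' measurableSet_ball fun v hv => ?_
          refine (translation_le hw v).trans ?_
          rw [← lintegral_const_mul _ hmeas]
          refine lintegral_mono fun y => ?_
          rw [← ENNReal.ofReal_mul hρ.le]
          refine ENNReal.ofReal_le_ofReal ?_
          rw [← Real.norm_eq_abs, mul_comm]
          refine (ContinuousLinearMap.le_opNorm _ _).trans ?_
          exact mul_le_mul_of_nonneg_left (le_of_lt (mem_ball_zero_iff.mp hv)) (norm_nonneg _)
      _ = V * (ENNReal.ofReal ρ * ∫⁻ y, ENNReal.ofReal ‖fderiv ℝ w y‖) := by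
          rw [setLIntegral_const, mul_comm]
  have h2 : (∫⁻ y, ENNReal.ofReal (w y)) ≤
      2 * (ENNReal.ofReal ρ * ∫⁻ y, ENNReal.ofReal ‖fderiv ℝ w y‖) := by
    have h3 : (V / 2) * (∫⁻ y, ENNReal.ofReal (w y)) ≤
        (V / 2) * (2 * (ENNReal.ofReal ρ * ∫⁻ y, ENNReal.ofReal ‖fderiv ℝ w y‖)) := by
      rw [mul_comm (V / 2), ← mul_assoc (V / 2),
        ENNReal.div_mul_cancel two_ne_zero ENNReal.ofNat_ne_top]
      exact hmain
    have hVh0 : V / 2 ≠ 0 := by
      rw [ENNReal.div_ne_zero]
      exact ⟨hV0, ENNReal.ofNat_ne_top⟩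
    have hVht : V / 2 ≠ ⊤ := (ENNReal.div_lt_top hVt two_ne_zero).ne
    exact (ENNReal.mul_le_mul_iff_right hVh0 hVht).mp h3
  calc ∫⁻ x, ENNReal.ofReal (M x - T) = ∫⁻ x, ENNReal.ofReal (w x) := by
        refine lintegral_congr fun x => ?_
        rw [hwdef, ENNReal.ofReal_max, ENNReal.ofReal_zero]
        exact (max_eq_left zero_le).symm
    _ ≤ 2 * (ENNReal.ofReal ρ * ∫⁻ y, ENNReal.ofReal ‖fderiv ℝ w y‖) := h2
    _ ≤ 2 * (ENNReal.ofReal ρ * ∫⁻ y, ENNReal.ofReal ‖fderiv ℝ M y‖) := by
        gcongr with y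
        exact Conv_fderiv_le hMc T y
    _ = _ := by
        rw [← mul_assoc, ENNReal.ofReal_mul zero_le_two, ENNReal.ofReal_ofNat]

theorem Conv_exc {d : ℕ} (hd : 0 < d) (C : ℝ)
    (hC : ∀ (g : E d → ℝ), Integrable g → ∀ a : ℝ, 0 < a →
      volume {x | ENNReal.ofReal a < uM g x} ≤
        ENNReal.ofReal (C / a) * ∫⁻ x, ENNReal.ofReal |g x|)
    (f : E d → ℝ) (h0 : ∀ x, 0 ≤ f x) (hlip : ∃ K, LipschitzWith K f)
    (hcs : HasCompactSupport f) (L C₀ : ℝ)
    (hfL : ∫⁻ x, ENNReal.ofReal |f x| ≤ ENNReal.ofReal L)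
    (hgr : ∫⁻ x, ENNReal.ofReal ‖fderiv ℝ (fun x => (uM f x).toReal) x‖ ≤ ENNReal.ofReal C₀)
    (T ρ : ℝ) (hρ : 0 < ρ) (hT : 0 < T)
    (hTρ : 2 * (ENNReal.ofReal (C / T) * ENNReal.ofReal L) ≤ volume (ball (0 : E d) ρ)) :
    ∫⁻ x, ENNReal.ofReal ((uM f x).toReal - T) ≤
      ENNReal.ofReal (2 * ρ) * ENNReal.ofReal C₀ := by
  obtain ⟨hfin, hMP⟩ := maxPair_uM hd h0 hlip hcs
  have hfi : Integrable f := by
    obtain ⟨K, hK⟩ := hlip
    exact hK.continuous.integrable_of_hasCompactSupport hcs
  refine (excess_le hMP.lip_M T ρ hρ ?_).trans ?_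
  · refine le_trans ?_ hTρ
    gcongr
    calc volume {x | T < (uM f x).toReal} = volume {x | ENNReal.ofReal T < uM f x} := by
          congr 1
          ext x
          exact (ENNReal.ofReal_lt_iff_lt_toReal hT.le (hfin x).ne).symm
      _ ≤ _ := hC f hfi T hT
      _ ≤ _ := by gcongr
  · gcongr

theorem conv {d : ℕ} (hd : 0 < d) (h : E d → ℝ) (hh : Integrable h) (hn : ℕ → E d → ℝ)
    (hn0 : ∀ n x, 0 ≤ hn n x) (hnl : ∀ n, ∃ K, LipschitzWith K (hn n))
    (hnc : ∀ n, HasCompactSupport (hn n))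
    (hlim : Tendsto (fun n => ∫⁻ x, ENNReal.ofReal |hn n x - h x|) atTop (𝓝 0))
    (C₀ : ℝ) (hC : ∀ n, ∫⁻ x, ENNReal.ofReal ‖fderiv ℝ (fun x => (uM (hn n) x).toReal) x‖ ≤
      ENNReal.ofReal C₀) :
    (∀ᵐ x, uM h x < ⊤) ∧ LocallyIntegrable (fun x => (uM h x).toReal) ∧
      ∀ φ : E d → ℝ, Continuous φ → HasCompactSupport φ →
        Tendsto (fun n => ∫ x, (uM (hn n) x).toReal * φ x) atTop
          (𝓝 (∫ x, (uM h x).toReal * φ x)) := by
  obtain ⟨C, hC0, hweak⟩ := weak_type d hd
  have hni : ∀ n, Integrable (hn n) := fun n => by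
    obtain ⟨K, hK⟩ := hnl n
    exact hK.continuous.integrable_of_hasCompactSupport (hnc n)
  have hnfin : ∀ n x, uM (hn n) x < ⊤ := fun n => (maxPair_uM hd (hn0 n) (hnl n) (hnc n)).1
  set δ : ℕ → ℝ≥0∞ := fun n => ∫⁻ x, ENNReal.ofReal |hn n x - h x| with hδ
  set f : ℕ → E d → ℝ := fun n x => (uM (hn n) x).toReal with hf
  set g : E d → ℝ := fun x => (uM h x).toReal with hg
  have hgm : Measurable g := (measurable_uM h).ennreal_toReal
  have hfm : ∀ n, Measurable (f n) := fun n => (measurable_uM (hn n)).ennreal_toReal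
  have hf0 : ∀ n x, 0 ≤ f n x := fun n x => ENNReal.toReal_nonneg
  have hg0 : ∀ x, 0 ≤ g x := fun x => ENNReal.toReal_nonneg
  -- a.e. finiteness
  have hfin : ∀ᵐ x, uM h x < ⊤ := by
    have h1 : volume {x | ¬ uM h x < ⊤} = 0 := by
      have h2 : ∀ a : ℝ, 0 < a → volume {x | ¬ uM h x < ⊤} ≤
          ENNReal.ofReal (C / a) * ∫⁻ x, ENNReal.ofReal |h x| := by
        intro a ha
        refine le_trans (measure_mono fun x hx => ?_) (hweak h hh a ha)
        change ENNReal.ofReal a < uM h x
        rw [not_lt_top_iff.mp hx]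
        exact ENNReal.ofReal_lt_top
      have hA : (∫⁻ x, ENNReal.ofReal |h x|) ≠ ⊤ := by
        have h3 := hasFiniteIntegral_iff_enorm.mp hh.2
        refine ne_of_lt (lt_of_le_of_lt (le_of_eq ?_) h3)
        exact lintegral_congr fun x => (Real.enorm_eq_ofReal_abs _).symm
      have h4 : Tendsto (fun a : ℝ => ENNReal.ofReal (C / a) * ∫⁻ x, ENNReal.ofReal |h x|) atTop
          (𝓝 (0 * ∫⁻ x, ENNReal.ofReal |h x|)) := by
        refine ENNReal.Tendsto.mul_const ?_ (Or.inr hA)
        rw [← ENNReal.ofReal_zero]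
        exact ENNReal.tendsto_ofReal (tendsto_const_nhds.div_atTop tendsto_id)
      rw [zero_mul] at h4
      refine le_antisymm (ge_of_tendsto h4 ?_) zero_le
      filter_upwards [eventually_gt_atTop 0] with a ha
      exact h2 a ha
    exact h1
  -- comparison
  set e : ℕ → E d → ℝ≥0∞ := fun n => uM (fun y => hn n y - h y) with he
  have he' : ∀ n x, uM (fun y => h y - hn n y) x = e n x := by
    intro n x
    simp only [he, uM]
    simp only [abs_sub_comm]
  have hdist : ∀ n x, uM h x < ⊤ → ENNReal.ofReal |f n x - g x| ≤ e n x := by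
    intro n x hx
    have h1 := uM_le_add (hni n).aestronglyMeasurable hh.aestronglyMeasurable x
    have h2 := uM_le_add hh.aestronglyMeasurable (hni n).aestronglyMeasurable x
    rw [he'] at h2
    change uM (hn n) x ≤ uM h x + e n x at h1
    by_cases het : e n x = ⊤
    · rw [het]
      exact le_top
    · have h3 : f n x ≤ g x + (e n x).toReal := by
        have h4 := ENNReal.toReal_mono (ENNReal.add_ne_top.mpr ⟨hx.ne, het⟩) h1
        rwa [ENNReal.toReal_add hx.ne het] at h4
      have h4 : g x ≤ f n x + (e n x).toReal := by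
        have h5 := ENNReal.toReal_mono (ENNReal.add_ne_top.mpr ⟨(hnfin n x).ne, het⟩) h2
        rwa [ENNReal.toReal_add (hnfin n x).ne het] at h5
      rw [← ENNReal.ofReal_toReal het]
      refine ENNReal.ofReal_le_ofReal ?_
      rw [abs_le]
      constructor <;> linarith
  have hweake : ∀ n (a : ℝ), 0 < a → volume {x | ENNReal.ofReal a < e n x} ≤
      ENNReal.ofReal (C / a) * δ n := fun n a ha => hweak _ ((hni n).sub hh) a ha
  -- the norms
  set L : ℝ := (∫⁻ x, ENNReal.ofReal |h x|).toReal + 1 with hLdef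
  have hA : (∫⁻ x, ENNReal.ofReal |h x|) ≠ ⊤ := by
    have h3 := hasFiniteIntegral_iff_enorm.mp hh.2
    refine ne_of_lt (lt_of_le_of_lt (le_of_eq ?_) h3)
    exact lintegral_congr fun x => (Real.enorm_eq_ofReal_abs _).symm
  have hL : 0 ≤ L := by positivity
  have hnL : ∀ᶠ n in atTop, ∫⁻ x, ENNReal.ofReal |hn n x| ≤ ENNReal.ofReal L := by
    have h1 : ∀ᶠ n in atTop, δ n ≤ 1 := by
      filter_upwards [hlim.eventually (gt_mem_nhds (zero_lt_one (α := ℝ≥0∞)))] with n hn1
      exact hn1.le
    filter_upwards [h1] with n hn1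
    calc ∫⁻ x, ENNReal.ofReal |hn n x|
        ≤ ∫⁻ x, (ENNReal.ofReal |hn n x - h x| + ENNReal.ofReal |h x|) := by
          refine lintegral_mono fun x => ?_
          rw [← ENNReal.ofReal_add (abs_nonneg _) (abs_nonneg _)]
          refine ENNReal.ofReal_le_ofReal ?_
          have h2 := abs_add_le (hn n x - h x) (h x)
          rwa [sub_add_cancel] at h2
      _ = δ n + ∫⁻ x, ENNReal.ofReal |h x| := by
          rw [lintegral_add_left']
          exact ((hni n).sub hh).aestronglyMeasurable.aemeasurable.abs.ennreal_ofReal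
      _ ≤ 1 + ∫⁻ x, ENNReal.ofReal |h x| := by gcongr
      _ = ENNReal.ofReal L := by
          rw [hLdef, ENNReal.ofReal_add ENNReal.toReal_nonneg zero_le_one,
            ENNReal.ofReal_toReal hA, ENNReal.ofReal_one, add_comm]
  -- choice of the truncation level
  have hTex : ∀ ρ : ℝ, 0 < ρ → ∃ T : ℝ, 0 < T ∧
      2 * (ENNReal.ofReal (C / T) * ENNReal.ofReal L) ≤ volume (ball (0 : E d) ρ) := by
    intro ρ hρ
    have h4 : Tendsto (fun T : ℝ => 2 * (ENNReal.ofReal (C / T) * ENNReal.ofReal L)) atTop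
        (𝓝 (2 * (0 * ENNReal.ofReal L))) := by
      refine ENNReal.Tendsto.const_mul ?_ (Or.inr ENNReal.ofNat_ne_top)
      refine ENNReal.Tendsto.mul_const ?_ (Or.inr ENNReal.ofReal_ne_top)
      rw [← ENNReal.ofReal_zero]
      exact ENNReal.tendsto_ofReal (tendsto_const_nhds.div_atTop tendsto_id)
    rw [zero_mul, mul_zero] at h4
    have h5 := h4.eventually (gt_mem_nhds (measure_ball_pos volume (0 : E d) hρ))
    obtain ⟨T, hT1, hT2⟩ := (h5.and (eventually_gt_atTop 0)).exists
    exact ⟨T, hT2, hT1.le⟩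
  have hexc : ∀ T ρ : ℝ, 0 < ρ → 0 < T →
      2 * (ENNReal.ofReal (C / T) * ENNReal.ofReal L) ≤ volume (ball (0 : E d) ρ) →
      ∀ᶠ n in atTop, ∫⁻ x, ENNReal.ofReal (f n x - T) ≤
        ENNReal.ofReal (2 * ρ) * ENNReal.ofReal C₀ := by
    intro T ρ hρ hT hTρ
    filter_upwards [hnL] with n hnn
    exact Conv_exc hd C hweak (hn n) (hn0 n) (hnl n) (hnc n) L C₀ hnn (hC n) T ρ hρ hT hTρ
  -- convergence in measure
  have hinm : TendstoInMeasure volume f atTop g := by
    refine tendstoInMeasure_of_ne_top fun ε hε hεt => ?_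
    have hε' : 0 < ε.toReal / 2 := half_pos (ENNReal.toReal_pos hε.ne' hεt)
    have h1 : Tendsto (fun n => ENNReal.ofReal (C / (ε.toReal / 2)) * δ n) atTop (𝓝 0) := by
      have h2 := ENNReal.Tendsto.const_mul (a := ENNReal.ofReal (C / (ε.toReal / 2))) hlim
        (Or.inr ENNReal.ofReal_ne_top)
      rwa [mul_zero] at h2
    refine tendsto_of_tendsto_of_tendsto_of_le_of_le tendsto_const_nhds h1 (fun _ => zero_le)
      fun n => ?_
    refine le_trans ?_ (hweake n (ε.toReal / 2) hε')
    refine measure_mono_ae ?_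
    filter_upwards [hfin] with x hx
    intro hx2
    change ε ≤ edist (f n x) (g x) at hx2
    change ENNReal.ofReal (ε.toReal / 2) < e n x
    refine lt_of_lt_of_le ?_ (hdist n x hx)
    rw [edist_dist, Real.dist_eq] at hx2
    refine lt_of_lt_of_le ?_ hx2
    rw [← ENNReal.ofReal_toReal hεt]
    rw [ENNReal.toReal_ofReal ENNReal.toReal_nonneg]
    exact (ENNReal.ofReal_lt_ofReal_iff (by linarith)).mpr (by linarith)
  obtain ⟨ns, hns, hnsae⟩ := hinm.exists_seq_tendsto_ae
  have hexcg : ∀ T ρ : ℝ, 0 < ρ → 0 < T →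
      2 * (ENNReal.ofReal (C / T) * ENNReal.ofReal L) ≤ volume (ball (0 : E d) ρ) →
      ∫⁻ x, ENNReal.ofReal (g x - T) ≤ ENNReal.ofReal (2 * ρ) * ENNReal.ofReal C₀ := by
    intro T ρ hρ hT hTρ
    have h1 := hns.tendsto_atTop.eventually (hexc T ρ hρ hT hTρ)
    calc ∫⁻ x, ENNReal.ofReal (g x - T)
        = ∫⁻ x, liminf (fun k => ENNReal.ofReal (f (ns k) x - T)) atTop := by
          refine lintegral_congr_ae ?_
          filter_upwards [hnsae] with x hx
          exact ((ENNReal.tendsto_ofReal (hx.sub_const T)).liminf_eq).symm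
      _ ≤ liminf (fun k => ∫⁻ x, ENNReal.ofReal (f (ns k) x - T)) atTop :=
          lintegral_liminf_le fun k => ((hfm (ns k)).sub_const T).ennreal_ofReal
      _ ≤ _ := liminf_le_of_le (by isBoundedDefault) fun b hb => by
          obtain ⟨k, hk1, hk2⟩ := (hb.and h1).exists
          exact hk1.trans hk2
  have hgint : ∀ B : Set (E d), MeasurableSet B → volume B ≠ ⊤ → IntegrableOn g B := by
    intro B hBm hB
    obtain ⟨T, hT, hTρ⟩ := hTex 1 one_pos
    refine ⟨hgm.aestronglyMeasurable, ?_⟩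
    rw [hasFiniteIntegral_iff_enorm]
    calc ∫⁻ x in B, ‖g x‖ₑ
        ≤ ∫⁻ x in B, (ENNReal.ofReal T + ENNReal.ofReal (g x - T)) := by
          refine lintegral_mono fun x => ?_
          rw [Real.enorm_eq_ofReal (hg0 x)]
          calc ENNReal.ofReal (g x) = ENNReal.ofReal (T + (g x - T)) := by
                congr 1
                ring
            _ ≤ _ := ENNReal.ofReal_add_le
      _ = ENNReal.ofReal T * volume B + ∫⁻ x in B, ENNReal.ofReal (g x - T) := by
          rw [lintegral_add_left measurable_const, setLIntegral_const]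
      _ ≤ ENNReal.ofReal T * volume B + ENNReal.ofReal (2 * 1) * ENNReal.ofReal C₀ := by
          gcongr
          exact (setLIntegral_le_lintegral _ _).trans (hexcg T 1 one_pos hT hTρ)
      _ < ⊤ := by
          refine ENNReal.add_lt_top.mpr ⟨ENNReal.mul_lt_top ENNReal.ofReal_lt_top hB.lt_top,
            ENNReal.mul_lt_top ENNReal.ofReal_lt_top ENNReal.ofReal_lt_top⟩
  have hgloc : LocallyIntegrable g := by
    intro x
    exact ⟨closedBall x 1, closedBall_mem_nhds x one_pos,
      hgint _ measurableSet_closedBall measure_closedBall_lt_top.ne⟩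
  -- convergence in `L¹` of compact sets
  have hL1 : ∀ B : Set (E d), MeasurableSet B → volume B ≠ ⊤ →
      Tendsto (fun n => ∫⁻ x in B, ENNReal.ofReal |f n x - g x|) atTop (𝓝 0) := by
    intro B hBm hB
    have hbound : ∀ η ρ : ℝ, 0 < η → 0 < ρ → ∃ T : ℝ, 0 < T ∧ ∀ᶠ n in atTop,
        ∫⁻ x in B, ENNReal.ofReal |f n x - g x| ≤ ENNReal.ofReal η * volume B +
          (ENNReal.ofReal T * (ENNReal.ofReal (C / η) * δ n) +
            2 * (ENNReal.ofReal (2 * ρ) * ENNReal.ofReal C₀)) := by
      intro η ρ hη hρ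
      obtain ⟨T, hT, hTρ⟩ := hTex ρ hρ
      refine ⟨T, hT, ?_⟩
      filter_upwards [hexc T ρ hρ hT hTρ] with n hn1
      have hem : MeasurableSet {x | ENNReal.ofReal η < e n x} :=
        (isOpen_superlevel_uM _ _).measurableSet
      calc ∫⁻ x in B, ENNReal.ofReal |f n x - g x|
          ≤ ∫⁻ x in B, (ENNReal.ofReal η + ({x | ENNReal.ofReal η < e n x}.indicator
              (fun _ => ENNReal.ofReal T) x + (ENNReal.ofReal (f n x - T) +
                ENNReal.ofReal (g x - T)))) := by
            refine lintegral_mono_ae ?_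
            filter_upwards [ae_restrict_of_ae hfin] with x hx
            by_cases hxe : ENNReal.ofReal η < e n x
            · have hmem : x ∈ {x | ENNReal.ofReal η < e n x} := hxe
              rw [indicator_of_mem hmem]
              refine le_trans ?_ le_add_self
              have h5 : |f n x - g x| ≤ T + (max (f n x - T) 0 + max (g x - T) 0) := by
                have a1 := hf0 n x
                have a2 := hg0 x
                have a3 := le_max_left (f n x - T) 0
                have a4 := le_max_left (g x - T) 0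
                have a5 := le_max_right (f n x - T) 0
                have a6 := le_max_right (g x - T) 0
                rw [abs_le]
                constructor <;> linarith
              calc ENNReal.ofReal |f n x - g x|
                  ≤ ENNReal.ofReal (T + (max (f n x - T) 0 + max (g x - T) 0)) :=
                    ENNReal.ofReal_le_ofReal h5
                _ = _ := by
                    rw [ENNReal.ofReal_add hT.le (by positivity),
                      ENNReal.ofReal_add (le_max_right _ _) (le_max_right _ _),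
                      ENNReal.ofReal_max, ENNReal.ofReal_max, ENNReal.ofReal_zero,
                      max_eq_left zero_le, max_eq_left zero_le]
            · refine le_trans ((hdist n x hx).trans (not_lt.mp hxe)) le_self_add
        _ = ENNReal.ofReal η * volume B +
            ((∫⁻ x in B, {x | ENNReal.ofReal η < e n x}.indicator
              (fun _ => ENNReal.ofReal T) x) + ((∫⁻ x in B, ENNReal.ofReal (f n x - T)) +
                ∫⁻ x in B, ENNReal.ofReal (g x - T))) := by
            rw [lintegral_add_left measurable_const, setLIntegral_const,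
              lintegral_add_left (measurable_const.indicator hem),
              lintegral_add_left ((hfm n).sub_const T).ennreal_ofReal]
        _ ≤ _ := by
            rw [two_mul]
            gcongr
            · refine (setLIntegral_le_lintegral _ _).trans ?_
              rw [lintegral_indicator hem, setLIntegral_const]
              gcongr
              exact hweake n η hη
            · exact (setLIntegral_le_lintegral _ _).trans hn1
            · exact (setLIntegral_le_lintegral _ _).trans (hexcg T ρ hρ hT hTρ)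
    refine ENNReal.tendsto_nhds_zero.mpr fun ε hε => ?_
    have hε3 : 0 < ε / 4 := ENNReal.div_pos hε.ne' ENNReal.ofNat_ne_top
    obtain ⟨η, hη, hη2⟩ : ∃ η : ℝ, 0 < η ∧ ENNReal.ofReal η * volume B ≤ ε / 4 := by
      have h1 : Tendsto (fun η : ℝ => ENNReal.ofReal η * volume B) (𝓝[>] 0) (𝓝 0) := by
        have h2 : Tendsto (fun η : ℝ => ENNReal.ofReal η * volume B) (𝓝 0)
            (𝓝 (ENNReal.ofReal 0 * volume B)) :=
          ENNReal.Tendsto.mul_const (ENNReal.tendsto_ofReal tendsto_id) (Or.inr hB)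
        rw [ENNReal.ofReal_zero, zero_mul] at h2
        exact h2.mono_left nhdsWithin_le_nhds
      obtain ⟨η, h3, h4⟩ := ((h1.eventually (gt_mem_nhds hε3)).and self_mem_nhdsWithin).exists
      exact ⟨η, h4, h3.le⟩
    obtain ⟨ρ, hρ, hρ2⟩ : ∃ ρ : ℝ, 0 < ρ ∧
        2 * (ENNReal.ofReal (2 * ρ) * ENNReal.ofReal C₀) ≤ ε / 4 := by
      have h1 : Tendsto (fun ρ : ℝ => 2 * (ENNReal.ofReal (2 * ρ) * ENNReal.ofReal C₀)) (𝓝[>] 0)
          (𝓝 0) := by
        have h2 : Tendsto (fun ρ : ℝ => 2 * (ENNReal.ofReal (2 * ρ) * ENNReal.ofReal C₀)) (𝓝 0)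
            (𝓝 (2 * (ENNReal.ofReal (2 * 0) * ENNReal.ofReal C₀))) := by
          refine ENNReal.Tendsto.const_mul ?_ (Or.inr ENNReal.ofNat_ne_top)
          refine ENNReal.Tendsto.mul_const ?_ (Or.inr ENNReal.ofReal_ne_top)
          exact ENNReal.tendsto_ofReal (tendsto_id.const_mul 2)
        rw [mul_zero, ENNReal.ofReal_zero, zero_mul, mul_zero] at h2
        exact h2.mono_left nhdsWithin_le_nhds
      obtain ⟨ρ, h3, h4⟩ := ((h1.eventually (gt_mem_nhds hε3)).and self_mem_nhdsWithin).exists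
      exact ⟨ρ, h4, h3.le⟩
    obtain ⟨T, hT, hTev⟩ := hbound η ρ hη hρ
    have h1 : Tendsto (fun n => ENNReal.ofReal T * (ENNReal.ofReal (C / η) * δ n)) atTop
        (𝓝 0) := by
      have h2 := ENNReal.Tendsto.const_mul (a := ENNReal.ofReal T)
        (ENNReal.Tendsto.const_mul (a := ENNReal.ofReal (C / η)) hlim
          (Or.inr ENNReal.ofReal_ne_top)) (Or.inr ENNReal.ofReal_ne_top)
      rwa [mul_zero, mul_zero] at h2
    filter_upwards [hTev, h1.eventually (gt_mem_nhds hε3)] with n hn1 hn2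
    refine hn1.trans ?_
    calc _ ≤ ε / 4 + (ε / 4 + ε / 4) := by
          gcongr
      _ ≤ (ε / 4 + ε / 4) + (ε / 4 + ε / 4) := by
          gcongr
          exact le_self_add
      _ = ε := by
          have h5 : ε / 4 + ε / 4 = ε / 2 := by
            rw [← two_mul, div_eq_mul_inv, div_eq_mul_inv, mul_comm, mul_assoc]
            congr 1
            rw [show (4 : ℝ≥0∞) = 2 * 2 by norm_num,
              ENNReal.mul_inv (Or.inl two_ne_zero) (Or.inl ENNReal.ofNat_ne_top), mul_assoc,
              ENNReal.inv_mul_cancel two_ne_zero ENNReal.ofNat_ne_top, mul_one]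
          rw [h5, ENNReal.add_halves]
  refine ⟨hfin, hgloc, fun φ hφ hφc => ?_⟩
  obtain ⟨B₀, hB₀⟩ := hφ.bounded_above_of_compact_support hφc
  have hK : MeasurableSet (tsupport φ) := (isClosed_tsupport φ).measurableSet
  have hKfin : volume (tsupport φ) ≠ ⊤ := hφc.isCompact.measure_lt_top.ne
  refine tendsto_integral_of_L1 _ (hgm.aestronglyMeasurable.mul hφ.aestronglyMeasurable)
    (Eventually.of_forall fun n => ?_) ?_
  · have h1 : Continuous (f n) := by
      obtain ⟨K, hK⟩ := (maxPair_uM hd (hn0 n) (hnl n) (hnc n)).2.lip_M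
      exact hK.continuous
    exact (h1.mul hφ).integrable_of_hasCompactSupport (hφc.mul_left)
  · have h2 := ENNReal.Tendsto.const_mul (a := ENNReal.ofReal B₀) (hL1 _ hK hKfin)
      (Or.inr ENNReal.ofReal_ne_top)
    rw [mul_zero] at h2
    refine tendsto_of_tendsto_of_tendsto_of_le_of_le tendsto_const_nhds h2 (fun _ => zero_le)
      fun n => ?_
    change ∫⁻ x, ‖f n x * φ x - g x * φ x‖ₑ ≤ ENNReal.ofReal B₀ *
      ∫⁻ x in tsupport φ, ENNReal.ofReal |f n x - g x|
    have hmm : Measurable fun x => ENNReal.ofReal |f n x - g x| :=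
      ((hfm n).sub hgm).abs.ennreal_ofReal
    rw [← lintegral_const_mul _ hmm, ← lintegral_indicator hK]
    refine lintegral_mono fun x => ?_
    by_cases hx : x ∈ tsupport φ
    · rw [indicator_of_mem hx, ← sub_mul, enorm_mul, Real.enorm_eq_ofReal_abs, mul_comm]
      gcongr
      rw [← ofReal_norm]
      exact ENNReal.ofReal_le_ofReal (hB₀ x)
    · rw [indicator_of_notMem hx, image_eq_zero_of_notMem_tsupport hx, mul_zero, mul_zero,
        sub_zero, enorm_zero]

end

end Vale.Agent.P137F
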