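import Vale.Agent.Lib.P137F.Defs2

/-!
# P137F: weak limits of uniformly integrable sequences

Let `𝒰 = Filter.hyperfilter ℕ`.  For `T ∈ ℕ` the truncations `G_k 1_{‖G_k‖ ≤ T}` are bounded in `L²`
(by `√(T C₀)`), so `ψ ↦ lim_𝒰 ∫ ⟪ψ, G_k 1_{‖G_k‖ ≤ T}⟫` is a bounded linear functional on `L²`, i.e. given
by some `G^T ∈ L²` (Fréchet-Riesz).  By duality `∫ ‖G^T‖ ≤ C₀` and `∫ ‖G^T - G^T'‖ ≤ ε` for `T, T'`
large (test with `ψ` = unit vector field of the difference times the indicator of a ball).  Hence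
`G^T → G` in `L¹`, and `∫ φ G_k i → ∫ φ G i` along `𝒰`.
-/

namespace Vale.Agent.P137F

open MeasureTheory Metric Set ENNReal Filter Topology

noncomputable section

/-- weak compactness in a Hilbert space along an ultrafilter -/
theorem weakLim_hilbert {H : Type*} [NormedAddCommGroup H] [InnerProductSpace ℝ H]
    [CompleteSpace H] (U : Ultrafilter ℕ) (u : ℕ → H) (R : ℝ) (hu : ∀ k, ‖u k‖ ≤ R) :
    ∃ u' : H, ∀ v : H, Tendsto (fun k => inner ℝ (u k) v) U (𝓝 (inner ℝ u' v)) := by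
  have hcpt := WeakDual.isCompact_closedBall (𝕜 := ℝ) (E := H) 0 R
  let F : ℕ → WeakDual ℝ H := fun k => StrongDual.toWeakDual (InnerProductSpace.toDual ℝ H (u k))
  have hmem : ∀ k, F k ∈ (WeakDual.toStrongDual ⁻¹' Metric.closedBall (0 : StrongDual ℝ H) R) := by
    intro k
    rw [mem_preimage, mem_closedBall_zero_iff]
    have : ‖InnerProductSpace.toDual ℝ H (u k)‖ ≤ R := by
      rw [LinearIsometryEquiv.norm_map]
      exact hu k
    exact this
  obtain ⟨x, -, hx⟩ := hcpt.ultrafilter_le_nhds (U.map F) (by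
    rw [le_principal_iff]
    exact Filter.univ_mem' (f := (U : Filter ℕ)) hmem)
  refine ⟨(InnerProductSpace.toDual ℝ H).symm (WeakDual.toStrongDual x), fun v => ?_⟩
  have h1 : Tendsto (fun k => F k v) U (𝓝 (x v)) := by
    have h2 : Tendsto F U (𝓝 x) := hx
    exact ((WeakDual.eval_continuous v).tendsto x).comp h2
  have h2 : inner ℝ ((InnerProductSpace.toDual ℝ H).symm (WeakDual.toStrongDual x)) v = x v := by
    rw [InnerProductSpace.toDual_symm_apply]
    rfl
  rw [h2]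
  exact h1

/-- the inner product of `L²` vector fields -/
theorem weakLim_inner {d : ℕ} {f g : E d → E d} (hf : MemLp f 2) (hg : MemLp g 2) :
    inner ℝ (hf.toLp f) (hg.toLp g) = ∫ x, inner ℝ (f x) (g x) := by
  rw [L2.inner_def]
  apply integral_congr_ae
  filter_upwards [hf.coeFn_toLp, hg.coeFn_toLp] with x h1 h2
  rw [h1, h2]

theorem weakLim_inner' {d : ℕ} (f : Lp (E d) 2 (volume : Measure (E d))) {g : E d → E d}
    (hg : MemLp g 2) :
    inner ℝ f (hg.toLp g) = ∫ x, inner ℝ (f x) (g x) := by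
  rw [L2.inner_def]
  apply integral_congr_ae
  filter_upwards [hg.coeFn_toLp] with x h2
  rw [h2]

/-- lower semicontinuity of the `L¹` norm under weak `L²` limits -/
theorem weakLim_L1 {d : ℕ} (U : Ultrafilter ℕ) (v : ℕ → Lp (E d) 2 (volume : Measure (E d)))
    (v' : Lp (E d) 2 (volume : Measure (E d)))
    (h : ∀ ψ, Tendsto (fun k => inner ℝ (v k) ψ) U (𝓝 (inner ℝ v' ψ))) (C : ℝ) (hC : 0 ≤ C)
    (hv : ∀ᶠ k in (U : Filter ℕ), ∫⁻ x, ‖v k x‖ₑ ≤ ENNReal.ofReal C) :
    ∫⁻ x, ‖v' x‖ₑ ≤ ENNReal.ofReal C := by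
  have hball : ∀ n : ℕ, ∫⁻ x in ball (0 : E d) n, ‖v' x‖ₑ ≤ ENNReal.ofReal C := by
    intro n
    set B : Set (E d) := ball (0 : E d) n with hB
    have hBm : MeasurableSet B := measurableSet_ball
    set ψ₀ : E d → E d := B.indicator (fun x => ‖v' x‖⁻¹ • v' x) with hψ₀
    have hmeas : AEStronglyMeasurable (fun x => ‖v' x‖⁻¹ • v' x) (volume : Measure (E d)) := by
      have h1 := Lp.aestronglyMeasurable v'
      exact (h1.norm.aemeasurable.inv.aestronglyMeasurable).smul h1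
    have hbd : ∀ x, ‖‖v' x‖⁻¹ • v' x‖ ≤ 1 := by
      intro x
      rw [norm_smul, norm_inv, norm_norm]
      exact inv_mul_le_one
    have hmem : MemLp ψ₀ 2 := by
      rw [hψ₀, memLp_indicator_iff_restrict hBm]
      have : IsFiniteMeasure (volume.restrict B : Measure (E d)) :=
        ⟨by rw [Measure.restrict_apply_univ]; exact measure_ball_lt_top⟩
      exact MemLp.of_bound hmeas.restrict 1 (ae_of_all _ hbd)
    have hψbd : ∀ x, ‖ψ₀ x‖ ≤ 1 := by
      intro x
      by_cases hx : x ∈ B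
      · rw [hψ₀, indicator_of_mem hx]; exact hbd x
      · rw [hψ₀, indicator_of_notMem hx, norm_zero]; exact zero_le_one
    have hlim := h (hmem.toLp ψ₀)
    have hle : ∀ᶠ k in (U : Filter ℕ), inner ℝ (v k) (hmem.toLp ψ₀) ≤ C := by
      filter_upwards [hv] with k hk
      rw [weakLim_inner']
      have h1 : ‖∫ x, inner ℝ (v k x) (ψ₀ x)‖ₑ ≤ ENNReal.ofReal C := by
        refine (enorm_integral_le_lintegral_enorm _).trans (le_trans (lintegral_mono ?_) hk)
        intro x
        beta_reduce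
        rw [← ofReal_norm, ← ofReal_norm]
        apply ENNReal.ofReal_le_ofReal
        calc ‖inner ℝ (v k x) (ψ₀ x)‖ ≤ ‖v k x‖ * ‖ψ₀ x‖ := norm_inner_le_norm _ _
          _ ≤ ‖v k x‖ * 1 := by gcongr; exact hψbd x
          _ = ‖v k x‖ := mul_one _
      rw [← ofReal_norm, ENNReal.ofReal_le_ofReal_iff hC] at h1
      exact (Real.le_norm_self _).trans h1
    have h1 : inner ℝ v' (hmem.toLp ψ₀) ≤ C := le_of_tendsto hlim hle
    have h2 : inner ℝ v' (hmem.toLp ψ₀) = ∫ x in B, ‖v' x‖ := by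
      rw [weakLim_inner', ← integral_indicator hBm]
      congr 1
      funext x
      by_cases hx : x ∈ B
      · rw [hψ₀, indicator_of_mem hx, indicator_of_mem hx, inner_smul_right,
          real_inner_self_eq_norm_sq]
        by_cases h0 : ‖v' x‖ = 0
        · rw [h0]; simp
        · field_simp
      · rw [hψ₀, indicator_of_notMem hx, indicator_of_notMem hx, inner_zero_right]
    rw [h2] at h1
    have hint : Integrable v' (volume.restrict B) := by
      have : IsFiniteMeasure (volume.restrict B : Measure (E d)) :=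
        ⟨by rw [Measure.restrict_apply_univ]; exact measure_ball_lt_top⟩
      exact ((Lp.memLp v').restrict B).integrable one_le_two
    rw [← ofReal_integral_norm_eq_lintegral_enorm hint]
    exact ENNReal.ofReal_le_ofReal h1
  have huniv : ⋃ n : ℕ, ball (0 : E d) n = univ := Metric.iUnion_ball_nat 0
  rw [← setLIntegral_univ, ← huniv, setLIntegral_iUnion_of_directed]
  · exact iSup_le hball
  · apply directed_of_isDirected_le
    intro n m hnm
    exact ball_subset_ball (by exact_mod_cast hnm)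

/-- testing with a bounded function is Lipschitz for the `L¹` distance -/
theorem weakLim_test {d : ℕ} {f g : E d → E d} (hf : Integrable f) (hg : Integrable g)
    {φ : E d → ℝ} (hφ : Continuous φ) {B : ℝ} (hB : ∀ x, ‖φ x‖ ≤ B) (i : Fin d) {c : ℝ}
    (hc : 0 ≤ c) (h : ∫⁻ x, ‖f x - g x‖ₑ ≤ ENNReal.ofReal c) :
    ‖(∫ x, f x i * φ x) - ∫ x, g x i * φ x‖ ≤ B * c := by
  have hB0 : 0 ≤ B := (norm_nonneg _).trans (hB 0)
  have hcomp : ∀ {w : E d → E d}, Integrable w → Integrable fun x => w x i * φ x := by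
    intro w hw
    have h1 : Integrable fun x => w x i := by
      refine hw.norm.mono' ?_ (ae_of_all _ fun x => PiLp.norm_apply_le (w x) i)
      exact ((PiLp.continuous_apply 2 (fun _ : Fin d => ℝ) i).comp_aestronglyMeasurable hw.1)
    exact h1.mul_bdd hφ.aestronglyMeasurable (ae_of_all _ hB)
  rw [← integral_sub (hcomp hf) (hcomp hg)]
  have h1 : ‖∫ x, (f x i * φ x - g x i * φ x)‖ₑ ≤ ENNReal.ofReal (B * c) := by
    refine (enorm_integral_le_lintegral_enorm _).trans ?_
    calc ∫⁻ x, ‖f x i * φ x - g x i * φ x‖ₑ ≤ ∫⁻ x, ENNReal.ofReal B * ‖f x - g x‖ₑ := by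
          apply lintegral_mono
          intro x
          beta_reduce
          rw [← ofReal_norm, ← ofReal_norm, ← ENNReal.ofReal_mul hB0]
          apply ENNReal.ofReal_le_ofReal
          have e1 : f x i * φ x - g x i * φ x = (f x - g x) i * φ x := by
            rw [PiLp.sub_apply]; ring
          rw [e1, norm_mul, mul_comm B]
          exact mul_le_mul (PiLp.norm_apply_le _ i) (hB x) (norm_nonneg _) (norm_nonneg _)
      _ = ENNReal.ofReal B * ∫⁻ x, ‖f x - g x‖ₑ := by
          rw [lintegral_const_mul' _ _ ENNReal.ofReal_ne_top]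
      _ ≤ ENNReal.ofReal B * ENNReal.ofReal c := by gcongr
      _ = ENNReal.ofReal (B * c) := (ENNReal.ofReal_mul hB0).symm
  rw [← ofReal_norm, ENNReal.ofReal_le_ofReal_iff (by positivity)] at h1
  exact h1

theorem weak_lim {d : ℕ} (G : ℕ → E d → E d) (hG : ∀ k, Measurable (G k)) (C₀ : ℝ) (hC : 0 ≤ C₀)
    (hb : ∀ k, ∫⁻ x, ENNReal.ofReal ‖G k x‖ ≤ ENNReal.ofReal C₀)
    (hUI : ∀ ε : ℝ, 0 < ε → ∃ T : ℝ, ∃ k₀ : ℕ, ∀ k, k₀ ≤ k →
      ∫⁻ x in {x | T < ‖G k x‖}, ENNReal.ofReal ‖G k x‖ ≤ ENNReal.ofReal ε) :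
    ∃ G' : E d → E d, Integrable G' ∧ ∫ x, ‖G' x‖ ≤ C₀ ∧
      ∀ φ : E d → ℝ, Continuous φ → HasCompactSupport φ → ∀ i : Fin d,
        Tendsto (fun k => ∫ x, G k x i * φ x) (hyperfilter ℕ) (𝓝 (∫ x, G' x i * φ x)) := by
  simp only [ofReal_norm] at hb hUI
  have hGint : ∀ k, Integrable (G k) := fun k =>
    ⟨(hG k).aestronglyMeasurable, lt_of_le_of_lt (hb k) ENNReal.ofReal_lt_top⟩
  -- truncations
  set tr : ℕ → ℕ → E d → E d := fun n k => {x | ‖G k x‖ ≤ n}.indicator (G k) with htr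
  have hset : ∀ n k : ℕ, MeasurableSet {x | ‖G k x‖ ≤ (n : ℝ)} := fun n k =>
    measurableSet_le (hG k).norm measurable_const
  have htrm : ∀ n k, Measurable (tr n k) := fun n k => (hG k).indicator (hset n k)
  have htrle : ∀ n k x, ‖tr n k x‖ₑ ≤ ‖G k x‖ₑ := fun n k x => enorm_indicator_le_enorm_self _ _
  have hsq : ∀ n k x, ‖tr n k x‖ₑ ^ (2 : ℝ) ≤ (n : ℝ≥0∞) * ‖G k x‖ₑ := by
    intro n k x
    rw [ENNReal.rpow_two, sq]
    refine mul_le_mul' ?_ (htrle n k x)
    by_cases hx : x ∈ {x | ‖G k x‖ ≤ (n : ℝ)}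
    · simp only [htr]
      rw [indicator_of_mem hx, ← ofReal_norm, ← ENNReal.ofReal_natCast]
      exact ENNReal.ofReal_le_ofReal hx
    · simp only [htr]
      rw [indicator_of_notMem hx]
      simp
  have hLp : ∀ n k, eLpNorm (tr n k) 2 volume ≤
      ((n : ℝ≥0∞) * ENNReal.ofReal C₀) ^ (1 / (2 : ℝ)) := by
    intro n k
    rw [eLpNorm_eq_lintegral_rpow_enorm_toReal (by norm_num) (by norm_num),
      ENNReal.toReal_ofNat]
    gcongr
    calc ∫⁻ x, ‖tr n k x‖ₑ ^ (2 : ℝ) ≤ ∫⁻ x, (n : ℝ≥0∞) * ‖G k x‖ₑ := lintegral_mono (hsq n k)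
      _ = (n : ℝ≥0∞) * ∫⁻ x, ‖G k x‖ₑ := lintegral_const_mul' _ _ (ENNReal.natCast_ne_top n)
      _ ≤ _ := by gcongr; exact hb k
  have hRfin : ∀ n : ℕ, ((n : ℝ≥0∞) * ENNReal.ofReal C₀) ^ (1 / (2 : ℝ)) ≠ ⊤ := by
    intro n
    apply ENNReal.rpow_ne_top_of_nonneg (by norm_num)
    exact ENNReal.mul_ne_top (ENNReal.natCast_ne_top n) ENNReal.ofReal_ne_top
  have hmem : ∀ n k, MemLp (tr n k) 2 := fun n k =>
    ⟨(htrm n k).aestronglyMeasurable, lt_of_le_of_lt (hLp n k) (lt_top_iff_ne_top.mpr (hRfin n))⟩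
  have hbound : ∀ n k, ‖(hmem n k).toLp (tr n k)‖ ≤
      (((n : ℝ≥0∞) * ENNReal.ofReal C₀) ^ (1 / (2 : ℝ))).toReal := by
    intro n k
    rw [Lp.norm_toLp]
    exact ENNReal.toReal_mono (hRfin n) (hLp n k)
  -- weak limits of the truncations
  have hex : ∀ n, ∃ u' : Lp (E d) 2 (volume : Measure (E d)), ∀ v,
      Tendsto (fun k => inner ℝ ((hmem n k).toLp (tr n k)) v) (hyperfilter ℕ)
        (𝓝 (inner ℝ u' v)) := fun n =>
    weakLim_hilbert (hyperfilter ℕ) (fun k => (hmem n k).toLp (tr n k)) _ (hbound n)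
  choose V hV using hex
  have hV1 : ∀ n, ∫⁻ x, ‖V n x‖ₑ ≤ ENNReal.ofReal C₀ := by
    intro n
    refine weakLim_L1 (hyperfilter ℕ) _ (V n) (hV n) C₀ hC (Eventually.of_forall fun k => ?_)
    refine le_trans (le_of_eq ?_) ((lintegral_mono (htrle n k)).trans (hb k))
    apply lintegral_congr_ae
    filter_upwards [(hmem n k).coeFn_toLp] with x hx
    rw [hx]
  have hatTop : ∀ k₀ : ℕ, ∀ᶠ k in (hyperfilter ℕ : Filter ℕ), k₀ ≤ k := fun k₀ =>
    (eventually_ge_atTop k₀).filter_mono Nat.hyperfilter_le_atTop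
  have hV2 : ∀ ε : ℝ, 0 < ε → ∃ N : ℕ, ∀ n ≥ N, ∀ m ≥ N,
      ∫⁻ x, ‖V n x - V m x‖ₑ ≤ ENNReal.ofReal ε := by
    intro ε hε
    obtain ⟨T, k₀, hT⟩ := hUI ε hε
    obtain ⟨N, hN⟩ := exists_nat_ge T
    refine ⟨N, fun n hn m hm => ?_⟩
    have hnT : T ≤ (n : ℝ) := hN.trans (by exact_mod_cast hn)
    have hmT : T ≤ (m : ℝ) := hN.trans (by exact_mod_cast hm)
    have h1 := weakLim_L1 (hyperfilter ℕ)
      (fun k => (hmem n k).toLp (tr n k) - (hmem m k).toLp (tr m k)) (V n - V m) ?_ ε hε.le ?_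
    · refine le_trans (le_of_eq ?_) h1
      apply lintegral_congr_ae
      filter_upwards [Lp.coeFn_sub (V n) (V m)] with x hx
      rw [hx, Pi.sub_apply]
    · intro ψ
      simp only [inner_sub_left]
      exact (hV n ψ).sub (hV m ψ)
    · filter_upwards [hatTop k₀] with k hk
      refine le_trans ?_ (hT k hk)
      have hTm : MeasurableSet {x | T < ‖G k x‖} := measurableSet_lt measurable_const (hG k).norm
      rw [← lintegral_indicator hTm]
      apply lintegral_mono_ae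
      filter_upwards [Lp.coeFn_sub ((hmem n k).toLp (tr n k)) ((hmem m k).toLp (tr m k)),
        (hmem n k).coeFn_toLp, (hmem m k).coeFn_toLp] with x h1 h2 h3
      rw [h1, Pi.sub_apply, h2, h3]
      by_cases hx : T < ‖G k x‖
      · rw [indicator_of_mem (show x ∈ {x | T < ‖G k x‖} from hx)]
        simp only [htr]
        by_cases hxn : ‖G k x‖ ≤ (n : ℝ) <;> by_cases hxm : ‖G k x‖ ≤ (m : ℝ) <;>
          simp [indicator, hxn, hxm]
      · have hxn : ‖G k x‖ ≤ (n : ℝ) := (not_lt.mp hx).trans hnT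
        have hxm : ‖G k x‖ ≤ (m : ℝ) := (not_lt.mp hx).trans hmT
        simp only [htr]
        simp [indicator, hxn, hxm]
  -- the limit in `L¹`
  have hVm : ∀ n, MemLp (V n) 1 := fun n =>
    ⟨Lp.aestronglyMeasurable _, by
      rw [eLpNorm_one_eq_lintegral_enorm]
      exact lt_of_le_of_lt (hV1 n) ENNReal.ofReal_lt_top⟩
  set W : ℕ → Lp (E d) 1 (volume : Measure (E d)) := fun n => (hVm n).toLp (V n) with hW
  have hnorm : ∀ (f : Lp (E d) 1 (volume : Measure (E d))) (c : ℝ), 0 ≤ c →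
      ∫⁻ x, ‖f x‖ₑ ≤ ENNReal.ofReal c → ‖f‖ ≤ c := by
    intro f c hc h
    rw [Lp.norm_def, eLpNorm_one_eq_lintegral_enorm]
    exact ENNReal.toReal_le_of_le_ofReal hc h
  have hWc : CauchySeq W := by
    rw [Metric.cauchySeq_iff]
    intro ε hε
    obtain ⟨N, hN⟩ := hV2 (ε / 2) (by positivity)
    refine ⟨N, fun m hm n hn => ?_⟩
    rw [dist_eq_norm]
    refine lt_of_le_of_lt (hnorm _ (ε / 2) (by positivity) ?_) (by linarith)
    refine le_trans (le_of_eq ?_) (hN m hm n hn)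
    apply lintegral_congr_ae
    filter_upwards [Lp.coeFn_sub (W m) (W n), (hVm m).coeFn_toLp, (hVm n).coeFn_toLp]
      with x h1 h2 h3
    rw [h1, Pi.sub_apply, h2, h3]
  obtain ⟨W', hW'⟩ := cauchySeq_tendsto_of_complete hWc
  refine ⟨W', L1.integrable_coeFn W', ?_, ?_⟩
  · rw [← L1.norm_eq_integral_norm]
    refine le_of_tendsto hW'.norm (Eventually.of_forall fun n => hnorm _ C₀ hC ?_)
    refine le_trans (le_of_eq ?_) (hV1 n)
    apply lintegral_congr_ae
    filter_upwards [(hVm n).coeFn_toLp] with x hx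
    rw [hx]
  · intro φ hφ hφc i
    obtain ⟨B, hB⟩ := hφc.exists_bound_of_continuous hφ
    have hB0 : 0 ≤ B := (norm_nonneg _).trans (hB 0)
    -- the test vector field
    have hψc : Continuous fun x => φ x • (EuclideanSpace.single i (1 : ℝ) : E d) := by fun_prop
    have hψs : HasCompactSupport fun x => φ x • (EuclideanSpace.single i (1 : ℝ) : E d) :=
      hφc.smul_right
    have hψm : MemLp (fun x => φ x • (EuclideanSpace.single i (1 : ℝ) : E d)) 2 volume :=
      hψc.memLp_of_hasCompactSupport hψs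
    have hin : ∀ w : E d, ∀ x, inner ℝ w (φ x • (EuclideanSpace.single i (1 : ℝ) : E d))
        = w i * φ x := by
      intro w x
      rw [inner_smul_right, EuclideanSpace.inner_single_right]
      simp [mul_comm]
    have hVint : ∀ n, Integrable (V n) := fun n => memLp_one_iff_integrable.mp (hVm n)
    have htrint : ∀ n k, Integrable (tr n k) := fun n k => (hGint k).indicator (hset n k)
    have hlim1 : ∀ n, Tendsto (fun k => ∫ x, tr n k x i * φ x) (hyperfilter ℕ)
        (𝓝 (∫ x, V n x i * φ x)) := by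
      intro n
      have h1 := hV n (hψm.toLp _)
      rw [weakLim_inner'] at h1
      simp only [weakLim_inner, hin] at h1
      exact h1
    have hlim2 : Tendsto (fun n => ∫ x, V n x i * φ x) atTop (𝓝 (∫ x, W' x i * φ x)) := by
      rw [Metric.tendsto_atTop]
      intro δ hδ
      have hW'' := Metric.tendsto_atTop.mp hW' (δ / (B + 1)) (by positivity)
      obtain ⟨N, hN⟩ := hW''
      refine ⟨N, fun n hn => ?_⟩
      have h1 := hN n hn
      rw [dist_eq_norm] at h1
      rw [dist_eq_norm]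
      have h2 : ∫⁻ x, ‖V n x - W' x‖ₑ ≤ ENNReal.ofReal ‖W n - W'‖ := by
        have h3 : ‖W n - W'‖ = (∫⁻ x, ‖(W n - W' : Lp (E d) 1 (volume : Measure (E d))) x‖ₑ).toReal := by
          rw [Lp.norm_def, eLpNorm_one_eq_lintegral_enorm]
        have h4 : ∫⁻ x, ‖V n x - W' x‖ₑ
            = ∫⁻ x, ‖(W n - W' : Lp (E d) 1 (volume : Measure (E d))) x‖ₑ := by
          apply lintegral_congr_ae
          filter_upwards [Lp.coeFn_sub (W n) W', (hVm n).coeFn_toLp] with x e1 e2
          rw [e1, Pi.sub_apply, e2]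
        rw [h4, h3, ENNReal.ofReal_toReal]
        have := (Lp.eLpNorm_ne_top (W n - W'))
        rwa [eLpNorm_one_eq_lintegral_enorm] at this
      have h3 := weakLim_test (hVint n) (L1.integrable_coeFn W') hφ hB i (norm_nonneg _) h2
      refine lt_of_le_of_lt h3 ?_
      have h4 : B * ‖W n - W'‖ ≤ (B + 1) * ‖W n - W'‖ := by
        gcongr; linarith
      have h5 : (B + 1) * ‖W n - W'‖ < (B + 1) * (δ / (B + 1)) := by gcongr
      have h6 : (B + 1) * (δ / (B + 1)) = δ := by field_simp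
      linarith
    rw [Metric.tendsto_nhds]
    intro δ hδ
    set ε : ℝ := δ / (3 * (B + 1)) with hε
    have hεpos : 0 < ε := by positivity
    obtain ⟨T, k₀, hT⟩ := hUI ε hεpos
    obtain ⟨N, hN⟩ := exists_nat_ge T
    obtain ⟨N', hN'⟩ := Metric.tendsto_atTop.mp hlim2 (δ / 3) (by positivity)
    set n := max N N' with hn
    have hnT : T ≤ (n : ℝ) := hN.trans (by exact_mod_cast le_max_left _ _)
    have h1 := hN' n (le_max_right _ _)
    have h2 := (Metric.tendsto_nhds.mp (hlim1 n)) (δ / 3) (by positivity)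
    filter_upwards [h2, hatTop k₀] with k hk2 hk
    have h3 : ∫⁻ x, ‖G k x - tr n k x‖ₑ ≤ ENNReal.ofReal ε := by
      refine le_trans ?_ (hT k hk)
      have hTm : MeasurableSet {x | T < ‖G k x‖} := measurableSet_lt measurable_const (hG k).norm
      rw [← lintegral_indicator hTm]
      apply lintegral_mono
      intro x
      by_cases hx : T < ‖G k x‖
      · rw [indicator_of_mem (show x ∈ {x | T < ‖G k x‖} from hx)]
        simp only [htr]
        by_cases hxn : ‖G k x‖ ≤ (n : ℝ) <;> simp [indicator, hxn]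
      · have hxn : ‖G k x‖ ≤ (n : ℝ) := (not_lt.mp hx).trans hnT
        simp only [htr]
        simp [indicator, hxn]
    have h4 := weakLim_test (hGint k) (htrint n k) hφ hB i hεpos.le h3
    have h5 : B * ε ≤ δ / 3 := by
      rw [hε]
      have : B * (δ / (3 * (B + 1))) = (B / (B + 1)) * (δ / 3) := by field_simp
      rw [this]
      have h6 : B / (B + 1) ≤ 1 := by rw [div_le_one (by positivity)]; linarith
      nlinarith
    rw [dist_eq_norm] at hk2 h1 ⊢
    calc ‖(∫ x, G k x i * φ x) - ∫ x, W' x i * φ x‖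
        = ‖((∫ x, G k x i * φ x) - ∫ x, tr n k x i * φ x)
            + ((∫ x, tr n k x i * φ x) - ∫ x, V n x i * φ x)
            + ((∫ x, V n x i * φ x) - ∫ x, W' x i * φ x)‖ := by congr 1; ring
      _ ≤ ‖(∫ x, G k x i * φ x) - ∫ x, tr n k x i * φ x‖
            + ‖(∫ x, tr n k x i * φ x) - ∫ x, V n x i * φ x‖
            + ‖(∫ x, V n x i * φ x) - ∫ x, W' x i * φ x‖ := norm_add₃_le
      _ < δ / 3 + δ / 3 + δ / 3 := by linarith
      _ = δ := by ring

end

end Vale.Agent.P137F
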