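import Vale.Agent.Lib.P137F.UnifInt
import Vale.Agent.Lib.P137F.WeakLim
import Vale.Agent.Lib.P137F.Conv
import Vale.Agent.Lib.P137F.AbsWeak

/-!
# P137F: the final theorem

`uM f = uM |f|`; take `h = |f|`, `H` from `abs_weakGrad`, `h_n` from `approx`, `M_n = (uM h_n).toReal`
(`maxPair_uM`), `core` with `D_n = ∫ ‖∇h_n‖` (`transBV_of_contDiff`), `unif_int`, `weak_lim` applied to
`G_n = gradient M_n`, `LipschitzWith.integral_lineDeriv_mul_eq` (integration by parts for Lipschitz
functions, Mathlib.Analysis.Calculus.Rademacher), `conv`.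
-/

namespace Vale.Agent.P137F

open MeasureTheory Metric Set ENNReal

noncomputable section

theorem final_norm_gradient {d : ℕ} (h : E d → ℝ) (x : E d) : ‖gradient h x‖ = ‖fderiv ℝ h x‖ := by
  unfold gradient
  exact LinearIsometryEquiv.norm_map _ _

theorem final_gradient_apply {d : ℕ} (h : E d → ℝ) (x : E d) (i : Fin d) :
    gradient h x i = fderiv ℝ h x (EuclideanSpace.single i 1) := by
  have h1 : inner ℝ (gradient h x) (EuclideanSpace.single i (1 : ℝ)) =
      fderiv ℝ h x (EuclideanSpace.single i 1) := by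
    unfold gradient
    exact InnerProductSpace.toDual_symm_apply
  rw [← h1, EuclideanSpace.inner_single_right]
  simp

/-- integration by parts for Lipschitz functions -/
theorem final_ibp {d : ℕ} {w φ : E d → ℝ} (hw : ∃ K, LipschitzWith K w)
    (hφ : ContDiff ℝ ((⊤ : ℕ∞) : WithTop ℕ∞) φ) (hc : HasCompactSupport φ) (i : Fin d) :
    ∫ x, w x * fderiv ℝ φ x (EuclideanSpace.single i 1) = - ∫ x, gradient w x i * φ x := by
  obtain ⟨K, hK⟩ := hw
  obtain ⟨D, hD⟩ := hφ.lipschitzWith_of_hasCompactSupport hc (by simp)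
  have h1 := hK.integral_lineDeriv_mul_eq (μ := volume) hD hc (EuclideanSpace.single i (1 : ℝ))
  have h2 : ∫ x, lineDeriv ℝ w x (EuclideanSpace.single i (1 : ℝ)) * φ x =
      ∫ x, gradient w x i * φ x := by
    refine integral_congr_ae ?_
    filter_upwards [hK.ae_differentiableAt (μ := volume)] with x hx
    rw [hx.lineDeriv_eq_fderiv, final_gradient_apply]
  have h3 : ∀ x, lineDeriv ℝ φ x (-(EuclideanSpace.single i (1 : ℝ))) * w x =
      -(w x * fderiv ℝ φ x (EuclideanSpace.single i 1)) := by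
    intro x
    have hd : DifferentiableAt ℝ φ x := (hφ.differentiable (by simp)) x
    rw [hd.lineDeriv_eq_fderiv, map_neg]
    ring
  rw [h2] at h1
  simp_rw [h3] at h1
  rw [integral_neg] at h1
  rw [h1, neg_neg]

theorem final_fderiv_lt_top {d : ℕ} {f : E d → ℝ} (hlip : ∃ K, LipschitzWith K f)
    (hcs : HasCompactSupport f) : ∫⁻ x, ENNReal.ofReal ‖fderiv ℝ f x‖ ≠ ⊤ := by
  obtain ⟨K, hK⟩ := hlip
  have h1 : ∫⁻ x, ENNReal.ofReal ‖fderiv ℝ f x‖ ≤
      ∫⁻ x, (tsupport f).indicator (fun _ => (K : ℝ≥0∞)) x := by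
    refine lintegral_mono fun x => ?_
    by_cases hx : x ∈ tsupport f
    · rw [indicator_of_mem hx]
      have h2 : ‖fderiv ℝ f x‖ ≤ K := norm_fderiv_le_of_lipschitz ℝ hK
      calc ENNReal.ofReal ‖fderiv ℝ f x‖ ≤ ENNReal.ofReal K := ENNReal.ofReal_le_ofReal h2
        _ = (K : ℝ≥0∞) := ENNReal.ofReal_coe_nnreal
    · rw [indicator_of_notMem hx]
      have h2 : fderiv ℝ f x = 0 := by
        by_contra hne
        exact hx (support_fderiv_subset ℝ (by exact hne))
      simp [h2]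
  refine (lt_of_le_of_lt h1 ?_).ne
  rw [lintegral_indicator (isClosed_tsupport f).measurableSet, setLIntegral_const]
  exact ENNReal.mul_lt_top ENNReal.coe_lt_top hcs.isCompact.measure_lt_top

/-- Stage 1 statement for smooth functions: for `f` nonnegative Lipschitz with compact support the
maximal function is Lipschitz and the gradient inequality holds. -/
theorem stage1 (d : ℕ) (hd : 0 < d) : ∃ C : ℝ, 0 < C ∧ ∀ f : E d → ℝ, (∀ x, 0 ≤ f x) →
    (∃ K, LipschitzWith K f) → HasCompactSupport f →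
      ∫⁻ x, ENNReal.ofReal ‖fderiv ℝ (fun x => (uM f x).toReal) x‖ ≤
        ENNReal.ofReal C * ∫⁻ x, ENNReal.ofReal ‖fderiv ℝ f x‖ := by
  obtain ⟨C, hC, hcore⟩ := core d hd
  refine ⟨C, hC, fun f h0 hlip hcs => ?_⟩
  have hfin := final_fderiv_lt_top hlip hcs
  have hbv : TransBV f (∫⁻ x, ENNReal.ofReal ‖fderiv ℝ f x‖).toReal := by
    intro v
    refine (translation_le hlip v).trans ?_
    have h1 : ∫⁻ y, ENNReal.ofReal |fderiv ℝ f y v| ≤
        ∫⁻ y, ENNReal.ofReal ‖fderiv ℝ f y‖ * ENNReal.ofReal ‖v‖ := by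
      refine lintegral_mono fun y => ?_
      rw [← ENNReal.ofReal_mul (norm_nonneg _)]
      exact ENNReal.ofReal_le_ofReal ((fderiv ℝ f y).le_opNorm v)
    refine h1.trans (le_of_eq ?_)
    rw [lintegral_mul_const' _ _ ENNReal.ofReal_ne_top, ENNReal.ofReal_mul ENNReal.toReal_nonneg,
      ENNReal.ofReal_toReal hfin]
  have h1 := hcore f _ _ (maxPair_uM hd h0 hlip hcs).2 ENNReal.toReal_nonneg hbv
  rwa [ENNReal.ofReal_mul hC.le, ENNReal.ofReal_toReal hfin] at h1

theorem final_tendsto_eventually {u : ℕ → ℝ≥0∞} (h : Filter.Tendsto u Filter.atTop (nhds 0))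
    {ε : ℝ} (hε : 0 < ε) : ∃ n₀, ∀ n, n₀ ≤ n → u n ≤ ENNReal.ofReal ε := by
  have h1 := h.eventually (Iic_mem_nhds (ENNReal.ofReal_pos.2 hε))
  rw [Filter.eventually_atTop] at h1
  obtain ⟨n₀, hn₀⟩ := h1
  exact ⟨n₀, fun n hn => hn₀ n hn⟩

/-- the main step: the bound with an arbitrarily small loss -/
theorem final_aux {d : ℕ} (hd : 0 < d) {C : ℝ} (hC : 0 < C)
    (hst : ∀ f : E d → ℝ, (∀ x, 0 ≤ f x) →
    (∃ K, LipschitzWith K f) → HasCompactSupport f →
      ∫⁻ x, ENNReal.ofReal ‖fderiv ℝ (fun x => (uM f x).toReal) x‖ ≤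
        ENNReal.ofReal C * ∫⁻ x, ENNReal.ofReal ‖fderiv ℝ f x‖)
    {h : E d → ℝ} {H : E d → E d} (h0 : ∀ x, 0 ≤ h x) (hh : Integrable h) (hH : Integrable H)
    (hwH : IsWeakGrad h H) {ε : ℝ} (hε : 0 < ε) :
    (∀ᵐ x, uM h x < ⊤) ∧ LocallyIntegrable (fun x => (uM h x).toReal) ∧
      ∃ G : E d → E d, Integrable G ∧ IsWeakGrad (fun x => (uM h x).toReal) G ∧
        ∫ x, ‖G x‖ ≤ C * ((∫ x, ‖H x‖) + ε) := by
  obtain ⟨hn', hsm', hcs', hnn', hlim', hglim'⟩ := approx hh hH hwH
  have hnn'' := hnn' h0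
  obtain ⟨n1, hn1⟩ := final_tendsto_eventually hglim' hε
  obtain ⟨n2, hn2⟩ := final_tendsto_eventually hlim' (ε := 1) one_pos
  set hn : ℕ → E d → ℝ := fun n => hn' (n + (n1 + n2)) with hhn
  have hsm : ∀ n, ContDiff ℝ ((⊤ : ℕ∞) : WithTop ℕ∞) (hn n) := fun n => hsm' _
  have hcs : ∀ n, HasCompactSupport (hn n) := fun n => hcs' _
  have hnn : ∀ n x, 0 ≤ hn n x := fun n => hnn'' _
  have hlip : ∀ n, ∃ K, LipschitzWith K (hn n) := fun n =>
    (hsm n).lipschitzWith_of_hasCompactSupport (hcs n) (by simp)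
  have hlim : Filter.Tendsto (fun n => ∫⁻ x, ENNReal.ofReal |hn n x - h x|) Filter.atTop
      (nhds 0) := hlim'.comp (Filter.tendsto_add_atTop_nat (n1 + n2))
  have hglim : Filter.Tendsto (fun n => ∫⁻ x, ENNReal.ofReal ‖gradient (hn n) x - H x‖)
      Filter.atTop (nhds 0) := hglim'.comp (Filter.tendsto_add_atTop_nat (n1 + n2))
  have hIH : ∫⁻ x, ENNReal.ofReal ‖H x‖ = ENNReal.ofReal (∫ x, ‖H x‖) := by
    rw [ofReal_integral_eq_lintegral_ofReal hH.norm
      (Filter.Eventually.of_forall fun x => norm_nonneg _)]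
  have hI0 : 0 ≤ ∫ x, ‖H x‖ := integral_nonneg fun x => norm_nonneg _
  -- gradients of the approximations
  have hgr : ∀ n, ∫⁻ x, ENNReal.ofReal ‖fderiv ℝ (hn n) x‖ ≤
      ENNReal.ofReal ((∫ x, ‖H x‖) + ε) := by
    intro n
    have h1 : ∫⁻ x, ENNReal.ofReal ‖fderiv ℝ (hn n) x‖ ≤
        ∫⁻ x, (ENNReal.ofReal ‖gradient (hn n) x - H x‖ + ENNReal.ofReal ‖H x‖) := by
      refine lintegral_mono fun x => ?_
      rw [← ENNReal.ofReal_add (norm_nonneg _) (norm_nonneg _), ← final_norm_gradient]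
      refine ENNReal.ofReal_le_ofReal ?_
      calc ‖gradient (hn n) x‖ = ‖(gradient (hn n) x - H x) + H x‖ := by rw [sub_add_cancel]
        _ ≤ _ := norm_add_le _ _
    refine h1.trans ?_
    rw [lintegral_add_right' _ hH.norm.aestronglyMeasurable.aemeasurable.ennreal_ofReal, hIH,
      add_comm, ENNReal.ofReal_add hI0 hε.le]
    exact add_le_add le_rfl (hn1 _ (by omega))
  -- gradients of the maximal functions
  have hMb : ∀ n, ∫⁻ x, ENNReal.ofReal ‖fderiv ℝ (fun x => (uM (hn n) x).toReal) x‖ ≤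
      ENNReal.ofReal (C * ((∫ x, ‖H x‖) + ε)) := by
    intro n
    refine (hst (hn n) (hnn n) (hlip n) (hcs n)).trans ?_
    rw [ENNReal.ofReal_mul hC.le]
    exact mul_le_mul' le_rfl (hgr n)
  obtain ⟨hc1, hc2, hc3⟩ := conv hd h hh hn hnn hlip hcs hlim _ hMb
  refine ⟨hc1, hc2, ?_⟩
  have hpair : ∀ n, MaxPair (hn n) (fun x => (uM (hn n) x).toReal) := fun n =>
    (maxPair_uM hd (hnn n) (hlip n) (hcs n)).2
  have hint : ∀ n, Integrable (hn n) := fun n =>
    (hsm n).continuous.integrable_of_hasCompactSupport (hcs n)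
  have hA : ∀ n, ∫ x, hn n x ≤ (∫ x, h x) + 1 := by
    intro n
    have hab : Integrable (fun x => |hn n x - h x|) := ((hint n).sub hh).abs
    have h1 : ∫ x, (hn n x - h x) ≤ 1 := by
      have h2 : ∫ x, |hn n x - h x| ≤ 1 := by
        have h3 : ENNReal.ofReal (∫ x, |hn n x - h x|) ≤ ENNReal.ofReal 1 := by
          rw [ofReal_integral_eq_lintegral_ofReal hab
            (Filter.Eventually.of_forall fun x => abs_nonneg _)]
          exact hn2 _ (by omega)
        exact (ENNReal.ofReal_le_ofReal_iff zero_le_one).1 h3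
      refine le_trans ?_ h2
      exact integral_mono ((hint n).sub hh) ((hint n).sub hh).abs fun x => le_abs_self _
    rw [integral_sub (hint n) hh] at h1
    linarith
  have hint0 : 0 ≤ ∫ x, h x := integral_nonneg h0
  obtain ⟨G, hG1, hG2, hG3⟩ := weak_lim
    (fun n => gradient (fun x => (uM (hn n) x).toReal)) (by
      intro n
      unfold gradient
      exact (InnerProductSpace.toDual ℝ (E d)).symm.continuous.measurable.comp
        (measurable_fderiv ℝ _))
    (C * ((∫ x, ‖H x‖) + ε)) (by positivity) (by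
      intro n
      simp_rw [final_norm_gradient]
      exact hMb n) (by
      intro ε' hε'
      obtain ⟨ε₀, hε₀, T, hT, hUI⟩ := unif_int hd H hH ((∫ x, h x) + 1) ε' (by linarith) hε'
      obtain ⟨k₀, hk₀⟩ := final_tendsto_eventually hglim hε₀
      refine ⟨T, k₀, fun k hk => ?_⟩
      simp_rw [final_norm_gradient]
      exact hUI (hn k) _ (hpair k) ((hsm k).of_le (by exact_mod_cast le_top)) (hcs k) (hnn k)
        (hA k) (hk₀ k hk))
  refine ⟨G, hG1, ?_, hG2⟩
  intro φ hφ hφc i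
  have hφ1 : Continuous (fun x => fderiv ℝ φ x (EuclideanSpace.single i (1 : ℝ))) :=
    (hφ.continuous_fderiv (by simp)).clm_apply continuous_const
  have hφ2 : HasCompactSupport (fun x => fderiv ℝ φ x (EuclideanSpace.single i (1 : ℝ))) :=
    hφc.fderiv_apply ℝ (EuclideanSpace.single i (1 : ℝ))
  have t1 := (hc3 _ hφ1 hφ2).mono_left Nat.hyperfilter_le_atTop
  have t2 := (hG3 φ hφ.continuous hφc i).neg
  have h1 : ∀ n, ∫ x, (uM (hn n) x).toReal * fderiv ℝ φ x (EuclideanSpace.single i 1) =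
      -∫ x, gradient (fun x => (uM (hn n) x).toReal) x i * φ x := fun n =>
    final_ibp (hpair n).lip_M hφ hφc i
  simp_rw [h1] at t1
  exact tendsto_nhds_unique t1 t2

theorem final (d : ℕ) (hd : 0 < d) : ∃ C : ℝ, 0 < C ∧ ∀ (f : E d → ℝ) (F : E d → E d),
    Integrable f → Integrable F → IsWeakGrad f F →
      (∀ᵐ x, uM f x < ⊤) ∧ LocallyIntegrable (fun x => (uM f x).toReal) ∧
      ∃ G : E d → E d, Integrable G ∧ IsWeakGrad (fun x => (uM f x).toReal) G ∧
        ∫ x, ‖G x‖ ≤ C * ∫ x, ‖F x‖ := by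
  obtain ⟨C, hC, hst⟩ := stage1 d hd
  refine ⟨2 * C, by positivity, fun f F hf hF hw => ?_⟩
  obtain ⟨H, hH, hwH, hHF⟩ := abs_weakGrad hf hF hw
  have huM : uM (fun x => |f x|) = uM f := by
    funext x
    unfold uM
    simp only [abs_abs]
  have hIF : ∫ x, ‖H x‖ ≤ ∫ x, ‖F x‖ := integral_mono_ae hH.norm hF.norm hHF
  have hI0 : 0 ≤ ∫ x, ‖H x‖ := integral_nonneg fun x => norm_nonneg _
  have haux : ∀ ε : ℝ, 0 < ε → (∀ᵐ x, uM f x < ⊤) ∧ LocallyIntegrable (fun x => (uM f x).toReal) ∧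
      ∃ G : E d → E d, Integrable G ∧ IsWeakGrad (fun x => (uM f x).toReal) G ∧
        ∫ x, ‖G x‖ ≤ C * ((∫ x, ‖H x‖) + ε) := by
    intro ε hε
    have h1 := final_aux hd hC hst (h := fun x => |f x|) (fun x => abs_nonneg _) hf.abs hH hwH hε
    rw [huM] at h1
    exact h1
  obtain ⟨ha, hb, -⟩ := haux 1 one_pos
  refine ⟨ha, hb, ?_⟩
  rcases hI0.eq_or_lt with hI | hI
  · -- the gradient vanishes
    refine ⟨0, integrable_zero _ _ _, ?_, ?_⟩
    · intro φ hφ hφc i
      obtain ⟨B, hB⟩ := hφc.exists_bound_of_continuous hφ.continuous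
      have hB0 : 0 ≤ B := (norm_nonneg _).trans (hB 0)
      have hsmall : ∀ ε : ℝ, 0 < ε →
          |∫ x, (uM f x).toReal * fderiv ℝ φ x (EuclideanSpace.single i 1)| ≤ C * ε * B := by
        intro ε hε
        obtain ⟨-, -, G, hG1, hG2, hG3⟩ := haux ε hε
        rw [hG2 φ hφ hφc i, abs_neg]
        have h2 : ‖∫ x, G x i * φ x‖ ≤ ∫ x, ‖G x‖ * B := by
          refine (norm_integral_le_of_norm_le (hG1.norm.mul_const B)
            (Filter.Eventually.of_forall fun x => ?_))
          rw [norm_mul]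
          exact mul_le_mul (PiLp.norm_apply_le (G x) i) (hB x) (norm_nonneg _) (norm_nonneg _)
        rw [Real.norm_eq_abs] at h2
        refine h2.trans ?_
        rw [integral_mul_const]
        refine mul_le_mul_of_nonneg_right (hG3.trans ?_) hB0
        rw [← hI, zero_add]
      have hzero : ∫ x, (uM f x).toReal * fderiv ℝ φ x (EuclideanSpace.single i 1) = 0 := by
        by_contra hne
        have hpos := abs_pos.2 hne
        have h3 := hsmall (|∫ x, (uM f x).toReal * fderiv ℝ φ x (EuclideanSpace.single i 1)| /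
          (2 * (C * (B + 1)))) (by positivity)
        have h4 : C * (|∫ x, (uM f x).toReal * fderiv ℝ φ x (EuclideanSpace.single i 1)| /
          (2 * (C * (B + 1)))) * B =
            |∫ x, (uM f x).toReal * fderiv ℝ φ x (EuclideanSpace.single i 1)| *
              (B / (2 * (B + 1))) := by
          field_simp
        rw [h4] at h3
        have h5 : B / (2 * (B + 1)) < 1 := by
          rw [div_lt_one (by positivity)]
          linarith
        have h6 := mul_lt_mul_of_pos_left h5 hpos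
        linarith
      rw [hzero]
      simp
    · simp only [Pi.zero_apply, norm_zero, integral_zero]
      exact mul_nonneg (by positivity) (integral_nonneg fun x => norm_nonneg _)
  · obtain ⟨-, -, G, hG1, hG2, hG3⟩ := haux _ hI
    refine ⟨G, hG1, hG2, hG3.trans ?_⟩
    calc C * ((∫ x, ‖H x‖) + ∫ x, ‖H x‖) = 2 * C * ∫ x, ‖H x‖ := by ring
      _ ≤ 2 * C * ∫ x, ‖F x‖ := mul_le_mul_of_nonneg_left hIF (by positivity)

end

end Vale.Agent.P137F
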