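import Vale.Agent.Lib.P137F.BVMoll
import Vale.Agent.Lib.P137F.Final

/-!
# P137F: the variation bound for functions of bounded variation

`bv_approx`: for each `n` take `u, U` from `bv_moll` (error `1/(n+1)`), `H` the weak gradient of `|u|`
(`abs_weakGrad`), and a member of the sequence from `approx` for `|u|, H` which is close enough.

`bv_final`: `uM f = uM |f|`; apply `stage1` (constant `C`) and `conv` to the functions `h_n`; for a test
field `Φ` the function `divg Φ` is continuous with compact support, and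
`∫ (uM h_n).toReal * divg Φ = - ∑ i, ∫ gradient (uM h_n).toReal x i * Φ x i ≤ ∫ ‖fderiv (uM h_n).toReal‖
≤ C (V + 1/(n+1))` by `final_ibp`.
-/

namespace Vale.Agent.P137F

open MeasureTheory Metric Set ENNReal Filter Topology

noncomputable section

theorem bvf_nonneg {d : ℕ} {u : E d → ℝ} {V : ℝ} (hV : HasVarLE u V) : 0 ≤ V := by
  have h := hV (fun _ => 0) contDiff_const HasCompactSupport.zero (fun x => by simp)
  simpa [divg] using h

theorem bvf_one {d : ℕ} {f : E d → ℝ} (hf : Integrable f) {V : ℝ} (hV : HasVarLE f V)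
    {δ : ℝ} (hδ : 0 < δ) :
    ∃ k : E d → ℝ, ContDiff ℝ ((⊤ : ℕ∞) : WithTop ℕ∞) k ∧ HasCompactSupport k ∧
      (∀ x, 0 ≤ k x) ∧ (∫⁻ x, ENNReal.ofReal |k x - (|f x|)|) ≤ ENNReal.ofReal (2 * δ) ∧
      (∫⁻ x, ENNReal.ofReal ‖fderiv ℝ k x‖) ≤ ENNReal.ofReal (V + δ) := by
  have hV0 := bvf_nonneg hV
  obtain ⟨u, U, hu, hU, hw, hUV, huf⟩ := bv_moll hf hV hδ
  obtain ⟨H, hH, hwH, hHU⟩ := abs_weakGrad hu hU hw
  obtain ⟨hn, hsm, hcs, hnn, hlim, hglim⟩ := approx hu.abs hH hwH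
  have hnn' := hnn fun x => abs_nonneg _
  obtain ⟨n1, hn1⟩ := final_tendsto_eventually hlim hδ
  obtain ⟨n2, hn2⟩ := final_tendsto_eventually hglim hδ
  refine ⟨hn (n1 + n2), hsm _, hcs _, hnn' _, ?_, ?_⟩
  · have hki : Integrable (hn (n1 + n2)) :=
      (hsm (n1 + n2)).continuous.integrable_of_hasCompactSupport (hcs (n1 + n2))
    have hm : AEMeasurable (fun x => ENNReal.ofReal |hn (n1 + n2) x - (|u x|)|) :=
      ((hki.sub hu.abs).abs).aestronglyMeasurable.aemeasurable.ennreal_ofReal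
    calc ∫⁻ x, ENNReal.ofReal |hn (n1 + n2) x - (|f x|)|
        ≤ ∫⁻ x, (ENNReal.ofReal |hn (n1 + n2) x - (|u x|)| + ENNReal.ofReal |u x - f x|) := by
          refine lintegral_mono fun x => ?_
          rw [← ENNReal.ofReal_add (abs_nonneg _) (abs_nonneg _)]
          refine ENNReal.ofReal_le_ofReal ?_
          have h1 : hn (n1 + n2) x - (|f x|) =
              (hn (n1 + n2) x - (|u x|)) + ((|u x|) - (|f x|)) := by ring
          rw [h1]
          refine (abs_add_le _ _).trans (add_le_add le_rfl ?_)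
          exact abs_abs_sub_abs_le_abs_sub _ _
      _ = (∫⁻ x, ENNReal.ofReal |hn (n1 + n2) x - (|u x|)|) +
            ∫⁻ x, ENNReal.ofReal |u x - f x| := lintegral_add_left' hm _
      _ ≤ ENNReal.ofReal δ + ENNReal.ofReal δ := add_le_add (hn1 _ (by omega)) huf
      _ = ENNReal.ofReal (2 * δ) := by
          rw [← ENNReal.ofReal_add hδ.le hδ.le, two_mul]
  · have hIH : ∫⁻ x, ENNReal.ofReal ‖H x‖ = ENNReal.ofReal (∫ x, ‖H x‖) := by
      rw [ofReal_integral_eq_lintegral_ofReal hH.norm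
        (Filter.Eventually.of_forall fun x => norm_nonneg _)]
    have hI0 : 0 ≤ ∫ x, ‖H x‖ := integral_nonneg fun x => norm_nonneg _
    have hIV : ∫ x, ‖H x‖ ≤ V := (integral_mono_ae hH.norm hU.norm hHU).trans hUV
    have h1 : ∫⁻ x, ENNReal.ofReal ‖fderiv ℝ (hn (n1 + n2)) x‖ ≤
        ∫⁻ x, (ENNReal.ofReal ‖gradient (hn (n1 + n2)) x - H x‖ + ENNReal.ofReal ‖H x‖) := by
      refine lintegral_mono fun x => ?_
      rw [← ENNReal.ofReal_add (norm_nonneg _) (norm_nonneg _), ← final_norm_gradient]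
      refine ENNReal.ofReal_le_ofReal ?_
      calc ‖gradient (hn (n1 + n2)) x‖ = ‖(gradient (hn (n1 + n2)) x - H x) + H x‖ := by
            rw [sub_add_cancel]
        _ ≤ _ := norm_add_le _ _
    refine h1.trans ?_
    rw [lintegral_add_right' _ hH.norm.aestronglyMeasurable.aemeasurable.ennreal_ofReal, hIH,
      add_comm, ENNReal.ofReal_add hV0 hδ.le]
    exact add_le_add (ENNReal.ofReal_le_ofReal hIV) (hn2 _ (by omega))

theorem bv_approx {d : ℕ} {f : E d → ℝ} (hf : Integrable f) {V : ℝ} (hV : HasVarLE f V) :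
    ∃ hn : ℕ → E d → ℝ, (∀ n, ContDiff ℝ ((⊤ : ℕ∞) : WithTop ℕ∞) (hn n)) ∧
      (∀ n, HasCompactSupport (hn n)) ∧ (∀ n x, 0 ≤ hn n x) ∧
      Tendsto (fun n => ∫⁻ x, ENNReal.ofReal |hn n x - (|f x|)|) atTop (𝓝 0) ∧
      ∀ n, (∫⁻ x, ENNReal.ofReal ‖fderiv ℝ (hn n) x‖) ≤ ENNReal.ofReal (V + 1 / ((n : ℝ) + 1)) := by
  have hex : ∀ n : ℕ, ∃ k : E d → ℝ, ContDiff ℝ ((⊤ : ℕ∞) : WithTop ℕ∞) k ∧
      HasCompactSupport k ∧ (∀ x, 0 ≤ k x) ∧
      (∫⁻ x, ENNReal.ofReal |k x - (|f x|)|) ≤ ENNReal.ofReal (2 * (1 / ((n : ℝ) + 1))) ∧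
      (∫⁻ x, ENNReal.ofReal ‖fderiv ℝ k x‖) ≤ ENNReal.ofReal (V + 1 / ((n : ℝ) + 1)) :=
    fun n => bvf_one hf hV (by positivity)
  choose hn h1 h2 h3 h4 h5 using hex
  have hlim : Tendsto (fun n : ℕ => ENNReal.ofReal (2 * (1 / ((n : ℝ) + 1)))) atTop (𝓝 0) := by
    have h6 : Tendsto (fun n : ℕ => 2 * (1 / ((n : ℝ) + 1))) atTop (𝓝 0) := by
      have := (tendsto_one_div_add_atTop_nhds_zero_nat (𝕜 := ℝ)).const_mul 2
      rwa [mul_zero] at this
    have h7 := ENNReal.tendsto_ofReal h6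
    rwa [ENNReal.ofReal_zero] at h7
  exact ⟨hn, h1, h2, h3,
    tendsto_of_tendsto_of_tendsto_of_le_of_le tendsto_const_nhds hlim (fun _ => bot_le) h4, h5⟩

/-- the pairing of a Lipschitz function with a divergence -/
theorem bvf_pair {d : ℕ} {w : E d → ℝ} (hw : ∃ K, LipschitzWith K w) {B : ℝ} (hB : 0 ≤ B)
    (hwB : ∫⁻ x, ENNReal.ofReal ‖fderiv ℝ w x‖ ≤ ENNReal.ofReal B) {Φ : E d → E d}
    (hΦ : ContDiff ℝ ((⊤ : ℕ∞) : WithTop ℕ∞) Φ) (hc : HasCompactSupport Φ)
    (h1 : ∀ x, ‖Φ x‖ ≤ 1) : ∫ x, w x * divg Φ x ≤ B := by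
  have hwc : Continuous w := by
    obtain ⟨K, hK⟩ := hw
    exact hK.continuous
  have hΦi : ∀ i : Fin d, ContDiff ℝ ((⊤ : ℕ∞) : WithTop ℕ∞) (fun y => Φ y i) := fun i =>
    contDiff_euclidean.1 hΦ i
  have hci : ∀ i : Fin d, HasCompactSupport (fun y => Φ y i) := fun i =>
    hc.comp_left (g := fun v : E d => v i) rfl
  have hd1 : ∀ i : Fin d, Continuous
      (fun x => fderiv ℝ (fun y => Φ y i) x (EuclideanSpace.single i (1 : ℝ))) := fun i =>
    ((hΦi i).continuous_fderiv (by simp)).clm_apply continuous_const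
  have hd2 : ∀ i : Fin d, HasCompactSupport
      (fun x => fderiv ℝ (fun y => Φ y i) x (EuclideanSpace.single i (1 : ℝ))) := fun i =>
    (hci i).fderiv_apply ℝ (EuclideanSpace.single i (1 : ℝ))
  have hint : ∀ i : Fin d, Integrable (fun x => w x *
      fderiv ℝ (fun y => Φ y i) x (EuclideanSpace.single i (1 : ℝ))) := fun i =>
    (hwc.mul (hd1 i)).integrable_of_hasCompactSupport ((hd2 i).mul_left)
  have hgm : Measurable (gradient w) := by
    unfold gradient
    exact (InnerProductSpace.toDual ℝ (E d)).symm.continuous.measurable.comp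
      (measurable_fderiv ℝ _)
  have hgi : Integrable (gradient w) := by
    refine ⟨hgm.aestronglyMeasurable, ?_⟩
    rw [hasFiniteIntegral_iff_norm]
    simp_rw [final_norm_gradient]
    exact lt_of_le_of_lt hwB ENNReal.ofReal_lt_top
  have hgn : ∫ x, ‖gradient w x‖ ≤ B := by
    rw [← ENNReal.ofReal_le_ofReal_iff hB, ofReal_integral_eq_lintegral_ofReal hgi.norm
      (Filter.Eventually.of_forall fun x => norm_nonneg _)]
    simp_rw [final_norm_gradient]
    exact hwB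
  have hgi' : ∀ i : Fin d, Integrable (fun x => gradient w x i * Φ x i) := by
    intro i
    have h2 : Integrable (fun x => gradient w x i) := by
      refine hgi.norm.mono' ?_ (Filter.Eventually.of_forall fun x => PiLp.norm_apply_le _ i)
      exact ((EuclideanSpace.proj i : E d →L[ℝ] ℝ).continuous.measurable.comp
        hgm).aestronglyMeasurable
    refine h2.mul_bdd (c := 1) (hΦi i).continuous.aestronglyMeasurable
      (Filter.Eventually.of_forall fun x => (PiLp.norm_apply_le _ i).trans (h1 x))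
  have e1 : ∫ x, w x * divg Φ x = -∫ x, inner ℝ (Φ x) (gradient w x) := by
    have e2 : ∀ x, w x * divg Φ x = ∑ i : Fin d, w x *
        fderiv ℝ (fun y => Φ y i) x (EuclideanSpace.single i (1 : ℝ)) := fun x => by
      rw [divg, Finset.mul_sum]
    have e3 : ∀ x, inner ℝ (Φ x) (gradient w x) = ∑ i : Fin d, gradient w x i * Φ x i :=
      fun x => by
        rw [PiLp.inner_apply]
        exact Finset.sum_congr rfl fun i _ => by simp
    simp_rw [e2, e3]
    rw [integral_finsetSum _ fun i _ => hint i, integral_finsetSum _ fun i _ => hgi' i,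
      ← Finset.sum_neg_distrib]
    exact Finset.sum_congr rfl fun i _ => final_ibp hw (hΦi i) (hci i) i
  rw [e1]
  refine le_trans ?_ hgn
  refine (neg_le_abs _).trans ?_
  rw [← Real.norm_eq_abs]
  refine norm_integral_le_of_norm_le hgi.norm (Filter.Eventually.of_forall fun x => ?_)
  refine (norm_inner_le_norm _ _).trans ?_
  calc ‖Φ x‖ * ‖gradient w x‖ ≤ 1 * ‖gradient w x‖ :=
        mul_le_mul_of_nonneg_right (h1 x) (norm_nonneg _)
    _ = _ := one_mul _

theorem bv_final {d : ℕ} (hd : 0 < d) {C : ℝ} (hC : 0 < C)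
    (hst : ∀ f : E d → ℝ, (∀ x, 0 ≤ f x) → (∃ K, LipschitzWith K f) → HasCompactSupport f →
      ∫⁻ x, ENNReal.ofReal ‖fderiv ℝ (fun x => (uM f x).toReal) x‖ ≤
        ENNReal.ofReal C * ∫⁻ x, ENNReal.ofReal ‖fderiv ℝ f x‖)
    {f : E d → ℝ} (hf : Integrable f) {V : ℝ} (hV : HasVarLE f V) :
    (∀ᵐ x, uM f x < ⊤) ∧ LocallyIntegrable (fun x => (uM f x).toReal) ∧
      HasVarLE (fun x => (uM f x).toReal) (C * V) := by
  have hV0 := bvf_nonneg hV
  have huM : uM (fun x => |f x|) = uM f := by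
    funext x
    unfold uM
    simp only [abs_abs]
  obtain ⟨hn, hsm, hcs, hnn, hlim, hgr⟩ := bv_approx hf hV
  have hlip : ∀ n, ∃ K, LipschitzWith K (hn n) := fun n =>
    (hsm n).lipschitzWith_of_hasCompactSupport (hcs n) (by simp)
  have hMb : ∀ n : ℕ, ∫⁻ x, ENNReal.ofReal ‖fderiv ℝ (fun x => (uM (hn n) x).toReal) x‖ ≤
      ENNReal.ofReal (C * (V + 1 / ((n : ℝ) + 1))) := by
    intro n
    refine (hst (hn n) (hnn n) (hlip n) (hcs n)).trans ?_
    rw [ENNReal.ofReal_mul hC.le]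
    exact mul_le_mul' le_rfl (hgr n)
  have hle1 : ∀ n : ℕ, (1 : ℝ) / ((n : ℝ) + 1) ≤ 1 := fun n => by
    rw [div_le_one (by positivity)]
    have : (0 : ℝ) ≤ n := by positivity
    linarith
  obtain ⟨hc1, hc2, hc3⟩ := conv hd (fun x => |f x|) hf.abs hn hnn hlip hcs hlim (C * (V + 1))
    (fun n => (hMb n).trans (ENNReal.ofReal_le_ofReal
      (mul_le_mul_of_nonneg_left (by linarith [hle1 n]) hC.le)))
  rw [huM] at hc1 hc2
  simp_rw [huM] at hc3
  refine ⟨hc1, hc2, ?_⟩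
  intro Φ hΦ hΦc hΦ1
  have hΦi : ∀ i : Fin d, ContDiff ℝ ((⊤ : ℕ∞) : WithTop ℕ∞) (fun y => Φ y i) := fun i =>
    contDiff_euclidean.1 hΦ i
  have hci : ∀ i : Fin d, HasCompactSupport (fun y => Φ y i) := fun i =>
    hΦc.comp_left (g := fun v : E d => v i) rfl
  have hdc : Continuous (divg Φ) := by
    unfold divg
    exact continuous_finsetSum _ fun i _ =>
      ((hΦi i).continuous_fderiv (by simp)).clm_apply continuous_const
  have hds : HasCompactSupport (divg Φ) := by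
    refine HasCompactSupport.intro (K := tsupport Φ) hΦc fun x hx => ?_
    unfold divg
    refine Finset.sum_eq_zero fun i _ => ?_
    have h3 : fderiv ℝ (fun y => Φ y i) x = 0 := by
      have h4 : (fun y => Φ y i) =ᶠ[𝓝 x] fun _ => (0 : ℝ) := by
        have h5 : Φ =ᶠ[𝓝 x] 0 := notMem_tsupport_iff_eventuallyEq.1 hx
        filter_upwards [h5] with y hy
        rw [hy]
        rfl
      rw [h4.fderiv_eq]
      simp
    rw [h3]
    rfl
  have t1 := hc3 (divg Φ) hdc hds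
  have t2 : Tendsto (fun n : ℕ => C * (V + 1 / ((n : ℝ) + 1))) atTop (𝓝 (C * (V + 0))) :=
    (tendsto_const_nhds.add tendsto_one_div_add_atTop_nhds_zero_nat).const_mul C
  rw [add_zero] at t2
  refine le_of_tendsto_of_tendsto' t1 t2 fun n => ?_
  exact bvf_pair (maxPair_uM hd (hnn n) (hlip n) (hcs n)).2.lip_M (by positivity) (hMb n)
    hΦ hΦc hΦ1

/-- both results with one constant -/
theorem final_both (d : ℕ) (hd : 0 < d) : ∃ C : ℝ, 0 < C ∧
    (∀ (f : E d → ℝ) (F : E d → E d), Integrable f → Integrable F → IsWeakGrad f F →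
      (∀ᵐ x, uM f x < ⊤) ∧ LocallyIntegrable (fun x => (uM f x).toReal) ∧
      ∃ G : E d → E d, Integrable G ∧ IsWeakGrad (fun x => (uM f x).toReal) G ∧
        ∫ x, ‖G x‖ ≤ C * ∫ x, ‖F x‖) ∧
    (∀ (f : E d → ℝ) (V : ℝ), Integrable f → HasVarLE f V →
      (∀ᵐ x, uM f x < ⊤) ∧ LocallyIntegrable (fun x => (uM f x).toReal) ∧
      HasVarLE (fun x => (uM f x).toReal) (C * V)) := by
  obtain ⟨C1, hC1, h1⟩ := final d hd
  obtain ⟨C2, hC2, hst⟩ := stage1 d hd
  refine ⟨max C1 C2, lt_max_of_lt_left hC1, ?_, ?_⟩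
  · intro f F hf hF hw
    obtain ⟨ha, hb, G, hG1, hG2, hG3⟩ := h1 f F hf hF hw
    refine ⟨ha, hb, G, hG1, hG2, hG3.trans ?_⟩
    exact mul_le_mul_of_nonneg_right (le_max_left _ _) (integral_nonneg fun x => norm_nonneg _)
  · intro f V hf hV
    obtain ⟨ha, hb, hc⟩ := bv_final hd hC2 hst hf hV
    refine ⟨ha, hb, fun Φ hΦ hΦc hΦ1 => (hc Φ hΦ hΦc hΦ1).trans ?_⟩
    exact mul_le_mul_of_nonneg_right (le_max_right _ _) (bvf_nonneg hV)

end

end Vale.Agent.P137F
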