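import Vale.Agent.Lib.P137F.AbsWeak

/-!
# P137F: functions of bounded variation, mollification

`HasVarLE u V`: the total variation of the distributional gradient of `u` is at most `V`.

`bv_moll`: `u = f ⋆ ρ` for a smooth bump `ρ ≥ 0`, `∫ ρ = 1`, `ρ` even, supported near `0`
(`approx_moll` in Approx.lean gives `∫ |u - f| ≤ ε`).  `u` is smooth, `∇u = f ⋆ ∇ρ` is integrable
(Young), and it is the weak gradient of `u` (`smooth_case` in AbsWeak.lean).  For a smooth compactly
supported vector field `Ψ` with `‖Ψ‖ ≤ 1` put `Ψ' = Ψ ⋆ ρ` (smooth, compact support, norm `≤ 1`); then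
`∫ ⟪∇u, Ψ⟫ = - ∫ u div Ψ = - ∫ f div Ψ' ≤ V` (apply the hypothesis to `-Ψ'`).  Take
`Ψ = χ_k ∇u / sqrt (‖∇u‖² + δ²)` with cutoffs `0 ≤ χ_k ≤ 1`, `χ_k → 1`, and let `k → ∞`, `δ → 0`
(monotone convergence or Fatou): `∫ ‖∇u‖ ≤ V`.
-/

namespace Vale.Agent.P137F

open MeasureTheory Metric Set ENNReal

noncomputable section

/-- divergence of a vector field on `ℝ^d` -/
def divg {d : ℕ} (Φ : E d → E d) (x : E d) : ℝ :=
  ∑ i : Fin d, fderiv ℝ (fun y => Φ y i) x (EuclideanSpace.single i 1)

/-- the distributional gradient of `u` has total variation at most `V` -/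
def HasVarLE {d : ℕ} (u : E d → ℝ) (V : ℝ) : Prop :=
  ∀ Φ : E d → E d, ContDiff ℝ ((⊤ : ℕ∞) : WithTop ℕ∞) Φ → HasCompactSupport Φ →
    (∀ x, ‖Φ x‖ ≤ 1) → ∫ x, u x * divg Φ x ≤ V

theorem bvm_contDiff_coord {d : ℕ} {Φ : E d → E d}
    (hΦ : ContDiff ℝ ((⊤ : ℕ∞) : WithTop ℕ∞) Φ) (i : Fin d) :
    ContDiff ℝ ((⊤ : ℕ∞) : WithTop ℕ∞) (fun y => Φ y i) := by
  have h := (EuclideanSpace.proj i : E d →L[ℝ] ℝ).contDiff.comp hΦ
  exact h

theorem bvm_compact_coord {d : ℕ} {Φ : E d → E d} (hc : HasCompactSupport Φ) (i : Fin d) :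
    HasCompactSupport (fun y => Φ y i) := by
  have h := hc.comp_left (g := fun v : E d => v i) (by simp)
  exact h

theorem bvm_divg_continuous {d : ℕ} {Φ : E d → E d}
    (hΦ : ContDiff ℝ ((⊤ : ℕ∞) : WithTop ℕ∞) Φ) : Continuous (divg Φ) := by
  unfold divg
  refine continuous_finsetSum _ fun i _ => ?_
  exact ((bvm_contDiff_coord hΦ i).continuous_fderiv (by simp)).clm_apply continuous_const

theorem bvm_divg_term_compact {d : ℕ} {Φ : E d → E d} (hc : HasCompactSupport Φ) (i : Fin d) :
    HasCompactSupport fun x => fderiv ℝ (fun y => Φ y i) x (EuclideanSpace.single i 1) :=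
  (bvm_compact_coord hc i).fderiv_apply (𝕜 := ℝ) _

theorem bvm_divg_compact {d : ℕ} {Φ : E d → E d} (hc : HasCompactSupport Φ) :
    HasCompactSupport (divg Φ) := by
  refine HasCompactSupport.of_support_subset_isCompact hc.isCompact ?_
  intro x hx
  by_contra hx'
  apply hx
  unfold divg
  refine Finset.sum_eq_zero fun i _ => ?_
  have h1 : (fun y => Φ y i) =ᶠ[nhds x] fun _ => (0 : ℝ) := by
    have h2 := notMem_tsupport_iff_eventuallyEq.1 hx'
    filter_upwards [h2] with y hy
    rw [hy]
    simp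
  rw [h1.fderiv_eq]
  simp

theorem bvm_ibp {d : ℕ} {u : E d → ℝ} (hu : ContDiff ℝ ((⊤ : ℕ∞) : WithTop ℕ∞) u)
    {Φ : E d → E d} (hΦ : ContDiff ℝ ((⊤ : ℕ∞) : WithTop ℕ∞) Φ) (hc : HasCompactSupport Φ) :
    ∫ x, u x * divg Φ x = - ∫ x, inner ℝ (gradient u x) (Φ x) := by
  have h1 : ∀ i : Fin d, Integrable fun x =>
      u x * fderiv ℝ (fun y => Φ y i) x (EuclideanSpace.single i 1) := by
    intro i
    have hcont : Continuous fun x => fderiv ℝ (fun y => Φ y i) x (EuclideanSpace.single i 1) :=
      ((bvm_contDiff_coord hΦ i).continuous_fderiv (by simp)).clm_apply continuous_const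
    exact (hu.continuous.mul hcont).integrable_of_hasCompactSupport
      (bvm_divg_term_compact hc i).mul_left
  have h2 : ∀ i : Fin d, Integrable fun x => gradient u x i * Φ x i := by
    intro i
    have hcont : Continuous fun x => fderiv ℝ u x (EuclideanSpace.single i 1) :=
      (hu.continuous_fderiv (by simp)).clm_apply continuous_const
    have h3 : Integrable fun x => fderiv ℝ u x (EuclideanSpace.single i 1) * Φ x i :=
      (hcont.mul (bvm_contDiff_coord hΦ i).continuous).integrable_of_hasCompactSupport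
        (bvm_compact_coord hc i).mul_left
    refine h3.congr (Filter.Eventually.of_forall fun x => ?_)
    show fderiv ℝ u x (EuclideanSpace.single i 1) * Φ x i = gradient u x i * Φ x i
    rw [approx_gradient_coord]
  have e1 : ∀ x, u x * divg Φ x = ∑ i : Fin d,
      u x * fderiv ℝ (fun y => Φ y i) x (EuclideanSpace.single i 1) := by
    intro x
    unfold divg
    rw [Finset.mul_sum]
  have e2 : ∀ x, inner ℝ (gradient u x) (Φ x) = ∑ i : Fin d, gradient u x i * Φ x i := by
    intro x
    rw [PiLp.inner_apply]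
    refine Finset.sum_congr rfl fun i _ => ?_
    simp [mul_comm]
  simp only [e1, e2]
  rw [integral_finsetSum _ fun i _ => h1 i, integral_finsetSum _ fun i _ => h2 i,
    ← Finset.sum_neg_distrib]
  refine Finset.sum_congr rfl fun i _ => ?_
  have h3 := AbsWeak.smooth_case u (hu.of_le (by exact_mod_cast le_top)) (fun y => Φ y i)
    ((bvm_contDiff_coord hΦ i).of_le (by exact_mod_cast le_top)) (bvm_compact_coord hc i) i
  unfold AbsWeak.ei at h3
  rw [h3]
  congr 1
  refine integral_congr_ae (Filter.Eventually.of_forall fun x => ?_)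
  show fderiv ℝ u x (EuclideanSpace.single i 1) * Φ x i = gradient u x i * Φ x i
  rw [approx_gradient_coord]

theorem bvm_divg_shift {d : ℕ} (Φ : E d → E d) (t y : E d) :
    divg (fun z => Φ (z + t)) y = divg Φ (y + t) := by
  unfold divg
  refine Finset.sum_congr rfl fun i _ => ?_
  have h := fderiv_comp_add_right (𝕜 := ℝ) (f := fun z => Φ z i) (x := y) t
  rw [h]

/-- mollification does not increase the variation -/
theorem bvm_conv {d : ℕ} {f : E d → ℝ} (hf : Integrable f) {V : ℝ} (hV : HasVarLE f V)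
    {ρ : E d → ℝ} (hρ : Continuous ρ) (hρc : HasCompactSupport ρ) (hρ0 : ∀ t, 0 ≤ ρ t)
    (hρ1 : (∫ t, ρ t) = 1) : HasVarLE (fun x => ∫ t, ρ t • f (x - t)) V := by
  intro Φ hΦ hc hΦ1
  have hρi : Integrable ρ := hρ.integrable_of_hasCompactSupport hρc
  have hg : Continuous (divg Φ) := bvm_divg_continuous hΦ
  have hgc : HasCompactSupport (divg Φ) := bvm_divg_compact hc
  obtain ⟨C, hC⟩ := hg.bounded_above_of_compact_support hgc
  have hint0 : Integrable (fun p : E d × E d => ρ p.2 * f (p.1 - p.2)) (volume.prod volume) := by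
    have := Integrable.convolution_integrand (ContinuousLinearMap.lsmul ℝ ℝ : ℝ →L[ℝ] ℝ →L[ℝ] ℝ)
      hρi hf
    exact this
  have hint : Integrable (Function.uncurry fun (x t : E d) => ρ t * f (x - t) * divg Φ x)
      (volume.prod volume) := by
    have h1 : Integrable (fun p : E d × E d => divg Φ p.1 * (ρ p.2 * f (p.1 - p.2)))
        (volume.prod volume) := by
      refine hint0.bdd_mul (c := C) ?_ ?_
      · exact (hg.comp continuous_fst).aestronglyMeasurable
      · exact Filter.Eventually.of_forall fun p => hC p.1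
    refine h1.congr (Filter.Eventually.of_forall fun p => ?_)
    show divg Φ p.1 * (ρ p.2 * f (p.1 - p.2)) = ρ p.2 * f (p.1 - p.2) * divg Φ p.1
    ring
  have e1 : ∀ x, (∫ t, ρ t • f (x - t)) * divg Φ x = ∫ t, ρ t * f (x - t) * divg Φ x := by
    intro x
    rw [← integral_mul_const]
    rfl
  simp only [e1]
  rw [integral_integral_swap hint]
  have e2 : ∀ t, ∫ x, ρ t * f (x - t) * divg Φ x = ρ t * ∫ y, f y * divg Φ (y + t) := by
    intro t
    rw [← integral_const_mul]
    rw [← integral_sub_right_eq_self (fun y => ρ t * (f y * divg Φ (y + t))) t]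
    refine integral_congr_ae (Filter.Eventually.of_forall fun x => ?_)
    show ρ t * f (x - t) * divg Φ x = ρ t * (f (x - t) * divg Φ (x - t + t))
    rw [sub_add_cancel]
    ring
  have hle : ∀ t, ∫ y, f y * divg Φ (y + t) ≤ V := by
    intro t
    have h1 := hV (fun z => Φ (z + t)) (hΦ.comp (contDiff_id.add contDiff_const))
      (hc.comp_homeomorph (Homeomorph.addRight t)) (fun x => hΦ1 _)
    simpa only [bvm_divg_shift] using h1
  have hI : Integrable fun t => ∫ x, ρ t * f (x - t) * divg Φ x := hint.integral_prod_right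
  calc ∫ t, ∫ x, ρ t * f (x - t) * divg Φ x ≤ ∫ t, ρ t * V := by
        refine integral_mono hI (hρi.mul_const V) fun t => ?_
        show ∫ x, ρ t * f (x - t) * divg Φ x ≤ ρ t * V
        rw [e2]
        exact mul_le_mul_of_nonneg_left (hle t) (hρ0 t)
    _ = V := by rw [integral_mul_const, hρ1, one_mul]

theorem bvm_contDiff_gradient {d : ℕ} {u : E d → ℝ}
    (hu : ContDiff ℝ ((⊤ : ℕ∞) : WithTop ℕ∞) u) :
    ContDiff ℝ ((⊤ : ℕ∞) : WithTop ℕ∞) (fun x => gradient u x) := by
  have h1 : ContDiff ℝ ((⊤ : ℕ∞) : WithTop ℕ∞) (fderiv ℝ u) :=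
    hu.fderiv_right (by exact_mod_cast le_top)
  exact (InnerProductSpace.toDual ℝ (E d)).symm.contDiff.comp h1

/-- the `L¹` norm of the gradient of a smooth function is bounded by the variation -/
theorem bvm_norm_le {d : ℕ} {u : E d → ℝ} (hu : ContDiff ℝ ((⊤ : ℕ∞) : WithTop ℕ∞) u)
    (hi : Integrable (fun x => gradient u x)) {V : ℝ} (hV : HasVarLE u V) :
    (∫ x, ‖gradient u x‖) ≤ V := by
  let b : ContDiffBump (0 : E d) := ⟨1, 2, one_pos, by norm_num⟩
  set χ : E d → ℝ := fun x => b x with hχ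
  have hχs : ContDiff ℝ ((⊤ : ℕ∞) : WithTop ℕ∞) χ := b.contDiff
  have hχc : HasCompactSupport χ := b.hasCompactSupport
  have hχ0 : ∀ x, 0 ≤ χ x := fun x => b.nonneg
  have hχ1 : ∀ x, χ x ≤ 1 := fun x => b.le_one
  have hχb : ∀ x, ‖x‖ ≤ 1 → χ x = 1 := by
    intro x hx
    exact b.one_of_mem_closedBall (by simpa using hx)
  set c : ℕ → ℝ := fun m => 1 / ((m : ℝ) + 1) with hc
  have hcpos : ∀ m, 0 < c m := fun m => by positivity
  have hct : Filter.Tendsto c Filter.atTop (nhds 0) := tendsto_one_div_add_atTop_nhds_zero_nat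
  have hgs := bvm_contDiff_gradient hu
  set r : ℕ → E d → ℝ := fun m x => Real.sqrt (‖gradient u x‖ ^ 2 + c m ^ 2) with hr
  have hrpos : ∀ m x, 0 < r m x := fun m x => Real.sqrt_pos.2 (by have := hcpos m; positivity)
  have hrge : ∀ m x, ‖gradient u x‖ ≤ r m x := fun m x => by
    refine Real.le_sqrt_of_sq_le ?_
    nlinarith [sq_nonneg (c m)]
  have hrs : ∀ m, ContDiff ℝ ((⊤ : ℕ∞) : WithTop ℕ∞) (r m) := by
    intro m
    refine ContDiff.sqrt ((hgs.norm_sq ℝ).add contDiff_const) fun x => ?_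
    have := hcpos m
    positivity
  set w : ℕ → E d → ℝ := fun m x => χ (c m • x) / r m x with hw
  have hws : ∀ m, ContDiff ℝ ((⊤ : ℕ∞) : WithTop ℕ∞) (w m) := fun m =>
    (hχs.comp (contDiff_const_smul (c m))).div (hrs m) fun x => (hrpos m x).ne'
  have hw0 : ∀ m x, 0 ≤ w m x := fun m x => div_nonneg (hχ0 _) (hrpos m x).le
  have hwle : ∀ m x, w m x * ‖gradient u x‖ ≤ 1 := by
    intro m x
    rw [hw]
    simp only
    rw [div_mul_eq_mul_div, div_le_one (hrpos m x)]
    calc χ (c m • x) * ‖gradient u x‖ ≤ 1 * r m x :=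
          mul_le_mul (hχ1 _) (hrge m x) (norm_nonneg _) zero_le_one
      _ = r m x := one_mul _
  have hwc : ∀ m, HasCompactSupport (w m) := by
    intro m
    have h1 : HasCompactSupport (fun x : E d => χ (c m • x)) :=
      hχc.comp_homeomorph (Homeomorph.smulOfNeZero (c m) (hcpos m).ne')
    have h2 : HasCompactSupport (fun x : E d => χ (c m • x) * (r m x)⁻¹) := h1.mul_right
    exact h2
  have key : ∀ m, ∫ x, w m x * ‖gradient u x‖ ^ 2 ≤ V := by
    intro m
    have hΦs : ContDiff ℝ ((⊤ : ℕ∞) : WithTop ℕ∞) (fun x => -(w m x • gradient u x)) :=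
      ((hws m).smul hgs).neg
    have hΦc : HasCompactSupport (fun x => -(w m x • gradient u x)) := (hwc m).smul_right.neg
    have h1 := hV _ hΦs hΦc (fun x => by
      rw [norm_neg, norm_smul, Real.norm_of_nonneg (hw0 m x)]
      exact hwle m x)
    rw [bvm_ibp hu hΦs hΦc, ← integral_neg] at h1
    refine le_trans (le_of_eq ?_) h1
    refine integral_congr_ae (Filter.Eventually.of_forall fun x => ?_)
    show w m x * ‖gradient u x‖ ^ 2 = -inner ℝ (gradient u x) (-(w m x • gradient u x))
    rw [inner_neg_right, inner_smul_right, real_inner_self_eq_norm_sq]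
    ring
  have hlim : Filter.Tendsto (fun m => ∫ x, w m x * ‖gradient u x‖ ^ 2) Filter.atTop
      (nhds (∫ x, ‖gradient u x‖)) := by
    refine tendsto_integral_of_dominated_convergence (fun x => ‖gradient u x‖) ?_ hi.norm ?_ ?_
    · intro m
      exact ((hws m).continuous.mul (hgs.continuous.norm.pow 2)).aestronglyMeasurable
    · intro m
      refine Filter.Eventually.of_forall fun x => ?_
      rw [Real.norm_of_nonneg (mul_nonneg (hw0 m x) (by positivity)), pow_two, ← mul_assoc]
      calc w m x * ‖gradient u x‖ * ‖gradient u x‖ ≤ 1 * ‖gradient u x‖ :=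
            mul_le_mul_of_nonneg_right (hwle m x) (norm_nonneg _)
        _ = ‖gradient u x‖ := one_mul _
    · refine Filter.Eventually.of_forall fun x => ?_
      have hev : ∀ᶠ m in Filter.atTop, χ (c m • x) = 1 := by
        have h1 : Filter.Tendsto (fun m => c m * ‖x‖) Filter.atTop (nhds 0) := by
          have := hct.mul_const ‖x‖
          rwa [zero_mul] at this
        filter_upwards [h1.eventually (gt_mem_nhds one_pos)] with m hm
        apply hχb
        rw [norm_smul, Real.norm_of_nonneg (hcpos m).le]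
        exact hm.le
      rcases eq_or_ne (gradient u x) 0 with h0 | h0
      · simp [h0]
      · have hpos : 0 < ‖gradient u x‖ := norm_pos_iff.2 h0
        have hrl : Filter.Tendsto (fun m => r m x) Filter.atTop (nhds ‖gradient u x‖) := by
          have hcont : Continuous fun s : ℝ => Real.sqrt (‖gradient u x‖ ^ 2 + s ^ 2) := by
            fun_prop
          have h2 := (hcont.tendsto 0).comp hct
          have h3 : Real.sqrt (‖gradient u x‖ ^ 2 + (0:ℝ) ^ 2) = ‖gradient u x‖ := by
            simp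
          rw [h3] at h2
          exact h2
        have h4 : Filter.Tendsto (fun m => 1 / r m x * ‖gradient u x‖ ^ 2) Filter.atTop
            (nhds (1 / ‖gradient u x‖ * ‖gradient u x‖ ^ 2)) :=
          (tendsto_const_nhds.div hrl hpos.ne').mul_const _
        have h5 : 1 / ‖gradient u x‖ * ‖gradient u x‖ ^ 2 = ‖gradient u x‖ := by
          field_simp
        rw [h5] at h4
        refine h4.congr' ?_
        filter_upwards [hev] with m hm
        rw [hw]
        simp only
        rw [hm]
  exact le_of_tendsto' hlim key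

theorem bv_moll {d : ℕ} {f : E d → ℝ} (hf : Integrable f) {V : ℝ} (hV : HasVarLE f V) {ε : ℝ}
    (hε : 0 < ε) : ∃ (u : E d → ℝ) (U : E d → E d), Integrable u ∧ Integrable U ∧
      IsWeakGrad u U ∧ (∫ x, ‖U x‖) ≤ V ∧
      ∫⁻ x, ENNReal.ofReal |u x - f x| ≤ ENNReal.ofReal ε := by
  obtain ⟨δ, hδ, h1⟩ := approx_moll hf (ε := ENNReal.ofReal ε) (by simpa using hε)
  let b : ContDiffBump (0 : E d) := ⟨δ / 2, δ, by positivity, by linarith⟩
  set ρ : E d → ℝ := b.normed volume with hρ
  have hρs : ContDiff ℝ ((⊤ : ℕ∞) : WithTop ℕ∞) ρ := b.contDiff_normed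
  have hρc : HasCompactSupport ρ := b.hasCompactSupport_normed
  have hρ0 : ∀ t, 0 ≤ ρ t := fun t => b.nonneg_normed t
  have hρ1 : (∫ t, ρ t) = 1 := b.integral_normed
  have hρδ : ∀ t, δ ≤ ‖t‖ → ρ t = 0 := by
    intro t ht
    by_contra h0
    have h3 : t ∈ Function.support ρ := h0
    rw [hρ, b.support_normed_eq, mem_ball_zero_iff] at h3
    exact absurd h3 (not_lt.mpr ht)
  have hρi : Integrable ρ := hρs.continuous.integrable_of_hasCompactSupport hρc
  have hρ1' : ContDiff ℝ 1 ρ := hρs.of_le (by exact_mod_cast le_top)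
  set u : E d → ℝ := fun x => ∫ t, ρ t • f (x - t) with hu
  have hus : ContDiff ℝ ((⊤ : ℕ∞) : WithTop ℕ∞) u :=
    hρc.contDiff_convolution_left (L := ContinuousLinearMap.lsmul ℝ ℝ) hρs hf.locallyIntegrable
  have hui : Integrable u :=
    Integrable.integrable_convolution (ContinuousLinearMap.lsmul ℝ ℝ) hρi hf
  have hdi : Integrable (fun x => fderiv ℝ u x) := by
    have hder : ∀ x, fderiv ℝ u x = _ := fun x =>
      (hρc.hasFDerivAt_convolution_left (L := ContinuousLinearMap.lsmul ℝ ℝ) hρ1'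
        hf.locallyIntegrable x).fderiv
    have hρ' : Integrable (fderiv ℝ ρ) :=
      (hρ1'.continuous_fderiv (by norm_num)).integrable_of_hasCompactSupport (hρc.fderiv ℝ)
    have h2 := Integrable.integrable_convolution
      (ContinuousLinearMap.precompL (E d) (ContinuousLinearMap.lsmul ℝ ℝ : ℝ →L[ℝ] ℝ →L[ℝ] ℝ))
      hρ' hf
    exact h2.congr (Filter.Eventually.of_forall fun x => (hder x).symm)
  have hgi : Integrable (fun x => gradient u x) :=
    (InnerProductSpace.toDual ℝ (E d)).symm.toContinuousLinearEquiv.toContinuousLinearMap.integrable_comp hdi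
  refine ⟨u, fun x => gradient u x, hui, hgi, ?_, ?_, ?_⟩
  · intro φ hφ hφc i
    have h3 := AbsWeak.smooth_case u (hus.of_le (by exact_mod_cast le_top)) φ
      (hφ.of_le (by exact_mod_cast le_top)) hφc i
    unfold AbsWeak.ei at h3
    rw [h3]
    congr 1
    refine integral_congr_ae (Filter.Eventually.of_forall fun x => ?_)
    show fderiv ℝ u x (EuclideanSpace.single i 1) * φ x = gradient u x i * φ x
    rw [approx_gradient_coord]
  · exact bvm_norm_le hus hgi (bvm_conv hf hV hρs.continuous hρc hρ0 hρ1)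
  · have h4 := h1 ρ hρs.continuous hρc hρ0 hρ1 hρδ
    refine le_trans (le_of_eq ?_) h4
    refine lintegral_congr fun x => ?_
    rw [← Real.norm_eq_abs, ofReal_norm]

end

end Vale.Agent.P137F
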