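import Vale.Agent.Lib.P137F.Defs2

/-!
# P137F: near a contact ball the gradient is far from constant; contact balls of large radius

`bad_ball`: let `a ≠ 0`, `c'' = x + 2 r a/‖a‖`, `T y = c'' + 2 (y - z)`, which maps `ball z r` onto
`ball c'' (2r)` whose closure contains `x`; so `avg_{ball c'' 2r} h ≤ M x = avg_{ball z r} h`.
`avg_{ball c'' 2r} h - avg_{ball z r} h = avg_{y ∈ ball z r} (h (T y) - h y)`
`= avg ∫_0^1 ⟪∇h (y + τ (T y - y)), T y - y⟫ dτ ≥ ⟪a, c'' - z⟫ - C r^{1-d} ∫_{ball x (8r)} ‖∇h - a‖`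
(for fixed `τ` the map `y ↦ y + τ (T y - y)` has Jacobian `(1+τ)^d ≥ 1`, `‖T y - y‖ ≤ 4 r`), and
`⟪a, c'' - z⟫ ≥ 2 r ‖a‖ - r ‖a‖ = r ‖a‖`.

`contact_rad`: for `y` near `x`, `M y ≥ avg over ball z (r + ‖y-x‖) ≥ (r/(r+‖y-x‖))^d M x`, hence
`‖fderiv M x‖ ≤ d M x / r` and `M x = avg ≤ ∫ h / (κ r^d)`.
-/

namespace Vale.Agent.P137F

open MeasureTheory Metric Set ENNReal

noncomputable section

theorem badBall_kap_pos (d : ℕ) : 0 < kap d := by
  unfold kap
  exact ENNReal.toReal_pos (measure_ball_pos volume (0 : E d) one_pos).ne' measure_ball_lt_top.ne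

theorem badBall_vol {d : ℕ} (z : E d) {r : ℝ} (hr : 0 < r) :
    volume.real (ball z r) = r ^ d * kap d := by
  unfold kap
  rw [Measure.real, Measure.real, Measure.addHaar_ball_of_pos _ _ hr, ENNReal.toReal_mul,
    ENNReal.toReal_ofReal (by positivity), finrank_euclideanSpace, Fintype.card_fin]

/-- change of variables for the homothety `y ↦ c + R (y - z)`. -/
theorem badBall_homothety {d : ℕ} (h : E d → ℝ) (c z : E d) {r R : ℝ} (hR : 0 < R) :
    ∫ y in ball z r, h (c + R • (y - z)) = (R ^ d)⁻¹ * ∫ w in ball c (R * r), h w := by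
  have h1 : ∀ y : E d, (ball z r).indicator (fun y => h (c + R • (y - z))) y =
      (ball c (R * r)).indicator h (R • y + (c - R • z)) := by
    intro y
    have h2 : R • y + (c - R • z) = c + R • (y - z) := by module
    have h3 : c + R • (y - z) ∈ ball c (R * r) ↔ y ∈ ball z r := by
      rw [mem_ball_iff_norm, mem_ball_iff_norm, add_sub_cancel_left, norm_smul,
        Real.norm_of_nonneg hR.le]
      exact mul_lt_mul_iff_right₀ hR
    rw [h2]
    by_cases hy : y ∈ ball z r
    · rw [indicator_of_mem hy, indicator_of_mem (h3.mpr hy)]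
    · rw [indicator_of_notMem hy, indicator_of_notMem (fun h => hy (h3.mp h))]
  rw [← integral_indicator measurableSet_ball, ← integral_indicator measurableSet_ball]
  simp only [h1]
  rw [Measure.integral_comp_smul volume
    (fun w : E d => (ball c (R * r)).indicator h (w + (c - R • z))) R,
    integral_add_right_eq_self (μ := volume)
      (fun w : E d => (ball c (R * r)).indicator h w) (c - R • z),
    finrank_euclideanSpace, Fintype.card_fin, smul_eq_mul, abs_of_pos (by positivity)]

theorem badBall_lintegral {d : ℕ} (G : E d → ℝ≥0∞) (hG : Measurable G) (b : E d) {R : ℝ}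
    (hR : 1 ≤ R) : ∫⁻ y, G (R • y + b) ≤ ∫⁻ y, G y := by
  have hR0 : 0 < R := by linarith
  have h1 : ∫⁻ y, G (R • y + b) = ∫⁻ w, G (w + b) ∂(Measure.map (fun y : E d => R • y) volume) :=
    (lintegral_map (hG.comp (measurable_add_const b)) (measurable_const_smul _)).symm
  rw [h1, Measure.map_addHaar_smul (volume : Measure (E d)) hR0.ne', lintegral_smul_measure,
    lintegral_add_right_eq_self (μ := volume) (fun w : E d => G w) b, smul_eq_mul]
  have h2 : ENNReal.ofReal |(R ^ Module.finrank ℝ (E d))⁻¹| ≤ 1 := by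
    rw [ENNReal.ofReal_le_one, abs_of_pos (by positivity)]
    exact inv_le_one_of_one_le₀ (one_le_pow₀ hR)
  calc _ ≤ 1 * ∫⁻ y, G y := mul_le_mul_left h2 _
    _ = _ := one_mul _

theorem badBall_continuous_gradient {d : ℕ} {h : E d → ℝ} (hh : ContDiff ℝ 1 h) :
    Continuous (gradient h) := by
  unfold gradient
  exact (InnerProductSpace.toDual ℝ (E d)).symm.continuous.comp (hh.continuous_fderiv one_ne_zero)

theorem badBall_ftc {d : ℕ} {h : E d → ℝ} (hh : ContDiff ℝ 1 h) (a p q : E d) :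
    |h q - h p - inner ℝ a (q - p)| ≤
      ∫ τ in (0 : ℝ)..1, ‖gradient h (p + τ • (q - p)) - a‖ * ‖q - p‖ := by
  have hg := badBall_continuous_gradient hh
  have hd : ∀ τ ∈ uIcc (0 : ℝ) 1, HasDerivAt
      (fun τ : ℝ => h (p + τ • (q - p)) - inner ℝ a (p + τ • (q - p)))
      (inner ℝ (gradient h (p + τ • (q - p)) - a) (q - p)) τ := by
    intro τ _
    have h1 : HasDerivAt (fun τ : ℝ => p + τ • (q - p)) (q - p) τ := by
      have := ((hasDerivAt_id τ).smul_const (q - p)).const_add p
      simpa using this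
    have h2 : HasFDerivAt h (fderiv ℝ h (p + τ • (q - p))) (p + τ • (q - p)) :=
      (hh.differentiable one_ne_zero _).hasFDerivAt
    have h3 := h2.comp_hasDerivAt τ h1
    have h4 : HasDerivAt (fun τ : ℝ => (inner ℝ a (p + τ • (q - p)) : ℝ)) (inner ℝ a (q - p)) τ := by
      have := (hasDerivAt_const τ a).inner ℝ h1
      simpa using this
    have h5 := h3.sub h4
    have h6 : (fderiv ℝ h (p + τ • (q - p))) (q - p) - inner ℝ a (q - p) =
        inner ℝ (gradient h (p + τ • (q - p)) - a) (q - p) := by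
      rw [inner_sub_left]
      congr 1
      unfold gradient
      rw [InnerProductSpace.toDual_symm_apply]
    rw [h6] at h5
    exact h5
  have hc : Continuous (fun τ : ℝ => (inner ℝ (gradient h (p + τ • (q - p)) - a) (q - p) : ℝ)) := by
    fun_prop
  have h1 := intervalIntegral.integral_eq_sub_of_hasDerivAt hd (hc.intervalIntegrable 0 1)
  have h2 : h q - h p - inner ℝ a (q - p) =
      ∫ τ in (0 : ℝ)..1, inner ℝ (gradient h (p + τ • (q - p)) - a) (q - p) := by
    rw [h1]
    simp only [one_smul, zero_smul, add_zero, add_sub_cancel, inner_sub_right]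
    ring
  rw [h2]
  refine (intervalIntegral.abs_integral_le_integral_abs zero_le_one).trans ?_
  refine intervalIntegral.integral_mono_on zero_le_one
    (hc.abs.intervalIntegrable 0 1) (Continuous.intervalIntegrable (by fun_prop) 0 1) ?_
  intro τ _
  exact abs_real_inner_le_norm _ _

/-- the error term -/
theorem badBall_err {d : ℕ} {h : E d → ℝ} (hh : ContDiff ℝ 1 h) (a x z c : E d) {r : ℝ}
    (hr : 0 < r) (hxz : ‖x - z‖ ≤ r) (hxc : ‖c - x‖ ≤ 2 * r) :
    ∫⁻ y in ball z r, ENNReal.ofReal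
        |h (c + (2 : ℝ) • (y - z)) - h y - inner ℝ a (c + (2 : ℝ) • (y - z) - y)| ≤
      ENNReal.ofReal (4 * r) * ∫⁻ y in ball x (8 * r), ENNReal.ofReal ‖gradient h y - a‖ := by
  have hg := badBall_continuous_gradient hh
  obtain ⟨G, hG⟩ : ∃ G : E d → ℝ≥0∞, G = (ball x (8 * r)).indicator
    (fun y => ENNReal.ofReal ‖gradient h y - a‖) := ⟨_, rfl⟩
  have hGm : Measurable G := by
    rw [hG]
    apply Measurable.indicator _ measurableSet_ball
    have : Continuous (fun y => ‖gradient h y - a‖) := by fun_prop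
    exact this.measurable.ennreal_ofReal
  have hGI : ∫⁻ y in ball x (8 * r), ENNReal.ofReal ‖gradient h y - a‖ = ∫⁻ y, G y := by
    rw [hG, lintegral_indicator measurableSet_ball]
  rw [hGI]
  have hpt : ∀ y ∈ ball z r, ENNReal.ofReal
        |h (c + (2 : ℝ) • (y - z)) - h y - inner ℝ a (c + (2 : ℝ) • (y - z) - y)| ≤
      ∫⁻ τ in Ioc (0 : ℝ) 1, ENNReal.ofReal (4 * r) * G ((1 + τ) • y + τ • (c - (2 : ℝ) • z)) := by
    intro y hy
    have hyz : ‖y - z‖ < r := by rwa [mem_ball_iff_norm] at hy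
    have hq : ‖c + (2 : ℝ) • (y - z) - y‖ ≤ 4 * r := by
      have : c + (2 : ℝ) • (y - z) - y = (c - x) + (x - z) + (y - z) := by module
      rw [this]
      have h1 := norm_add_le ((c - x) + (x - z)) (y - z)
      have h2 := norm_add_le (c - x) (x - z)
      linarith
    have hc1 : Continuous (fun τ : ℝ => ‖gradient h (y + τ • (c + (2 : ℝ) • (y - z) - y)) - a‖ *
        ‖c + (2 : ℝ) • (y - z) - y‖) := by fun_prop
    refine (ENNReal.ofReal_le_ofReal (badBall_ftc hh a y (c + (2 : ℝ) • (y - z)))).trans ?_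
    rw [intervalIntegral.integral_of_le zero_le_one,
      ofReal_integral_eq_lintegral_ofReal (hc1.integrableOn_Ioc)
        (Filter.Eventually.of_forall (fun _ => by positivity))]
    apply lintegral_mono_ae
    rw [ae_restrict_iff' measurableSet_Ioc]
    refine Filter.Eventually.of_forall ?_
    intro τ hτ
    have hτ0 : 0 < τ := hτ.1
    have hτ1 : τ ≤ 1 := hτ.2
    have hmem : y + τ • (c + (2 : ℝ) • (y - z) - y) ∈ ball x (8 * r) := by
      rw [mem_ball_iff_norm]
      have : y + τ • (c + (2 : ℝ) • (y - z) - y) - x =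
        (y - z) - (x - z) + τ • (c + (2 : ℝ) • (y - z) - y) := by module
      rw [this]
      have h1 := norm_add_le ((y - z) - (x - z)) (τ • (c + (2 : ℝ) • (y - z) - y))
      have h2 := norm_sub_le (y - z) (x - z)
      have h3 : ‖τ • (c + (2 : ℝ) • (y - z) - y)‖ ≤ 4 * r := by
        rw [norm_smul, Real.norm_of_nonneg hτ0.le]
        calc τ * ‖c + (2 : ℝ) • (y - z) - y‖ ≤ 1 * (4 * r) := by gcongr
          _ = 4 * r := one_mul _
      linarith
    have heq : (1 + τ) • y + τ • (c - (2 : ℝ) • z) = y + τ • (c + (2 : ℝ) • (y - z) - y) := by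
      module
    rw [heq, hG, indicator_of_mem hmem, ← ENNReal.ofReal_mul (by positivity)]
    apply ENNReal.ofReal_le_ofReal
    rw [mul_comm]
    gcongr
  calc ∫⁻ y in ball z r, ENNReal.ofReal
        |h (c + (2 : ℝ) • (y - z)) - h y - inner ℝ a (c + (2 : ℝ) • (y - z) - y)|
      ≤ ∫⁻ y in ball z r, ∫⁻ τ in Ioc (0 : ℝ) 1,
          ENNReal.ofReal (4 * r) * G ((1 + τ) • y + τ • (c - (2 : ℝ) • z)) := by
        apply lintegral_mono_ae
        rw [ae_restrict_iff' measurableSet_ball]
        exact Filter.Eventually.of_forall hpt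
    _ = ∫⁻ τ in Ioc (0 : ℝ) 1, ∫⁻ y in ball z r,
          ENNReal.ofReal (4 * r) * G ((1 + τ) • y + τ • (c - (2 : ℝ) • z)) := by
        apply lintegral_lintegral_swap
        apply Measurable.aemeasurable
        apply Measurable.const_mul
        apply hGm.comp
        have : Continuous (fun p : E d × ℝ => (1 + p.2) • p.1 + p.2 • (c - (2 : ℝ) • z)) := by
          fun_prop
        exact this.measurable
    _ ≤ ∫⁻ τ in Ioc (0 : ℝ) 1, ENNReal.ofReal (4 * r) * ∫⁻ y, G y := by
        apply lintegral_mono_ae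
        rw [ae_restrict_iff' measurableSet_Ioc]
        refine Filter.Eventually.of_forall ?_
        intro τ hτ
        rw [lintegral_const_mul' _ _ ENNReal.ofReal_ne_top]
        refine mul_le_mul_right ?_ _
        refine (setLIntegral_le_lintegral _ _).trans ?_
        exact badBall_lintegral G hGm _ (by linarith [hτ.1])
    _ = ENNReal.ofReal (4 * r) * ∫⁻ y, G y := by
        rw [setLIntegral_const, Real.volume_Ioc]
        simp

theorem badBall_sym {d : ℕ} (a z : E d) (r : ℝ) : ∫ y in ball z r, inner ℝ a (y - z) = (0 : ℝ) := by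
  have h1 : ∫ y in ball z r, (inner ℝ a (y - z) : ℝ) =
      ∫ y, (ball z r).indicator (fun y => (inner ℝ a (y - z) : ℝ)) y :=
    (integral_indicator measurableSet_ball).symm
  have h2 : ∫ y, (ball z r).indicator (fun y => (inner ℝ a (y - z) : ℝ)) y =
      ∫ y, (ball z r).indicator (fun y => (inner ℝ a (y - z) : ℝ)) ((2 : ℝ) • z - y) :=
    (integral_sub_left_eq_self (fun y => (ball z r).indicator (fun y => (inner ℝ a (y - z) : ℝ)) y)
      volume ((2 : ℝ) • z)).symm
  have h3 : ∀ y : E d, (ball z r).indicator (fun y => (inner ℝ a (y - z) : ℝ)) ((2 : ℝ) • z - y) =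
      -((ball z r).indicator (fun y => (inner ℝ a (y - z) : ℝ)) y) := by
    intro y
    have h4 : (2 : ℝ) • z - y - z = -(y - z) := by module
    have h5 : (2 : ℝ) • z - y ∈ ball z r ↔ y ∈ ball z r := by
      rw [mem_ball_iff_norm, mem_ball_iff_norm, h4, norm_neg]
    by_cases hy : y ∈ ball z r
    · rw [indicator_of_mem hy, indicator_of_mem (h5.mpr hy), h4, inner_neg_right]
    · rw [indicator_of_notMem hy, indicator_of_notMem (fun h => hy (h5.mp h)), neg_zero]
  simp only [h3, integral_neg] at h2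
  rw [h1]
  linarith

theorem badBall_intOn {d : ℕ} {F : E d → ℝ} (hF : Continuous F) (w : E d) (s : ℝ) :
    IntegrableOn F (ball w s) :=
  (hF.continuousOn.integrableOn_compact (isCompact_closedBall w s)).mono_set
    ball_subset_closedBall

/-- linear term -/
theorem badBall_lin {d : ℕ} (a z c : E d) {r : ℝ} (hr : 0 < r) :
    ∫ y in ball z r, (inner ℝ a (c + (2 : ℝ) • (y - z) - y) : ℝ) =
      (r ^ d * kap d) * inner ℝ a (c - z) := by
  have hc4 : Continuous (fun y : E d => (inner ℝ a (y - z) : ℝ)) := by fun_prop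
  have h4 : ∀ y : E d, (inner ℝ a (c + (2 : ℝ) • (y - z) - y) : ℝ) =
      inner ℝ a (c - z) + inner ℝ a (y - z) := by
    intro y
    rw [← inner_add_right]
    congr 1
    module
  simp only [h4]
  rw [integral_add (badBall_intOn continuous_const _ _) (badBall_intOn hc4 _ _), badBall_sym,
    add_zero, setIntegral_const, smul_eq_mul, badBall_vol z hr]

theorem badBall_split {d : ℕ} {u v w : E d → ℝ} (hu : Continuous u) (hv : Continuous v)
    (hw : Continuous w) (z : E d) (r : ℝ) :
    (∫ y in ball z r, u y) - (∫ y in ball z r, v y) - (∫ y in ball z r, w y) ≥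
      -∫ y in ball z r, |u y - v y - w y| := by
  have h1 : (∫ y in ball z r, u y) - (∫ y in ball z r, v y) - (∫ y in ball z r, w y) =
      ∫ y in ball z r, (u y - v y - w y) := by
    have huv : IntegrableOn (fun y => u y - v y) (ball z r) := badBall_intOn (hu.sub hv) z r
    have e1 : ∫ y in ball z r, (u y - v y - w y) =
        (∫ y in ball z r, (u y - v y)) - ∫ y in ball z r, w y :=
      integral_sub huv (badBall_intOn hw z r)
    rw [e1, integral_sub (badBall_intOn hu z r) (badBall_intOn hv z r)]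
  rw [h1]
  have h7 := neg_abs_le (∫ y in ball z r, (u y - v y - w y))
  have h8 : |∫ y in ball z r, (u y - v y - w y)| ≤ ∫ y in ball z r, |u y - v y - w y| :=
    abs_integral_le_integral_abs
  linarith

theorem badBall_err' {d : ℕ} {h : E d → ℝ} (hh : ContDiff ℝ 1 h) (a x z c : E d) {r : ℝ}
    (hr : 0 < r) (hxz : ‖x - z‖ ≤ r) (hxc : ‖c - x‖ ≤ 2 * r) :
    ∫ y in ball z r,
        |h (c + (2 : ℝ) • (y - z)) - h y - inner ℝ a (c + (2 : ℝ) • (y - z) - y)| ≤
      (4 * r) * ∫ y in ball x (8 * r), ‖gradient h y - a‖ := by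
  have hcont : Continuous h := hh.continuous
  have hg := badBall_continuous_gradient hh
  have hc3 : Continuous (fun y : E d =>
    |h (c + (2 : ℝ) • (y - z)) - h y - inner ℝ a (c + (2 : ℝ) • (y - z) - y)|) := by fun_prop
  have hc5 : Continuous (fun y : E d => ‖gradient h y - a‖) := by fun_prop
  have herr := badBall_err hh a x z c hr hxz hxc
  rw [← ofReal_integral_eq_lintegral_ofReal (badBall_intOn hc3 _ _)
      (Filter.Eventually.of_forall (fun _ => abs_nonneg _)),
      ← ofReal_integral_eq_lintegral_ofReal (badBall_intOn hc5 _ _)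
      (Filter.Eventually.of_forall (fun _ => norm_nonneg _)),
      ← ENNReal.ofReal_mul (by positivity)] at herr
  have hI0 : 0 ≤ ∫ y in ball x (8 * r), ‖gradient h y - a‖ :=
    integral_nonneg (fun _ => norm_nonneg _)
  exact (ENNReal.ofReal_le_ofReal_iff (by positivity)).mp herr

theorem badBall_inner {d : ℕ} {a x z c : E d} {r : ℝ} (ha0 : 0 < ‖a‖)
    (hxz : ‖x - z‖ ≤ r) (hc : c = x + (2 * r / ‖a‖) • a) : r * ‖a‖ ≤ inner ℝ a (c - z) := by
  have h6 : c - z = (2 * r / ‖a‖) • a + (x - z) := by rw [hc]; abel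
  rw [h6, inner_add_right, real_inner_smul_right, real_inner_self_eq_norm_sq]
  have h7 : 2 * r / ‖a‖ * ‖a‖ ^ 2 = 2 * r * ‖a‖ := by field_simp
  have h8 := abs_real_inner_le_norm a (x - z)
  have h9 := (abs_le.mp h8).1
  have h10 : ‖a‖ * ‖x - z‖ ≤ ‖a‖ * r := by gcongr
  rw [h7]
  linarith

theorem badBall_avg {d : ℕ} {h M : E d → ℝ} (hM : MaxPair h M) {x z c : E d} {r : ℝ}
    (hct : Contact h M x z r) (hcx' : ‖x - c‖ ≤ 2 * r) :
    ∫ y in ball z r, h (c + (2 : ℝ) • (y - z)) ≤ ∫ y in ball z r, h y := by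
  obtain ⟨hr, hxz, hav⟩ := hct
  have h1 := hM.avg_le x c (2 * r) (by positivity) hcx'
  rw [badBall_homothety h c z (by norm_num : (0 : ℝ) < 2), hav]
  rw [badBall_vol c (by positivity : 0 < 2 * r), mul_pow] at h1
  rw [badBall_vol z hr, inv_mul_le_iff₀ (by positivity)]
  linarith

theorem bad_ball (d : ℕ) (hd : 0 < d) : ∃ C : ℝ, 0 < C ∧ ∀ (h M : E d → ℝ), MaxPair h M →
    ContDiff ℝ 1 h → ∀ (x z : E d) (r : ℝ), Contact h M x z r → ∀ a : E d,
      ‖a‖ * r ^ d ≤ C * ∫ y in ball x (8 * r), ‖gradient h y - a‖ := by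
  have hκ := badBall_kap_pos d
  refine ⟨4 / kap d, by positivity, ?_⟩
  intro h M hM hh x z r hct a
  have hr : 0 < r := hct.1
  have hxz : ‖x - z‖ ≤ r := hct.2.1
  have hI0 : 0 ≤ ∫ y in ball x (8 * r), ‖gradient h y - a‖ :=
    integral_nonneg (fun _ => norm_nonneg _)
  obtain ⟨I, hI⟩ : ∃ I : ℝ, I = ∫ y in ball x (8 * r), ‖gradient h y - a‖ := ⟨_, rfl⟩
  rw [← hI] at hI0 ⊢
  by_cases ha : a = 0
  · rw [ha, norm_zero, zero_mul]
    positivity
  have ha0 : 0 < ‖a‖ := norm_pos_iff.mpr ha
  obtain ⟨c, hc⟩ : ∃ c : E d, c = x + (2 * r / ‖a‖) • a := ⟨_, rfl⟩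
  have hcx : ‖c - x‖ = 2 * r := by
    rw [hc, add_sub_cancel_left, norm_smul, Real.norm_of_nonneg (by positivity)]
    field_simp
  have hcx' : ‖x - c‖ ≤ 2 * r := by rw [norm_sub_rev, hcx]
  have hcont : Continuous h := hh.continuous
  have h2 := badBall_avg hM hct hcx'
  have hc1 : Continuous (fun y : E d => h (c + (2 : ℝ) • (y - z))) := by fun_prop
  have hc2 : Continuous (fun y : E d => (inner ℝ a (c + (2 : ℝ) • (y - z) - y) : ℝ)) := by fun_prop
  have h3 := badBall_lin a z c hr
  have h5 := badBall_inner ha0 hxz hc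
  have herr2 := badBall_err' hh a x z c hr hxz hcx.le
  have h6 := badBall_split hc1 hcont hc2 z r
  rw [h3] at h6
  rw [← hI] at herr2
  have h9 : (r ^ d * kap d) * (r * ‖a‖) ≤ (r ^ d * kap d) * inner ℝ a (c - z) := by
    gcongr
  have h10 : (r ^ d * kap d) * (r * ‖a‖) ≤ (4 * r) * I := by linarith
  have h11 : r * (‖a‖ * r ^ d * kap d) ≤ r * (4 * I) := by linarith
  have h12 := le_of_mul_le_mul_left h11 hr
  rw [div_mul_eq_mul_div, le_div_iff₀ hκ]
  exact h12

theorem contact_growth {d : ℕ} {h M : E d → ℝ} (hM : MaxPair h M) (h0 : ∀ x, 0 ≤ h x)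
    {x z : E d} {r : ℝ} (hct : Contact h M x z r) (y : E d) :
    M x * r ^ d ≤ M y * (r + ‖y - x‖) ^ d := by
  obtain ⟨hr, hxz, hav⟩ := hct
  have hκ := badBall_kap_pos d
  have hs : 0 < r + ‖y - x‖ := by positivity
  have h1 := hM.avg_le y z (r + ‖y - x‖) hs (by
    have := norm_add_le (y - x) (x - z)
    rw [sub_add_sub_cancel] at this
    linarith)
  have h2 : ∫ w in ball z r, h w ≤ ∫ w in ball z (r + ‖y - x‖), h w := by
    apply setIntegral_mono_set hM.int_f.integrableOn
      (Filter.Eventually.of_forall (fun w => h0 w))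
    exact (ball_subset_ball (by linarith [norm_nonneg (y - x)])).eventuallyLE
  rw [badBall_vol z hs] at h1
  rw [hav, badBall_vol z hr] at h2
  have h3 : (M x * r ^ d) * kap d ≤ (M y * (r + ‖y - x‖) ^ d) * kap d := by
    linarith
  exact le_of_mul_le_mul_right h3 hκ

theorem contact_lower {d : ℕ} {h M : E d → ℝ} (hM : MaxPair h M) (h0 : ∀ x, 0 ≤ h x)
    {x z : E d} {r : ℝ} (hct : Contact h M x z r) (hdM : DifferentiableAt ℝ M x) (v : E d)
    (hv : ‖v‖ = 1) : -(d * M x) ≤ fderiv ℝ M x v * r := by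
  have hr := hct.1
  have h1 : HasDerivAt (fun t : ℝ => M (x + t • v) * (r + t) ^ d)
      (fderiv ℝ M x v * r ^ d + M x * (d * r ^ (d - 1))) 0 := by
    have h2 : HasDerivAt (fun t : ℝ => x + t • v) v 0 := by
      have := ((hasDerivAt_id (0 : ℝ)).smul_const v).const_add x
      simpa using this
    have h3 : HasFDerivAt M (fderiv ℝ M x) (x + (0 : ℝ) • v) := by
      rw [zero_smul, add_zero]
      exact hdM.hasFDerivAt
    have h4 := h3.comp_hasDerivAt (0 : ℝ) h2
    have h5 : HasDerivAt (fun t : ℝ => (r + t) ^ d) (d * r ^ (d - 1)) 0 := by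
      have := ((hasDerivAt_id (0 : ℝ)).const_add r).fun_pow d
      simpa using this
    have h6 := h4.fun_mul h5
    simpa using h6
  have h7 := h1.tendsto_slope_zero_right
  have h8 : 0 ≤ fderiv ℝ M x v * r ^ d + M x * (d * r ^ (d - 1)) := by
    refine ge_of_tendsto h7 ?_
    filter_upwards [self_mem_nhdsWithin] with t ht
    have ht0 : 0 < t := ht
    have h9 := contact_growth hM h0 hct (x + t • v)
    rw [add_sub_cancel_left, norm_smul, hv, mul_one, Real.norm_of_nonneg ht0.le] at h9
    simp only [zero_add, zero_smul, add_zero, smul_eq_mul]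
    have : 0 ≤ M (x + t • v) * (r + t) ^ d - M x * r ^ d := by linarith
    positivity
  rcases Nat.eq_zero_or_pos d with hd | hd
  · subst hd
    have hv0 : v = 0 := Subsingleton.elim _ _
    rw [hv0, norm_zero] at hv
    norm_num at hv
  · have h9 : r ^ d = r * r ^ (d - 1) := by
      rw [← pow_succ', Nat.sub_add_cancel hd]
    rw [h9] at h8
    have h10 : 0 ≤ r ^ (d - 1) * (fderiv ℝ M x v * r + d * M x) := by
      have : r ^ (d - 1) * (fderiv ℝ M x v * r + d * M x) =
        fderiv ℝ M x v * (r * r ^ (d - 1)) + M x * (d * r ^ (d - 1)) := by ring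
      rw [this]
      exact h8
    have h11 := nonneg_of_mul_nonneg_right h10 (by positivity)
    linarith

theorem contact_rad (d : ℕ) (hd : 0 < d) : ∃ C : ℝ, 0 < C ∧ ∀ (h M : E d → ℝ), MaxPair h M →
    (∀ x, 0 ≤ h x) → ∀ (x z : E d) (r : ℝ), Contact h M x z r →
      ‖fderiv ℝ M x‖ ≤ C * (∫ y, h y) / r ^ (d + 1) := by
  have hκ := badBall_kap_pos d
  have hdR : (0 : ℝ) < d := by exact_mod_cast hd
  refine ⟨d / kap d, by positivity, ?_⟩
  intro h M hM h0 x z r hct
  have hr := hct.1
  have hI : 0 ≤ ∫ y, h y := integral_nonneg h0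
  by_cases hdM : DifferentiableAt ℝ M x
  · have h1 : ∀ v : E d, ‖v‖ = 1 → |fderiv ℝ M x v| * r ≤ d * M x := by
      intro v hv
      have h2 := contact_lower hM h0 hct hdM v hv
      have h3 := contact_lower hM h0 hct hdM (-v) (by rwa [norm_neg])
      rw [map_neg] at h3
      rcases abs_cases (fderiv ℝ M x v) with h4 | h4 <;> rw [h4.1] <;> linarith
    have hMx : M x * (r ^ d * kap d) ≤ ∫ y, h y := by
      have h2 := hct.2.2
      rw [badBall_vol z hr] at h2
      rw [← h2]
      exact setIntegral_le_integral hM.int_f (Filter.Eventually.of_forall h0)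
    have hMx2 : d * M x / r ≤ d / kap d * (∫ y, h y) / r ^ (d + 1) := by
      rw [div_le_div_iff₀ hr (by positivity), pow_succ]
      have : d / kap d * (∫ y, h y) * r = (d * r / kap d) * ∫ y, h y := by ring
      rw [this]
      have : d * M x * (r ^ d * r) = (d * r / kap d) * (M x * (r ^ d * kap d)) := by
        field_simp
      rw [this]
      gcongr
    refine le_trans ?_ hMx2
    have hMnn : 0 ≤ d * M x / r := by
      have h2 : 0 ≤ M x * (r ^ d * kap d) := by
        have h3 := hct.2.2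
        rw [badBall_vol z hr] at h3
        rw [← h3]
        exact integral_nonneg (fun y => h0 y)
      have h3 : 0 ≤ M x := nonneg_of_mul_nonneg_left h2 (by positivity)
      positivity
    apply ContinuousLinearMap.opNorm_le_bound _ hMnn
    intro v
    by_cases hv : v = 0
    · rw [hv, map_zero, norm_zero, norm_zero, mul_zero]
    · have hv0 : 0 < ‖v‖ := norm_pos_iff.mpr hv
      have h2 := h1 (‖v‖⁻¹ • v) (by
        rw [norm_smul, norm_inv, norm_norm, inv_mul_cancel₀ hv0.ne'])
      rw [map_smul, smul_eq_mul, abs_mul, abs_of_pos (by positivity : 0 < ‖v‖⁻¹)] at h2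
      rw [Real.norm_eq_abs, div_mul_eq_mul_div, le_div_iff₀ hr]
      have h3 : ‖v‖ * (‖v‖⁻¹ * |fderiv ℝ M x v| * r) ≤ ‖v‖ * (d * M x) := by gcongr
      have h4 : ‖v‖ * (‖v‖⁻¹ * |fderiv ℝ M x v| * r) = |fderiv ℝ M x v| * r := by
        field_simp
      rw [h4] at h3
      linarith
  · rw [fderiv_zero_of_not_differentiableAt hdM, norm_zero]
    positivity

end

end Vale.Agent.P137F
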