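import Vale.Agent.Lib.P137F.Dist3

/-!
# P137F: two-step chains give monotonicity in `L¹`

Setting: `v_c` a small vector, `r` a small radius, and for `y` in a big ball most `v ∈ ball v_c r`
have `f (y - k v) ≤ 0` and `f (y + k v) > 0` for `k ∈ {K, K+1}` (the far points are on the good
side of the level `0`).  Then for every `w ∈ ball (2 v_c) (r/2)`
`∫_{ball 0 Y} (f y - f (y+w))₊ ≤ 8 NN / |ball 0 (r/2)|`.

Proof. Write `g = max f 0`, `h = max (-f) 0`; `(f y - f y')₊ = (g y - g y')₊ + (h y' - h y)₊`.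
(U) if `f (y - K v) ≤ 0` then `g y ≤ g (y+v) + dist3 (f (y - K v)) (f y) (f (y+v))`.
(L) if `f (z + K v) > 0` then `h z ≤ h (z - v) + dist3 (f (z - v)) (f z) (f (z + K v))`
    (and `dist3` is symmetric; with `v ↦ -v` this is again a term of `NN` with `k = K`).
For fixed `y ∈ ball 0 Y`, `w`, let `v` range over the lens `ball v_c (r/2)`, `v'' = w - v ∈ ball v_c r`:
`g y ≤ g (y+v) + e (y, v)` unless `f (y - K v) > 0` (measure `≤ β`),
`g (y+v) ≤ g (y+w) + e (y+v, w-v)` unless `f (y+v - K (w-v)) > 0`, and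
`y + v - K (w - v) = (y + w) - (K+1) v''`, so the exceptional set has measure `≤ β`
(translation and reflection invariance).  So at least half of the lens is good.  The same for `h`:
`z = y + w`: `h z ≤ h (z - v) + ...` unless `f (z + K v) ≤ 0`; `h (z-v) ≤ h y + ...` unless
`f (z - v + K (w-v)) ≤ 0`, `z - v + K (w - v) = y + (K+1) v''`.
Integrate over `y ∈ ball 0 Y` and substitute.
-/

namespace Vale.Agent.P137F

open MeasureTheory Metric Set ENNReal

noncomputable section

theorem step_up (f : ℝ) (a c : ℝ) (ha : a ≤ 0) : max f 0 ≤ max c 0 + dist3 a f c := by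
  have h1 := sub_max_le_dist3 a f c
  have h2 := dist3_nonneg a f c
  rcases max_cases f 0 with ⟨h3, h4⟩ | ⟨h3, h4⟩
  · rw [h3]
    have h5 : max a c ≤ max c 0 := max_le (ha.trans (le_max_right _ _)) (le_max_left _ _)
    linarith
  · rw [h3]
    have := le_max_right c 0
    linarith

theorem step_down (f : ℝ) (a c : ℝ) (hc : 0 < c) : max (-f) 0 ≤ max (-a) 0 + dist3 a f c := by
  have h1 := min_sub_le_dist3 a f c
  have h2 := dist3_nonneg a f c
  rcases max_cases (-f) 0 with ⟨h3, h4⟩ | ⟨h3, h4⟩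
  · rw [h3]
    have h5 : -max (-a) 0 ≤ min a c := by
      refine le_min ?_ ?_
      · have := le_max_left (-a) 0
        linarith
      · have := le_max_right (-a) 0
        linarith
    linarith
  · rw [h3]
    have := le_max_right (-a) 0
    linarith

/-- shift lemma: the substitution `(y, v) ↦ (y + a v, b v)` -/
theorem mono_shift {d : ℕ} {F : E d → E d → ℝ≥0∞} (hF : Measurable (Function.uncurry F))
    {a b : E d → E d} (ha : Measurable a) (hb : MeasurePreserving b volume volume)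
    {L : Set (E d)} (hL : MeasurableSet L) (ha1 : ∀ v ∈ L, ‖a v‖ ≤ 1)
    (hb1 : ∀ v ∈ L, b v ∈ ball (0 : E d) 1) (Y : ℝ) :
    ∫⁻ y in ball (0 : E d) Y, ∫⁻ v in L, F (y + a v) (b v) ≤
      ∫⁻ y in ball (0 : E d) (Y + 1), ∫⁻ v in ball (0 : E d) 1, F y v := by
  have hm1 : Measurable fun q : E d × E d => F (q.1 + a q.2) (b q.2) :=
    hF.comp ((measurable_fst.add (ha.comp measurable_snd)).prodMk
      (hb.measurable.comp measurable_snd))
  have hm2 : Measurable fun q : E d × E d => F q.1 q.2 := hF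
  rw [lintegral_lintegral_swap hm1.aemeasurable]
  have hH : Measurable fun u : E d => ∫⁻ y in ball (0 : E d) (Y + 1), F y u :=
    Measurable.lintegral_prod_left' (μ := volume.restrict (ball (0 : E d) (Y + 1))) hm2
  have h1 : ∀ v ∈ L, ∫⁻ y in ball (0 : E d) Y, F (y + a v) (b v) ≤
      ∫⁻ y in ball (0 : E d) (Y + 1), F y (b v) := by
    intro v hv
    rw [← lintegral_indicator measurableSet_ball, ← lintegral_indicator measurableSet_ball]
    rw [← lintegral_add_right_eq_self
      (fun y => (ball (0 : E d) (Y + 1)).indicator (fun y => F y (b v)) y) (a v)]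
    refine lintegral_mono fun y => ?_
    by_cases hy : y ∈ ball (0 : E d) Y
    · have hy2 : y + a v ∈ ball (0 : E d) (Y + 1) := by
        rw [mem_ball_zero_iff] at hy ⊢
        calc ‖y + a v‖ ≤ ‖y‖ + ‖a v‖ := norm_add_le _ _
          _ < Y + 1 := add_lt_add_of_lt_of_le hy (ha1 v hv)
      rw [indicator_of_mem hy, indicator_of_mem hy2]
    · rw [indicator_of_notMem hy]
      exact zero_le
  calc ∫⁻ v in L, ∫⁻ y in ball (0 : E d) Y, F (y + a v) (b v)
      ≤ ∫⁻ v in L, ∫⁻ y in ball (0 : E d) (Y + 1), F y (b v) :=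
        setLIntegral_mono' hL h1
    _ ≤ ∫⁻ v, (ball (0 : E d) 1).indicator (fun u => ∫⁻ y in ball (0 : E d) (Y + 1), F y u)
          (b v) := by
        rw [← lintegral_indicator hL]
        refine lintegral_mono fun v => ?_
        by_cases hv : v ∈ L
        · rw [indicator_of_mem hv, indicator_of_mem (hb1 v hv)]
        · rw [indicator_of_notMem hv]
          exact zero_le
    _ = ∫⁻ u, (ball (0 : E d) 1).indicator (fun u => ∫⁻ y in ball (0 : E d) (Y + 1), F y u) u :=
        hb.lintegral_comp (hH.indicator measurableSet_ball)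
    _ = ∫⁻ u in ball (0 : E d) 1, ∫⁻ y in ball (0 : E d) (Y + 1), F y u :=
        lintegral_indicator measurableSet_ball _
    _ = ∫⁻ y in ball (0 : E d) (Y + 1), ∫⁻ v in ball (0 : E d) 1, F y v :=
        (lintegral_lintegral_swap hm2.aemeasurable).symm

/-- averaging over the good part of a lens -/
theorem mono_avg {d : ℕ} {L B₁ B₂ : Set (E d)} (hL : MeasurableSet L) (hB₁ : MeasurableSet B₁)
    (hB₂ : MeasurableSet B₂) {β : ℝ≥0∞} (h₁ : volume B₁ ≤ β) (h₂ : volume B₂ ≤ β)
    (hLfin : volume L ≠ ⊤) (hβ : 4 * β ≤ volume L) {x : ℝ≥0∞} {G : E d → ℝ≥0∞}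
    (hx : ∀ v ∈ L, v ∉ B₁ → v ∉ B₂ → x ≤ G v) : x * volume L ≤ 2 * ∫⁻ v in L, G v := by
  have hβfin : β ≠ ⊤ := by
    rintro rfl
    exact hLfin (top_le_iff.1 (by simpa using hβ))
  have hGood : volume L ≤ 2 * volume (L \ (B₁ ∪ B₂)) := by
    have h3 : volume (B₁ ∪ B₂) ≤ 2 * β := by
      calc volume (B₁ ∪ B₂) ≤ volume B₁ + volume B₂ := measure_union_le _ _
        _ ≤ β + β := add_le_add h₁ h₂
        _ = 2 * β := (two_mul β).symm
    have h4 : volume L ≤ volume (L \ (B₁ ∪ B₂)) + 2 * β := by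
      calc volume L ≤ volume ((L \ (B₁ ∪ B₂)) ∪ (B₁ ∪ B₂)) := by
            refine measure_mono fun v hv => ?_
            by_cases h : v ∈ B₁ ∪ B₂
            · exact Or.inr h
            · exact Or.inl ⟨hv, h⟩
        _ ≤ volume (L \ (B₁ ∪ B₂)) + volume (B₁ ∪ B₂) := measure_union_le _ _
        _ ≤ _ := add_le_add le_rfl h3
    have h5 : 2 * volume L ≤ 2 * volume (L \ (B₁ ∪ B₂)) + volume L := by
      calc 2 * volume L ≤ 2 * (volume (L \ (B₁ ∪ B₂)) + 2 * β) := mul_le_mul_right h4 2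
        _ = 2 * volume (L \ (B₁ ∪ B₂)) + 4 * β := by ring
        _ ≤ _ := add_le_add le_rfl hβ
    rw [two_mul] at h5
    exact (ENNReal.add_le_add_iff_right hLfin).1 h5
  calc x * volume L ≤ x * (2 * volume (L \ (B₁ ∪ B₂))) := mul_le_mul_right hGood x
    _ = 2 * (x * volume (L \ (B₁ ∪ B₂))) := by ring
    _ = 2 * ∫⁻ _v in L \ (B₁ ∪ B₂), x := by rw [setLIntegral_const]
    _ ≤ 2 * ∫⁻ v in L \ (B₁ ∪ B₂), G v := by
        refine mul_le_mul_right (setLIntegral_mono' (hL.diff (hB₁.union hB₂)) fun v hv => ?_) 2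
        exact hx v hv.1 (fun h => hv.2 (Or.inl h)) (fun h => hv.2 (Or.inr h))
    _ ≤ 2 * ∫⁻ v in L, G v :=
        mul_le_mul_right (lintegral_mono_set sdiff_subset) 2

/-- the term `k = K` of `NN` -/
def monoF {d : ℕ} (f : E d → ℝ) (K : ℕ) (y v : E d) : ℝ≥0∞ :=
  ENNReal.ofReal (dist3 (f (y - (K : ℝ) • v)) (f y) (f (y + v)))

theorem monoF_measurable {d : ℕ} {f : E d → ℝ} (hf : Continuous f) (K : ℕ) :
    Measurable (Function.uncurry (monoF f K)) := by
  have h1 : Continuous fun q : E d × E d =>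
      ((f (q.1 - (K : ℝ) • q.2), f q.1, f (q.1 + q.2)) : ℝ × ℝ × ℝ) := by
    fun_prop
  have h2 : Continuous fun q : E d × E d =>
      dist3 (f (q.1 - (K : ℝ) • q.2)) (f q.1) (f (q.1 + q.2)) :=
    Continuous.comp (g := fun p : ℝ × ℝ × ℝ => dist3 p.1 p.2.1 p.2.2) continuous_dist3 h1
  exact h2.measurable.ennreal_ofReal

theorem monoF_comp {d : ℕ} {f : E d → ℝ} (hf : Continuous f) (K : ℕ) {a b : E d → E d}
    (ha : Measurable a) (hb : Measurable b) : Measurable fun v : E d => monoF f K (a v) (b v) :=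
  Measurable.comp (g := Function.uncurry (monoF f K)) (f := fun v : E d => (a v, b v))
    (monoF_measurable hf K) (ha.prodMk hb)

theorem monoF_lint {d : ℕ} {f : E d → ℝ} (hf : Continuous f) (K : ℕ) {a b : E d → E d}
    (ha : Measurable a) (hb : Measurable b) (L : Set (E d)) :
    Measurable fun y : E d => ∫⁻ v in L, monoF f K (y + a v) (b v) := by
  have hm : Measurable fun q : E d × E d => monoF f K (q.1 + a q.2) (b q.2) :=
    Measurable.comp (g := Function.uncurry (monoF f K))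
      (f := fun q : E d × E d => (q.1 + a q.2, b q.2))
      (monoF_measurable hf K) ((measurable_fst.add (ha.comp measurable_snd)).prodMk
        (hb.comp measurable_snd))
  exact Measurable.lintegral_prod_right' (ν := volume.restrict L) hm

/-- the `k`-th term of `NN` -/
def monoG {d : ℕ} (f : E d → ℝ) (Q : Set (E d)) (k : ℕ) : ℝ≥0∞ :=
  ∫⁻ y in Q, ∫⁻ v in ball (0 : E d) 1,
    ENNReal.ofReal (dist3 (f (y - ((k : ℝ) * 1) • v)) (f y) (f (y + (1 : ℝ) • v)))

theorem monoG_eq {d : ℕ} (f : E d → ℝ) (Q : Set (E d)) (k : ℕ) :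
    monoG f Q k = ∫⁻ y in Q, ∫⁻ v in ball (0 : E d) 1, monoF f k y v := by
  unfold monoG monoF
  simp only [mul_one, one_smul]

theorem monoF_le {d : ℕ} (f : E d → ℝ) (K : ℕ) (hK : 1 ≤ K) (Q : Set (E d)) :
    ∫⁻ y in Q, ∫⁻ v in ball (0 : E d) 1, monoF f K y v ≤ NN f K 1 1 Q := by
  rw [← monoG_eq]
  have h1 : NN f K 1 1 Q = ∑ k ∈ Finset.Icc 1 K, monoG f Q k := rfl
  rw [h1]
  exact Finset.single_le_sum (f := monoG f Q) (fun k _ => zero_le)
    (Finset.mem_Icc.2 ⟨hK, le_rfl⟩)

/-- upper part -/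
theorem mono_up {d : ℕ} {f : E d → ℝ} (hf : Continuous f) (K : ℕ) (vc : E d)
    {r : ℝ} (β : ℝ≥0∞) {L : Set (E d)} (hLm : MeasurableSet L) (hLfin : volume L ≠ ⊤)
    (y w : E d) (hU1 : volume {v | v ∈ ball vc r ∧ 0 < f (y - (K : ℝ) • v)} ≤ β)
    (hU2 : volume {v | v ∈ ball vc r ∧ 0 < f ((y + w) - ((K + 1 : ℕ) : ℝ) • v)} ≤ β)
    (hβ : 4 * β ≤ volume L) (hsub : L ⊆ ball vc r) (hwv : ∀ v ∈ L, w - v ∈ ball vc r) :
    ENNReal.ofReal (max (f y) 0 - max (f (y + w)) 0) * volume L ≤
        2 * ∫⁻ v in L, (monoF f K (y + 0) v + monoF f K (y + v) (w - v)) := by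
  have hmU : ∀ (k : ℕ) (y : E d), MeasurableSet {v | v ∈ ball vc r ∧ 0 < f (y - (k : ℝ) • v)} :=
    fun k y => measurableSet_ball.inter
      (isOpen_lt continuous_const
        (hf.comp (continuous_const.sub (continuous_id.const_smul (k : ℝ))))).measurableSet
  have hmp : MeasurePreserving (fun v : E d => w - v) volume volume :=
    Measure.measurePreserving_sub_left volume w
  refine mono_avg (B₁ := {v | v ∈ ball vc r ∧ 0 < f (y - (K : ℝ) • v)})
    (B₂ := (fun v : E d => w - v) ⁻¹' {v | v ∈ ball vc r ∧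
      0 < f ((y + w) - ((K + 1 : ℕ) : ℝ) • v)}) hLm (hmU K y)
    (hmp.measurable (hmU (K + 1) (y + w))) hU1 ?_ hLfin hβ ?_
  · rw [hmp.measure_preimage (hmU (K + 1) (y + w)).nullMeasurableSet]
    exact hU2
  · intro v hv hb1 hb2
    have h1 : f (y - (K : ℝ) • v) ≤ 0 := by
      by_contra h
      exact hb1 ⟨hsub hv, not_le.1 h⟩
    have h2 : f ((y + v) - (K : ℝ) • (w - v)) ≤ 0 := by
      by_contra h
      refine hb2 ⟨hwv v hv, ?_⟩
      have h3 : (y + w) - ((K + 1 : ℕ) : ℝ) • (w - v) = (y + v) - (K : ℝ) • (w - v) := by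
        push_cast
        rw [add_smul, one_smul]
        abel
      simp only [h3]
      exact not_le.1 h
    have h4 := step_up (f y) (f (y - (K : ℝ) • v)) (f (y + v)) h1
    have h5 := step_up (f (y + v)) (f ((y + v) - (K : ℝ) • (w - v))) (f ((y + v) + (w - v))) h2
    have h6 : (y + v) + (w - v) = y + w := by abel
    unfold monoF
    rw [← ENNReal.ofReal_add (dist3_nonneg _ _ _) (dist3_nonneg _ _ _)]
    refine ENNReal.ofReal_le_ofReal ?_
    rw [h6] at h5 ⊢
    rw [add_zero]
    linarith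

/-- lower part -/
theorem mono_down {d : ℕ} {f : E d → ℝ} (hf : Continuous f) (K : ℕ) (vc : E d)
    {r : ℝ} (β : ℝ≥0∞) {L : Set (E d)} (hLm : MeasurableSet L) (hLfin : volume L ≠ ⊤)
    (y w : E d) (hL1 : volume {v | v ∈ ball vc r ∧ f ((y + w) + (K : ℝ) • v) ≤ 0} ≤ β)
    (hL2 : volume {v | v ∈ ball vc r ∧ f (y + ((K + 1 : ℕ) : ℝ) • v) ≤ 0} ≤ β)
    (hβ : 4 * β ≤ volume L) (hsub : L ⊆ ball vc r) (hwv : ∀ v ∈ L, w - v ∈ ball vc r) :
    ENNReal.ofReal (max (-f (y + w)) 0 - max (-f y) 0) * volume L ≤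
        2 * ∫⁻ v in L, (monoF f K (y + w) (-v) + monoF f K (y + (w - v)) (-(w - v))) := by
  have hmL : ∀ (k : ℕ) (y : E d), MeasurableSet {v | v ∈ ball vc r ∧ f (y + (k : ℝ) • v) ≤ 0} :=
    fun k y => measurableSet_ball.inter
      (isClosed_le (hf.comp (continuous_const.add (continuous_id.const_smul (k : ℝ))))
        continuous_const).measurableSet
  have hmp : MeasurePreserving (fun v : E d => w - v) volume volume :=
    Measure.measurePreserving_sub_left volume w
  refine mono_avg (B₁ := {v | v ∈ ball vc r ∧ f ((y + w) + (K : ℝ) • v) ≤ 0})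
    (B₂ := (fun v : E d => w - v) ⁻¹' {v | v ∈ ball vc r ∧
      f (y + ((K + 1 : ℕ) : ℝ) • v) ≤ 0}) hLm (hmL K (y + w))
    (hmp.measurable (hmL (K + 1) y)) hL1 ?_ hLfin hβ ?_
  · rw [hmp.measure_preimage (hmL (K + 1) y).nullMeasurableSet]
    exact hL2
  · intro v hv hb1 hb2
    have h1 : 0 < f ((y + w) + (K : ℝ) • v) := by
      by_contra h
      exact hb1 ⟨hsub hv, not_lt.1 h⟩
    have h2 : 0 < f ((y + (w - v)) + (K : ℝ) • (w - v)) := by
      by_contra h
      refine hb2 ⟨hwv v hv, ?_⟩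
      have h3 : y + ((K + 1 : ℕ) : ℝ) • (w - v) = (y + (w - v)) + (K : ℝ) • (w - v) := by
        push_cast
        rw [add_smul, one_smul]
        abel
      simp only [h3]
      exact not_lt.1 h
    have h4 := step_down (f (y + w)) (f (y + (w - v))) (f ((y + w) + (K : ℝ) • v)) h1
    have h5 := step_down (f (y + (w - v))) (f y) (f ((y + (w - v)) + (K : ℝ) • (w - v))) h2
    unfold monoF
    rw [← ENNReal.ofReal_add (dist3_nonneg _ _ _) (dist3_nonneg _ _ _)]
    refine ENNReal.ofReal_le_ofReal ?_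
    have e1 : y + w - (K : ℝ) • -v = (y + w) + (K : ℝ) • v := by
      rw [smul_neg, sub_neg_eq_add]
    have e2 : y + w + -v = y + (w - v) := by abel
    have e3 : y + (w - v) - (K : ℝ) • -(w - v) = (y + (w - v)) + (K : ℝ) • (w - v) := by
      rw [smul_neg, sub_neg_eq_add]
    have e4 : y + (w - v) + -(w - v) = y := by abel
    rw [e1, e2, e3, e4, dist3_comm (f ((y + w) + (K : ℝ) • v)),
      dist3_comm (f ((y + (w - v)) + (K : ℝ) • (w - v)))]
    linarith

theorem mono_split (a b : ℝ) : ENNReal.ofReal (a - b) ≤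
    ENNReal.ofReal (max a 0 - max b 0) + ENNReal.ofReal (max (-b) 0 - max (-a) 0) := by
  have e1 : max a 0 - max (-a) 0 = a := by
    rcases le_total a 0 with h | h
    · rw [max_eq_right h, max_eq_left (by linarith)]; ring
    · rw [max_eq_left h, max_eq_right (by linarith)]; ring
  have e2 : max b 0 - max (-b) 0 = b := by
    rcases le_total b 0 with h | h
    · rw [max_eq_right h, max_eq_left (by linarith)]; ring
    · rw [max_eq_left h, max_eq_right (by linarith)]; ring
  refine le_trans (ENNReal.ofReal_le_ofReal ?_) ENNReal.ofReal_add_le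
  linarith

theorem mono {d : ℕ} {f : E d → ℝ} (hf : Continuous f) (K : ℕ) (hK : 1 ≤ K) (vc : E d)
    {r Y : ℝ} (hr : 0 < r) (hv : ‖vc‖ + r ≤ 1 / 2) (hY : 0 < Y) (β : ℝ≥0∞)
    (hU : ∀ k : ℕ, k = K ∨ k = K + 1 → ∀ y ∈ ball (0 : E d) (Y + 1),
      volume {v | v ∈ ball vc r ∧ 0 < f (y - (k : ℝ) • v)} ≤ β)
    (hL : ∀ k : ℕ, k = K ∨ k = K + 1 → ∀ y ∈ ball (0 : E d) (Y + 1),
      volume {v | v ∈ ball vc r ∧ f (y + (k : ℝ) • v) ≤ 0} ≤ β)
    (hβ : 4 * β ≤ volume (ball (0 : E d) (r / 2)))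
    (w : E d) (hw : w ∈ ball ((2 : ℝ) • vc) (r / 2)) :
    (∫⁻ y in ball (0 : E d) Y, ENNReal.ofReal (f y - f (y + w))) *
      volume (ball (0 : E d) (r / 2)) ≤ 8 * NN f K 1 1 (ball 0 (Y + 1)) := by
  set Lam := ball vc (r / 2) with hLam
  have hvol : volume (ball (0 : E d) (r / 2)) = volume Lam :=
    (Measure.addHaar_ball_center volume vc (r / 2)).symm
  have hLamM : MeasurableSet Lam := measurableSet_ball
  have hLamfin : volume Lam ≠ ⊤ := measure_ball_lt_top.ne
  have hsub : Lam ⊆ ball vc r := ball_subset_ball (by linarith)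
  have hwv : ∀ v ∈ Lam, w - v ∈ ball vc r := by
    intro v hv
    rw [mem_ball, dist_eq_norm] at hv hw ⊢
    have h1 : w - v - vc = (w - (2 : ℝ) • vc) - (v - vc) := by
      rw [two_smul]; abel
    rw [h1]
    calc ‖(w - (2 : ℝ) • vc) - (v - vc)‖ ≤ ‖w - (2 : ℝ) • vc‖ + ‖v - vc‖ := norm_sub_le _ _
      _ < r := by linarith
  have hball : ∀ v ∈ ball vc r, ‖v‖ < 1 / 2 := by
    intro v hv
    rw [mem_ball, dist_eq_norm] at hv
    calc ‖v‖ = ‖vc + (v - vc)‖ := by congr 1; abel
      _ ≤ ‖vc‖ + ‖v - vc‖ := norm_add_le _ _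
      _ < 1 / 2 := by linarith
  have hwn : ‖w‖ ≤ 1 := by
    rw [mem_ball, dist_eq_norm] at hw
    calc ‖w‖ = ‖(2 : ℝ) • vc + (w - (2 : ℝ) • vc)‖ := by congr 1; abel
      _ ≤ ‖(2 : ℝ) • vc‖ + ‖w - (2 : ℝ) • vc‖ := norm_add_le _ _
      _ ≤ 1 := by
        rw [norm_smul, Real.norm_of_nonneg (by norm_num : (0 : ℝ) ≤ 2)]
        have := norm_nonneg vc
        linarith
  have hFm := monoF_measurable hf K
  have hNN := monoF_le f K hK (ball (0 : E d) (Y + 1))
  have hmp : MeasurePreserving (fun v : E d => w - v) volume volume :=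
    Measure.measurePreserving_sub_left volume w
  have hpt : ∀ y ∈ ball (0 : E d) Y, ENNReal.ofReal (f y - f (y + w)) * volume Lam ≤
      2 * ((∫⁻ v in Lam, monoF f K (y + 0) v) + (∫⁻ v in Lam, monoF f K (y + v) (w - v)) +
        (∫⁻ v in Lam, monoF f K (y + w) (-v)) +
          ∫⁻ v in Lam, monoF f K (y + (w - v)) (-(w - v))) := by
    intro y hy
    have hyY : y ∈ ball (0 : E d) (Y + 1) := ball_subset_ball (by linarith) hy
    have hywY : y + w ∈ ball (0 : E d) (Y + 1) := by
      rw [mem_ball_zero_iff] at hy ⊢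
      calc ‖y + w‖ ≤ ‖y‖ + ‖w‖ := norm_add_le _ _
        _ < Y + 1 := add_lt_add_of_lt_of_le hy hwn
    have hup := mono_up hf K vc β hLamM hLamfin y w (hU K (Or.inl rfl) y hyY)
      (hU (K + 1) (Or.inr rfl) (y + w) hywY) (hvol ▸ hβ) hsub hwv
    have hdn := mono_down hf K vc β hLamM hLamfin y w (hL K (Or.inl rfl) (y + w) hywY)
      (hL (K + 1) (Or.inr rfl) y hyY) (hvol ▸ hβ) hsub hwv
    have hm1 : Measurable fun v : E d => monoF f K (y + 0) v :=
      monoF_comp hf K measurable_const measurable_id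
    have hm3 : Measurable fun v : E d => monoF f K (y + w) (-v) :=
      monoF_comp hf K measurable_const measurable_neg
    rw [lintegral_add_left hm1] at hup
    rw [lintegral_add_left hm3] at hdn
    calc ENNReal.ofReal (f y - f (y + w)) * volume Lam
        ≤ (ENNReal.ofReal (max (f y) 0 - max (f (y + w)) 0) +
          ENNReal.ofReal (max (-f (y + w)) 0 - max (-f y) 0)) * volume Lam :=
          mul_le_mul_left (mono_split _ _) _
      _ = ENNReal.ofReal (max (f y) 0 - max (f (y + w)) 0) * volume Lam +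
          ENNReal.ofReal (max (-f (y + w)) 0 - max (-f y) 0) * volume Lam := add_mul _ _ _
      _ ≤ _ := add_le_add hup hdn
      _ = _ := by ring
  -- integrate
  have s1 := mono_shift hFm (a := fun _ => 0) (b := fun v => v) measurable_const
    (MeasurePreserving.id volume) hLamM (fun v _ => by simp)
    (fun v hv => by
      rw [mem_ball_zero_iff]; have := hball v (hsub hv); linarith) Y
  have s2 := mono_shift hFm (a := fun v => v) (b := fun v => w - v) measurable_id
    hmp hLamM (fun v hv => by have := hball v (hsub hv); linarith)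
    (fun v hv => by
      rw [mem_ball_zero_iff]; have := hball _ (hwv v hv); linarith) Y
  have s3 := mono_shift hFm (a := fun _ => w) (b := fun v => -v) measurable_const
    (Measure.measurePreserving_neg volume) hLamM (fun v _ => hwn)
    (fun v hv => by
      rw [mem_ball_zero_iff, norm_neg]; have := hball v (hsub hv); linarith) Y
  have s4 := mono_shift hFm (a := fun v => w - v) (b := fun v => -(w - v)) hmp.measurable
    ((Measure.measurePreserving_neg volume).comp hmp) hLamM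
    (fun v hv => by have := hball _ (hwv v hv); linarith)
    (fun v hv => by
      rw [mem_ball_zero_iff, norm_neg]; have := hball _ (hwv v hv); linarith) Y
  have g1 := monoF_lint hf K (a := fun _ => 0) (b := fun v => v) measurable_const measurable_id Lam
  have g2 := monoF_lint hf K (a := fun v => v) (b := fun v => w - v) measurable_id
    hmp.measurable Lam
  have g3 := monoF_lint hf K (a := fun _ => w) (b := fun v => -v) measurable_const
    measurable_neg Lam
  calc (∫⁻ y in ball (0 : E d) Y, ENNReal.ofReal (f y - f (y + w))) *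
        volume (ball (0 : E d) (r / 2))
      = ∫⁻ y in ball (0 : E d) Y, ENNReal.ofReal (f y - f (y + w)) * volume Lam := by
        rw [hvol, lintegral_mul_const' _ _ hLamfin]
    _ ≤ ∫⁻ y in ball (0 : E d) Y, 2 * ((∫⁻ v in Lam, monoF f K (y + 0) v) +
          (∫⁻ v in Lam, monoF f K (y + v) (w - v)) +
          (∫⁻ v in Lam, monoF f K (y + w) (-v)) +
            ∫⁻ v in Lam, monoF f K (y + (w - v)) (-(w - v))) :=
        setLIntegral_mono' measurableSet_ball hpt
    _ = 2 * ((∫⁻ y in ball (0 : E d) Y, ∫⁻ v in Lam, monoF f K (y + 0) v) +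
          (∫⁻ y in ball (0 : E d) Y, ∫⁻ v in Lam, monoF f K (y + v) (w - v)) +
          (∫⁻ y in ball (0 : E d) Y, ∫⁻ v in Lam, monoF f K (y + w) (-v)) +
          ∫⁻ y in ball (0 : E d) Y, ∫⁻ v in Lam, monoF f K (y + (w - v)) (-(w - v))) := by
        have g12 : Measurable fun y => (∫⁻ v in Lam, monoF f K (y + 0) v) +
            ∫⁻ v in Lam, monoF f K (y + v) (w - v) := g1.add g2
        have g123 : Measurable fun y => (∫⁻ v in Lam, monoF f K (y + 0) v) +
            (∫⁻ v in Lam, monoF f K (y + v) (w - v)) +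
            ∫⁻ v in Lam, monoF f K (y + w) (-v) := g12.add g3
        rw [lintegral_const_mul' _ _ (by norm_num), lintegral_add_left g123,
          lintegral_add_left g12, lintegral_add_left g1]
    _ ≤ 2 * (NN f K 1 1 (ball 0 (Y + 1)) + NN f K 1 1 (ball 0 (Y + 1)) +
          NN f K 1 1 (ball 0 (Y + 1)) + NN f K 1 1 (ball 0 (Y + 1))) := by
        refine mul_le_mul_right ?_ 2
        exact add_le_add (add_le_add (add_le_add (s1.trans hNN) (s2.trans hNN)) (s3.trans hNN))
          (s4.trans hNN)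
    _ = 8 * NN f K 1 1 (ball 0 (Y + 1)) := by ring

end

end Vale.Agent.P137F
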