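import Vale.Agent.Lib.P137F.Dist3

/-!
# P137F: chaining (Poincaré type) lemma on the unit ball

Proof. For `‖a‖ < 2ρ'` put `w = w₀ - a/2`, `w' = w₀ + a/2`; then `y + a + w = y + w'` and
`|f (y+a) - f y| ≤ |f ((y+a) + w) - f (y+a)| + |f (y + w') - f y|`, so
`∫_{y, y+a ∈ ball 0 1} |f (y+a) - f y| ≤ 2 A`.
For `y, y'` in the ball put `k = ⌈1/ρ'⌉ + 1`, `a = (y'-y)/k`, and sum over the steps
`y + i a`, `i < k` (convexity of the ball), change variables `(y, y') ↦ (y + i a, a)`
with Jacobian `k ^ d`.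
-/

namespace Vale.Agent.P137F

open MeasureTheory Metric Set ENNReal

noncomputable section

theorem poin_step {d : ℕ} {f : E d → ℝ} (hf : Continuous f) {ρ' : ℝ} (w₀ : E d) (A : ℝ≥0∞)
    (hA : ∀ w ∈ ball w₀ ρ', ∫⁻ y in ball (0 : E d) 1, ENNReal.ofReal |f (y + w) - f y| ≤ A)
    (a : E d) (ha : ‖a‖ < 2 * ρ') :
    ∫⁻ y in {y | y ∈ ball (0 : E d) 1 ∧ y + a ∈ ball (0 : E d) 1},
      ENNReal.ofReal |f (y + a) - f y| ≤ 2 * A := by
  obtain ⟨w, hw⟩ : ∃ w : E d, w = w₀ - (1 / 2 : ℝ) • a := ⟨_, rfl⟩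
  obtain ⟨w', hw'⟩ : ∃ w' : E d, w' = w₀ + (1 / 2 : ℝ) • a := ⟨_, rfl⟩
  have hwb : w ∈ ball w₀ ρ' := by
    rw [mem_ball, dist_eq_norm, hw]
    have : w₀ - (1 / 2 : ℝ) • a - w₀ = -((1 / 2 : ℝ) • a) := by abel
    rw [this, norm_neg, norm_smul, Real.norm_eq_abs, abs_of_pos (by norm_num : (0 : ℝ) < 1 / 2)]
    linarith
  have hwb' : w' ∈ ball w₀ ρ' := by
    rw [mem_ball, dist_eq_norm, hw']
    have : w₀ + (1 / 2 : ℝ) • a - w₀ = (1 / 2 : ℝ) • a := by abel
    rw [this, norm_smul, Real.norm_eq_abs, abs_of_pos (by norm_num : (0 : ℝ) < 1 / 2)]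
    linarith
  have hw2 : ∀ y : E d, (y + a) + w = y + w' := by
    intro y
    rw [hw, hw']
    module
  have hpt : ∀ y : E d, ENNReal.ofReal |f (y + a) - f y| ≤
      ENNReal.ofReal |f (y + w') - f y| + ENNReal.ofReal |f ((y + a) + w) - f (y + a)| := by
    intro y
    rw [hw2, ← ENNReal.ofReal_add (abs_nonneg _) (abs_nonneg _)]
    apply ENNReal.ofReal_le_ofReal
    have h1 : f (y + a) - f y = (f (y + w') - f y) - (f (y + w') - f (y + a)) := by ring
    rw [h1]
    exact abs_sub _ _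
  have hm1 : Measurable (fun y : E d => ENNReal.ofReal |f (y + w') - f y|) := by
    have : Continuous (fun y : E d => |f (y + w') - f y|) := by fun_prop
    exact this.measurable.ennreal_ofReal
  have hm2 : Measurable (fun z : E d => ENNReal.ofReal |f (z + w) - f z|) := by
    have : Continuous (fun y : E d => |f (y + w) - f y|) := by fun_prop
    exact this.measurable.ennreal_ofReal
  calc ∫⁻ y in {y | y ∈ ball (0 : E d) 1 ∧ y + a ∈ ball (0 : E d) 1},
        ENNReal.ofReal |f (y + a) - f y|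
      ≤ ∫⁻ y in {y | y ∈ ball (0 : E d) 1 ∧ y + a ∈ ball (0 : E d) 1},
        (ENNReal.ofReal |f (y + w') - f y| + ENNReal.ofReal |f ((y + a) + w) - f (y + a)|) :=
        lintegral_mono hpt
    _ = (∫⁻ y in {y | y ∈ ball (0 : E d) 1 ∧ y + a ∈ ball (0 : E d) 1},
          ENNReal.ofReal |f (y + w') - f y|) +
        ∫⁻ y in {y | y ∈ ball (0 : E d) 1 ∧ y + a ∈ ball (0 : E d) 1},
          ENNReal.ofReal |f ((y + a) + w) - f (y + a)| := lintegral_add_left hm1 _
    _ ≤ A + A := by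
        refine add_le_add ?_ ?_
        · refine le_trans (lintegral_mono_set ?_) (hA w' hwb')
          intro y hy
          exact hy.1
        · refine le_trans ?_ (hA w hwb)
          have hmp := measurePreserving_add_right (volume : Measure (E d)) a
          have h3 := hmp.setLIntegral_comp_preimage (measurableSet_ball (x := (0 : E d)) (ε := 1))
            hm2
          rw [← h3]
          refine lintegral_mono_set ?_
          intro y hy
          exact hy.2
    _ = 2 * A := by rw [two_mul]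

theorem chain_le {d : ℕ} (f : E d → ℝ) (y a : E d) (k : ℕ) :
    ENNReal.ofReal |f y - f (y + (k : ℝ) • a)| ≤
      ∑ i ∈ Finset.range k, ENNReal.ofReal |f (y + (i : ℝ) • a + a) - f (y + (i : ℝ) • a)| := by
  induction k with
  | zero => simp
  | succ k ih =>
    rw [Finset.sum_range_succ]
    have h1 : y + ((k + 1 : ℕ) : ℝ) • a = y + (k : ℝ) • a + a := by
      push_cast
      module
    rw [h1]
    refine le_trans ?_ (add_le_add ih le_rfl)
    rw [← ENNReal.ofReal_add (abs_nonneg _) (abs_nonneg _)]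
    apply ENNReal.ofReal_le_ofReal
    have h2 : f y - f (y + (k : ℝ) • a + a) = (f y - f (y + (k : ℝ) • a)) -
      (f (y + (k : ℝ) • a + a) - f (y + (k : ℝ) • a)) := by ring
    rw [h2]
    exact abs_sub _ _

theorem lintegral_scale {d : ℕ} (k : ℕ) (hk : 0 < k) (G : E d → ℝ≥0∞) (hG : Measurable G) :
    ∫⁻ z, G z = ENNReal.ofReal ((k : ℝ) ^ d) * ∫⁻ a, G ((k : ℝ) • a) := by
  have hk0 : (k : ℝ) ≠ 0 := by positivity
  have h1 : ∫⁻ a, G ((k : ℝ) • a) = ∫⁻ z, G z ∂(Measure.map (fun a : E d => (k : ℝ) • a) volume) :=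
    (lintegral_map hG (measurable_const_smul _)).symm
  have h2 := Measure.map_addHaar_smul (volume : Measure (E d)) hk0
  rw [h1, h2, lintegral_smul_measure, finrank_euclideanSpace, Fintype.card_fin]
  rw [smul_eq_mul, ← mul_assoc, ← ENNReal.ofReal_mul (by positivity), abs_of_pos (by positivity),
    mul_inv_cancel₀ (by positivity), ENNReal.ofReal_one, one_mul]

/-- the domain of the chaining integral -/
def chT (d k : ℕ) : Set (E d × E d) :=
  {p | p.1 ∈ ball (0 : E d) 1 ∧ p.1 + (k : ℝ) • p.2 ∈ ball (0 : E d) 1}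

theorem measurableSet_chT (d k : ℕ) : MeasurableSet (chT d k) := by
  have h1 : IsOpen {p : E d × E d | p.1 ∈ ball (0 : E d) 1 ∧
      p.1 + (k : ℝ) • p.2 ∈ ball (0 : E d) 1} := by
    apply IsOpen.inter
    · exact isOpen_ball.preimage continuous_fst
    · exact isOpen_ball.preimage (by fun_prop : Continuous
        (fun p : E d × E d => p.1 + (k : ℝ) • p.2))
  exact h1.measurableSet

/-- one term of the chaining integral -/
def chH {d : ℕ} (f : E d → ℝ) (k i : ℕ) (p : E d × E d) : ℝ≥0∞ :=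
  (chT d k).indicator
    (fun p => ENNReal.ofReal |f (p.1 + (i : ℝ) • p.2 + p.2) - f (p.1 + (i : ℝ) • p.2)|) p

theorem measurable_chH {d : ℕ} {f : E d → ℝ} (hf : Continuous f) (k i : ℕ) :
    Measurable (chH f k i) := by
  apply Measurable.indicator _ (measurableSet_chT d k)
  have : Continuous (fun p : E d × E d => |f (p.1 + (i : ℝ) • p.2 + p.2) -
      f (p.1 + (i : ℝ) • p.2)|) := by fun_prop
  exact this.measurable.ennreal_ofReal

theorem chH_of_mem {d : ℕ} (f : E d → ℝ) (k i : ℕ) {y a : E d} (h : (y, a) ∈ chT d k) :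
    chH f k i (y, a) =
      ENNReal.ofReal |f (y + (i : ℝ) • a + a) - f (y + (i : ℝ) • a)| := by
  unfold chH
  rw [indicator_of_mem h]

theorem chH_of_notMem {d : ℕ} (f : E d → ℝ) (k i : ℕ) {y a : E d} (h : (y, a) ∉ chT d k) :
    chH f k i (y, a) = 0 := by
  unfold chH
  rw [indicator_of_notMem h]

theorem poin_step1 {d : ℕ} {f : E d → ℝ} (hf : Continuous f) {k : ℕ} (hk0 : 0 < k)
    {y : E d} (hy : y ∈ ball (0 : E d) 1) :
    ∫⁻ y' in ball (0 : E d) 1, ENNReal.ofReal |f y - f y'| ≤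
      ENNReal.ofReal ((k : ℝ) ^ d) * ∫⁻ a, ∑ i ∈ Finset.range k, chH f k i (y, a) := by
  have hB : MeasurableSet (ball (0 : E d) 1) := measurableSet_ball
  have hmG : Measurable (fun z : E d => (ball (0 : E d) 1).indicator
      (fun y' => ENNReal.ofReal |f y - f y'|) (y + z)) := by
    have h1 : Measurable (fun y' : E d => (ball (0 : E d) 1).indicator
      (fun y' => ENNReal.ofReal |f y - f y'|) y') := by
      apply Measurable.indicator _ hB
      have : Continuous (fun y' : E d => |f y - f y'|) := by fun_prop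
      exact this.measurable.ennreal_ofReal
    exact h1.comp (measurable_const_add y)
  rw [← lintegral_indicator hB,
    ← lintegral_add_left_eq_self _ y, lintegral_scale k hk0 _ hmG]
  refine mul_le_mul_right ?_ _
  refine lintegral_mono ?_
  intro a
  by_cases hya : y + (k : ℝ) • a ∈ ball (0 : E d) 1
  · have hpT : (y, a) ∈ chT d k := ⟨hy, hya⟩
    simp only [indicator_of_mem hya]
    refine le_trans (chain_le f y a k) ?_
    refine Finset.sum_le_sum ?_
    intro i _
    rw [chH_of_mem f k i hpT]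
  · simp only [indicator_of_notMem hya]
    exact zero_le

theorem ball_step_mem {d : ℕ} {k : ℕ} (hk0 : 0 < k) {y a : E d}
    (hyT' : y ∈ ball (0 : E d) 1 ∧ y + (k : ℝ) • a ∈ ball (0 : E d) 1) (j : ℕ) (hj : j ≤ k) :
    y + (j : ℝ) • a ∈ ball (0 : E d) 1 := by
  have hkR : (0 : ℝ) < k := by exact_mod_cast hk0
  have hconv : Convex ℝ (ball (0 : E d) 1) := convex_ball _ _
  have h4 := hconv hyT'.1 hyT'.2 (a := 1 - (j : ℝ) / k) (b := (j : ℝ) / k)
    (by
      rw [sub_nonneg, div_le_one hkR]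
      exact_mod_cast hj) (by positivity) (by ring)
  have h5 : (1 - (j : ℝ) / k) • y + ((j : ℝ) / k) • (y + (k : ℝ) • a) =
      y + (j : ℝ) • a := by
    have : ((j : ℝ) / k) * k = j := by field_simp
    rw [smul_add, smul_smul, this]
    module
  rw [h5] at h4
  exact h4

/-- the set where both `y` and `y + a` lie in the ball -/
theorem measurableSet_two {d : ℕ} (a : E d) :
    MeasurableSet {y : E d | y ∈ ball (0 : E d) 1 ∧ y + a ∈ ball (0 : E d) 1} :=
  (measurableSet_ball (x := (0 : E d)) (ε := 1)).inter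
    ((measurable_add_const a) (measurableSet_ball (x := (0 : E d)) (ε := 1)))

theorem shift_two {d : ℕ} {f : E d → ℝ} (hf : Continuous f) (a b : E d) :
    ∫⁻ y in (fun x : E d => x + b) ⁻¹' {y : E d | y ∈ ball (0 : E d) 1 ∧
        y + a ∈ ball (0 : E d) 1}, ENNReal.ofReal |f (y + b + a) - f (y + b)| =
      ∫⁻ y in {y | y ∈ ball (0 : E d) 1 ∧ y + a ∈ ball (0 : E d) 1},
        ENNReal.ofReal |f (y + a) - f y| := by
  have hmg : Measurable (fun z : E d => ENNReal.ofReal |f (z + a) - f z|) := by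
    have : Continuous (fun y : E d => |f (y + a) - f y|) := by fun_prop
    exact this.measurable.ennreal_ofReal
  have hmp := measurePreserving_add_right (volume : Measure (E d)) b
  exact hmp.setLIntegral_comp_preimage (measurableSet_two a) hmg

theorem poin_step2 {d : ℕ} {f : E d → ℝ} (hf : Continuous f) {k : ℕ} (hk0 : 0 < k)
    (i : ℕ) (hi : i < k) (a : E d) :
    ∫⁻ y in ball (0 : E d) 1, chH f k i (y, a) ≤
      ∫⁻ y in {y | y ∈ ball (0 : E d) 1 ∧ y + a ∈ ball (0 : E d) 1},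
        ENNReal.ofReal |f (y + a) - f y| := by
  have hB : MeasurableSet (ball (0 : E d) 1) := measurableSet_ball
  have hpre : MeasurableSet ((fun x : E d => x + (i : ℝ) • a) ⁻¹' {y : E d | y ∈ ball (0 : E d) 1 ∧
        y + a ∈ ball (0 : E d) 1}) := (measurable_add_const _) (measurableSet_two a)
  rw [← shift_two hf a ((i : ℝ) • a), ← lintegral_indicator hB, ← lintegral_indicator hpre]
  refine lintegral_mono ?_
  intro y
  by_cases hyB : y ∈ ball (0 : E d) 1
  · simp only [indicator_of_mem hyB]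
    by_cases hyT : (y, a) ∈ chT d k
    · rw [chH_of_mem f k i hyT]
      have hyT' : y ∈ ball (0 : E d) 1 ∧ y + (k : ℝ) • a ∈ ball (0 : E d) 1 := hyT
      have hmem : y ∈ (fun x : E d => x + (i : ℝ) • a) ⁻¹'
          {y : E d | y ∈ ball (0 : E d) 1 ∧ y + a ∈ ball (0 : E d) 1} := by
        refine ⟨ball_step_mem hk0 hyT' i hi.le, ?_⟩
        have h6 := ball_step_mem hk0 hyT' (i + 1) hi
        have h7 : y + ((i + 1 : ℕ) : ℝ) • a = y + (i : ℝ) • a + a := by
          push_cast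
          module
        rw [h7] at h6
        exact h6
      rw [indicator_of_mem hmem]
    · rw [chH_of_notMem f k i hyT]
      exact zero_le
  · simp only [indicator_of_notMem hyB]
    exact zero_le

theorem chH_far {d : ℕ} (f : E d → ℝ) {k : ℕ} (hk0 : 0 < k) (i : ℕ) {a : E d}
    (haa : a ∉ ball (0 : E d) (2 / k)) (y : E d) : chH f k i (y, a) = 0 := by
  have hkR : (0 : ℝ) < k := by exact_mod_cast hk0
  apply chH_of_notMem
  intro h
  obtain ⟨h1, h2⟩ := h
  apply haa
  simp only [mem_ball_zero_iff] at h1 h2 ⊢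
  have h3 : (k : ℝ) • a = (y + (k : ℝ) • a) - y := by abel
  have h4 : ‖(k : ℝ) • a‖ < 2 := by
    rw [h3]
    have := norm_sub_le (y + (k : ℝ) • a) y
    linarith
  rw [norm_smul, Real.norm_eq_abs, abs_of_pos hkR] at h4
  rw [lt_div_iff₀ hkR]
  linarith

theorem poin_step3 {d : ℕ} {f : E d → ℝ} (hf : Continuous f) {k : ℕ} (hk0 : 0 < k)
    {ρ' : ℝ} (hkρ2 : 1 / (k : ℝ) < ρ') (w₀ : E d) (A : ℝ≥0∞)
    (hA : ∀ w ∈ ball w₀ ρ', ∫⁻ y in ball (0 : E d) 1, ENNReal.ofReal |f (y + w) - f y| ≤ A)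
    (i : ℕ) (hi : i < k) (a : E d) :
    ∫⁻ y in ball (0 : E d) 1, chH f k i (y, a) ≤
      (ball (0 : E d) (2 / k)).indicator (fun _ => 2 * A) a := by
  by_cases haa : a ∈ ball (0 : E d) (2 / k)
  · rw [indicator_of_mem haa]
    have han : ‖a‖ < 2 * ρ' := by
      rw [mem_ball_zero_iff] at haa
      have : 2 / (k : ℝ) = 2 * (1 / k) := by ring
      rw [this] at haa
      linarith
    exact le_trans (poin_step2 hf hk0 i hi a) (poin_step hf w₀ A hA a han)
  · rw [indicator_of_notMem haa]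
    simp only [chH_far f hk0 i haa]
    simp

theorem poin (d : ℕ) (ρ' : ℝ) (hρ : 0 < ρ') : ∃ C : ℝ, 0 < C ∧
    ∀ (f : E d → ℝ), Continuous f → ∀ (w₀ : E d) (A : ℝ≥0∞),
      (∀ w ∈ ball w₀ ρ', ∫⁻ y in ball (0 : E d) 1, ENNReal.ofReal |f (y + w) - f y| ≤ A) →
      ∫⁻ y in ball (0 : E d) 1, ∫⁻ y' in ball (0 : E d) 1, ENNReal.ofReal |f y - f y'| ≤
        ENNReal.ofReal C * A := by
  obtain ⟨k, hk⟩ : ∃ k : ℕ, k = ⌈1 / ρ'⌉₊ + 1 := ⟨_, rfl⟩
  have hk0 : 0 < k := by omega
  have hkR : (0 : ℝ) < k := by exact_mod_cast hk0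
  have hkρ : 1 / ρ' < k := by
    have := Nat.le_ceil (1 / ρ')
    rw [hk]
    push_cast
    linarith
  have hkρ2 : 1 / (k : ℝ) < ρ' := by
    rw [div_lt_iff₀ hρ] at hkρ
    rw [div_lt_iff₀ hkR]
    linarith
  obtain ⟨V, hV⟩ : ∃ V : ℝ≥0∞, V = volume (ball (0 : E d) (2 / k)) := ⟨_, rfl⟩
  have hVt : V ≠ ⊤ := by
    rw [hV]
    exact measure_ball_lt_top.ne
  obtain ⟨C₀, hC₀⟩ : ∃ C₀ : ℝ≥0∞, C₀ = ENNReal.ofReal ((k : ℝ) ^ d) * (k * (2 * V)) := ⟨_, rfl⟩
  have hC₀t : C₀ ≠ ⊤ := by
    rw [hC₀]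
    exact ENNReal.mul_ne_top ENNReal.ofReal_ne_top
      (ENNReal.mul_ne_top (ENNReal.natCast_ne_top k) (ENNReal.mul_ne_top (by norm_num) hVt))
  refine ⟨C₀.toReal + 1, by positivity, ?_⟩
  intro f hf w₀ A hA
  have hB : MeasurableSet (ball (0 : E d) 1) := measurableSet_ball
  have hHm : ∀ i, Measurable (chH f k i) := fun i => measurable_chH hf k i
  have hswap : ∀ i, ∫⁻ y in ball (0 : E d) 1, ∫⁻ a, chH f k i (y, a) =
      ∫⁻ a, ∫⁻ y in ball (0 : E d) 1, chH f k i (y, a) := by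
    intro i
    apply lintegral_lintegral_swap
    exact (hHm i).aemeasurable
  calc ∫⁻ y in ball (0 : E d) 1, ∫⁻ y' in ball (0 : E d) 1, ENNReal.ofReal |f y - f y'|
      ≤ ∫⁻ y in ball (0 : E d) 1,
          ENNReal.ofReal ((k : ℝ) ^ d) * ∫⁻ a, ∑ i ∈ Finset.range k, chH f k i (y, a) := by
        apply lintegral_mono_ae
        rw [ae_restrict_iff' hB]
        exact Filter.Eventually.of_forall (fun y hy => poin_step1 hf hk0 hy)
    _ = ENNReal.ofReal ((k : ℝ) ^ d) * ∑ i ∈ Finset.range k,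
          ∫⁻ y in ball (0 : E d) 1, ∫⁻ a, chH f k i (y, a) := by
        have h1 : ∀ y : E d, ∫⁻ a, ∑ i ∈ Finset.range k, chH f k i (y, a) =
            ∑ i ∈ Finset.range k, ∫⁻ a, chH f k i (y, a) := by
          intro y
          rw [lintegral_finsetSum]
          intro i _
          exact (hHm i).comp measurable_prodMk_left
        simp only [h1]
        rw [lintegral_const_mul]
        · rw [lintegral_finsetSum]
          intro i _
          exact (hHm i).lintegral_prod_right'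
        · apply Finset.measurable_fun_sum
          intro i _
          exact (hHm i).lintegral_prod_right'
    _ ≤ ENNReal.ofReal ((k : ℝ) ^ d) * ∑ i ∈ Finset.range k, (2 * V) * A := by
        refine mul_le_mul_right ?_ _
        refine Finset.sum_le_sum ?_
        intro i hi
        rw [hswap i]
        refine le_trans (lintegral_mono (poin_step3 hf hk0 hkρ2 w₀ A hA i
          (Finset.mem_range.mp hi))) ?_
        rw [lintegral_indicator measurableSet_ball, setLIntegral_const, ← hV]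
        rw [mul_assoc, mul_comm A V, mul_assoc]
    _ = C₀ * A := by
        rw [Finset.sum_const, Finset.card_range, nsmul_eq_mul, hC₀]
        ring
    _ ≤ ENNReal.ofReal (C₀.toReal + 1) * A := by
        refine mul_le_mul_left ?_ _
        rw [← ENNReal.ofReal_toReal hC₀t]
        apply ENNReal.ofReal_le_ofReal
        rw [ENNReal.toReal_ofReal ENNReal.toReal_nonneg]
        linarith

/-- consequence: if moreover the mean of `f` on the unit ball is zero then `∫ |f|` is bounded. -/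
theorem poin_mean (d : ℕ) (hd : 0 < d) (ρ' : ℝ) (hρ : 0 < ρ') : ∃ C : ℝ, 0 < C ∧
    ∀ (f : E d → ℝ), Continuous f → (∫ y in ball (0 : E d) 1, f y) = 0 →
      ∀ (w₀ : E d) (A : ℝ≥0∞),
      (∀ w ∈ ball w₀ ρ', ∫⁻ y in ball (0 : E d) 1, ENNReal.ofReal |f (y + w) - f y| ≤ A) →
      ∫⁻ y in ball (0 : E d) 1, ENNReal.ofReal |f y| ≤ ENNReal.ofReal C * A := by
  obtain ⟨C, hC, h⟩ := poin d ρ' hρ
  obtain ⟨κ, hκ⟩ : ∃ κ : ℝ, κ = volume.real (ball (0 : E d) 1) := ⟨_, rfl⟩
  have hκ0 : 0 < κ := by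
    rw [hκ]
    exact ENNReal.toReal_pos (measure_ball_pos volume (0 : E d) one_pos).ne' measure_ball_lt_top.ne
  refine ⟨C / κ, by positivity, ?_⟩
  intro f hf hmean w₀ A hA
  have h1 := h f hf w₀ A hA
  have hint : IntegrableOn f (ball (0 : E d) 1) :=
    (hf.continuousOn.integrableOn_compact (isCompact_closedBall (0 : E d) 1)).mono_set
      ball_subset_closedBall
  have hpt : ∀ y : E d, ENNReal.ofReal κ * ENNReal.ofReal |f y| ≤
      ∫⁻ y' in ball (0 : E d) 1, ENNReal.ofReal |f y - f y'| := by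
    intro y
    have h2 : IntegrableOn (fun y' => f y - f y') (ball (0 : E d) 1) := by
      apply Integrable.sub _ hint
      exact integrableOn_const measure_ball_lt_top.ne
    have h3 : ∫ y' in ball (0 : E d) 1, (f y - f y') = κ * f y := by
      rw [integral_sub _ hint, hmean, sub_zero, setIntegral_const, smul_eq_mul, hκ]
      exact integrableOn_const measure_ball_lt_top.ne
    rw [← ofReal_integral_eq_lintegral_ofReal h2.abs
      (Filter.Eventually.of_forall (fun _ => abs_nonneg _)), ← ENNReal.ofReal_mul hκ0.le]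
    apply ENNReal.ofReal_le_ofReal
    have h4 : κ * |f y| = |∫ y' in ball (0 : E d) 1, (f y - f y')| := by
      rw [h3, abs_mul, abs_of_pos hκ0]
    rw [h4]
    exact abs_integral_le_integral_abs
  have h5 : ENNReal.ofReal κ * ∫⁻ y in ball (0 : E d) 1, ENNReal.ofReal |f y| ≤
      ENNReal.ofReal C * A := by
    rw [← lintegral_const_mul' _ _ ENNReal.ofReal_ne_top]
    exact le_trans (lintegral_mono hpt) h1
  have h6 : ENNReal.ofReal (C / κ) * A = (ENNReal.ofReal κ)⁻¹ * (ENNReal.ofReal C * A) := by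
    rw [ENNReal.ofReal_div_of_pos hκ0, div_eq_mul_inv]
    ring
  rw [h6]
  have hκ1 : ENNReal.ofReal κ ≠ 0 := by
    rw [Ne, ENNReal.ofReal_eq_zero, not_le]
    exact hκ0
  calc ∫⁻ y in ball (0 : E d) 1, ENNReal.ofReal |f y|
      = (ENNReal.ofReal κ)⁻¹ * (ENNReal.ofReal κ *
          ∫⁻ y in ball (0 : E d) 1, ENNReal.ofReal |f y|) := by
        rw [← mul_assoc, ENNReal.inv_mul_cancel hκ1 ENNReal.ofReal_ne_top, one_mul]
    _ ≤ _ := mul_le_mul_right h5 _

end

end Vale.Agent.P137F
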