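import Vale.Agent.Lib.P137F.Struct
import Vale.Agent.Lib.P137F.Mono
import Vale.Agent.Lib.P137F.Poin

/-!
# P137F: case I of the local lemma

`K = 20000 R`, `v_c = h₀ / K`, `r = 5 / K`, `Y = 1`.  For `y ∈ ball 0 2`, `k ∈ {K, K+1}` and
`v ∈ ball v_c r` the far point `y - k v` lies in `ball (-h₀) 10`, `y + k v ∈ ball h₀ 10`, so the
exceptional sets in `mono` have measure `≤ β = K^{-d} κ/16`, `4 β ≤ (5/(2K))^d κ`.
For `w ∈ ball (2 v_c) (r/2)` one has `‖w + ν‖ ≤ 1`, hence `∫_{ball w 1} f ≤ 0 = ∫_{ball 0 1} f` and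
`∫_B |f (y+w) - f y| = ∫_B (f (y+w) - f y) + 2 ∫_B (f y - f (y+w))₊ ≤ 2 ∫_B (f y - f (y+w))₊`.
Then `poin_mean`.
-/

namespace Vale.Agent.P137F

open MeasureTheory Metric Set ENNReal

noncomputable section

/-- `‖w + ν‖ ≤ 1` for the vectors used in case I. -/
theorem caseI_norm {d : ℕ} (R : ℕ) (hR : 12 ≤ R) (ν h₀ w : E d) (hν : ‖ν‖ = 1)
    (h1 : (R : ℝ) ≤ ‖h₀‖) (h2 : ‖h₀‖ ≤ 20 * R) (h3 : inner ℝ h₀ ν ≤ -(‖h₀‖ / 2))
    (hw : w ∈ ball ((2 : ℝ) • ((1 / (20000 * R : ℝ)) • h₀)) (5 / (20000 * R) / 2)) :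
    ‖w + ν‖ ≤ 1 := by
  have hR' : (12 : ℝ) ≤ R := by exact_mod_cast hR
  have hRpos : (0 : ℝ) < R := by linarith
  set a : ℝ := 1 / (20000 * R) with ha
  have hapos : 0 < a := by positivity
  have haR : a * R = 1 / 20000 := by rw [ha]; field_simp
  set e : E d := w - (2 : ℝ) • (a • h₀) with he
  have hwe : w = (2 : ℝ) • (a • h₀) + e := by rw [he]; abel
  have hen : ‖e‖ < 5 / 2 * a := by
    rw [mem_ball, dist_eq_norm] at hw
    have e1 : 5 / (20000 * (R : ℝ)) / 2 = 5 / 2 * a := by rw [ha]; ring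
    rwa [e1] at hw
  set s : ℝ := 2 * (a * ‖h₀‖) with hs
  have hs1 : 1 / 10000 ≤ s := by
    have : a * R ≤ a * ‖h₀‖ := mul_le_mul_of_nonneg_left h1 hapos.le
    rw [hs]; linarith
  have hs2 : s ≤ 1 / 500 := by
    have : a * ‖h₀‖ ≤ a * (20 * R) := mul_le_mul_of_nonneg_left h2 hapos.le
    have e2 : a * (20 * R) = 20 * (a * R) := by ring
    rw [hs]; linarith
  have ha12 : a ≤ 1 / 240000 := by
    have : a * 12 ≤ a * R := mul_le_mul_of_nonneg_left hR' hapos.le
    linarith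
  have hes : ‖e‖ ≤ 11 / 100 * s := by linarith
  have hn1 : ‖(2 : ℝ) • (a • h₀)‖ = s := by
    rw [norm_smul, norm_smul, Real.norm_ofNat, Real.norm_of_nonneg hapos.le]
  have hwn : ‖w‖ ≤ 111 / 100 * s := by
    rw [hwe]
    refine (norm_add_le _ _).trans ?_
    rw [hn1]
    linarith
  have hin : inner ℝ w ν ≤ -(39 / 100) * s := by
    rw [hwe, inner_add_left, inner_smul_left, inner_smul_left]
    simp only [conj_trivial]
    have b1 : inner ℝ e ν ≤ ‖e‖ * ‖ν‖ := real_inner_le_norm e ν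
    rw [hν, mul_one] at b1
    have b2 : a * inner ℝ h₀ ν ≤ a * -(‖h₀‖ / 2) := mul_le_mul_of_nonneg_left h3 hapos.le
    have b3 : 2 * (a * -(‖h₀‖ / 2)) = -(s / 2) := by rw [hs]; ring
    linarith
  have hsq : ‖w + ν‖ ^ 2 ≤ 1 := by
    rw [norm_add_sq_real, hν]
    have b1 : ‖w‖ ^ 2 ≤ (111 / 100 * s) ^ 2 := by
      apply pow_le_pow_left₀ (norm_nonneg _) hwn
    have b2 : (111 / 100 * s) ^ 2 ≤ 1 / 100 * s := by nlinarith
    nlinarith
  nlinarith [norm_nonneg (w + ν)]

theorem caseI_vol {d : ℕ} {c : ℝ} (hc : c ≠ 0) (y : E d) (S : Set (E d)) :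
    volume ((fun v : E d => y + c • v) ⁻¹' S) = ENNReal.ofReal |(c ^ d)⁻¹| * volume S := by
  have h1 : (fun v : E d => y + c • v) ⁻¹' S
      = (fun v : E d => c • v) ⁻¹' ((fun z : E d => y + z) ⁻¹' S) := rfl
  rw [h1, Measure.addHaar_preimage_smul volume hc, measure_preimage_add, finrank_euclideanSpace_fin]

theorem caseI_exc {d : ℕ} {K : ℕ} (hK : 0 < K) {k : ℕ} (hk : K ≤ k) {c : ℝ} (hc : |c| = k)
    (y x : E d) {vc : E d} {r : ℝ} (hin : ∀ v ∈ ball vc r, y + c • v ∈ ball x 10)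
    (P : E d → Prop) {m : ℝ}
    (hP : volume {z | z ∈ ball x 10 ∧ P z} ≤ ENNReal.ofReal m) :
    volume {v | v ∈ ball vc r ∧ P (y + c • v)} ≤ ENNReal.ofReal (((K : ℝ) ^ d)⁻¹ * m) := by
  have hK' : (0 : ℝ) < K := by exact_mod_cast hK
  have hk' : (K : ℝ) ≤ k := by exact_mod_cast hk
  have hc0 : c ≠ 0 := by
    rintro rfl
    rw [abs_zero] at hc
    linarith
  have hsub : {v | v ∈ ball vc r ∧ P (y + c • v)}
      ⊆ (fun v : E d => y + c • v) ⁻¹' {z | z ∈ ball x 10 ∧ P z} := by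
    rintro v ⟨hv1, hv2⟩
    exact ⟨hin v hv1, hv2⟩
  have habs : |(c ^ d)⁻¹| ≤ ((K : ℝ) ^ d)⁻¹ := by
    rw [abs_inv, abs_pow, hc]
    exact inv_anti₀ (by positivity) (pow_le_pow_left₀ hK'.le hk' d)
  calc volume {v | v ∈ ball vc r ∧ P (y + c • v)}
      ≤ volume ((fun v : E d => y + c • v) ⁻¹' {z | z ∈ ball x 10 ∧ P z}) := measure_mono hsub
    _ = ENNReal.ofReal |(c ^ d)⁻¹| * volume {z | z ∈ ball x 10 ∧ P z} := caseI_vol hc0 y _
    _ ≤ ENNReal.ofReal (((K : ℝ) ^ d)⁻¹) * ENNReal.ofReal m :=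
        mul_le_mul' (ENNReal.ofReal_le_ofReal habs) hP
    _ = _ := by rw [ENNReal.ofReal_mul (by positivity)]

theorem caseI_shift {d : ℕ} (f : E d → ℝ) (w : E d) :
    ∫ y in ball (0 : E d) 1, f (y + w) = ∫ z in ball w 1, f z := by
  have h1 := (measurePreserving_add_right volume w).setIntegral_preimage_emb
    (measurableEmbedding_addRight w) f (ball w 1)
  have h2 : (fun y : E d => y + w) ⁻¹' ball w 1 = ball (0 : E d) 1 := by
    ext y
    simp [mem_ball, dist_eq_norm]
  rw [← h1, h2]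

theorem caseI_two (x : ℝ) : (2 : ℝ≥0∞) * ENNReal.ofReal x = ENNReal.ofReal (2 * x) := by
  rw [ENNReal.ofReal_mul (by norm_num)]
  simp

/-- `∫ |t| ≤ 2 ∫ (-t)₊` if `∫ t ≤ 0`. -/
theorem caseI_abs {d : ℕ} {t : E d → ℝ} (ht : Continuous t)
    (h0 : ∫ y in ball (0 : E d) 1, t y ≤ 0) :
    ∫⁻ y in ball (0 : E d) 1, ENNReal.ofReal |t y| ≤
      2 * ∫⁻ y in ball (0 : E d) 1, ENNReal.ofReal (-(t y)) := by
  have hint : ∀ g : E d → ℝ, Continuous g → IntegrableOn g (ball (0 : E d) 1) := by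
    intro g hg
    exact (hg.continuousOn.integrableOn_compact (isCompact_closedBall (0 : E d) 1)).mono_set
      ball_subset_closedBall
  have hi1 := hint t ht
  have hi2 := hint (fun y => |t y|) ht.abs
  have hi3 := hint (fun y => max (-(t y)) 0) (ht.neg.max continuous_const)
  have e1 : ∫⁻ y in ball (0 : E d) 1, ENNReal.ofReal |t y|
      = ENNReal.ofReal (∫ y in ball (0 : E d) 1, |t y|) :=
    (ofReal_integral_eq_lintegral_ofReal hi2 (Filter.Eventually.of_forall fun y => abs_nonneg _)).symm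
  have e2 : ∫⁻ y in ball (0 : E d) 1, ENNReal.ofReal (-(t y))
      = ENNReal.ofReal (∫ y in ball (0 : E d) 1, max (-(t y)) 0) := by
    rw [ofReal_integral_eq_lintegral_ofReal hi3
      (Filter.Eventually.of_forall fun y => le_max_right _ _)]
    refine lintegral_congr fun y => ?_
    rcases le_total (-(t y)) 0 with h | h
    · rw [max_eq_right h, ENNReal.ofReal_zero, ENNReal.ofReal_of_nonpos h]
    · rw [max_eq_left h]
  have e3 : ∫ y in ball (0 : E d) 1, |t y|
      = (∫ y in ball (0 : E d) 1, t y) + 2 * ∫ y in ball (0 : E d) 1, max (-(t y)) 0 := by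
    rw [← integral_const_mul, ← integral_add hi1 (hi3.const_mul 2)]
    refine integral_congr_ae (Filter.Eventually.of_forall fun y => ?_)
    show |t y| = t y + 2 * max (-(t y)) 0
    rcases le_total (t y) 0 with h | h
    · rw [abs_of_nonpos h, max_eq_left (by linarith)]
      ring
    · rw [abs_of_nonneg h, max_eq_right (by linarith)]
      ring
  rw [e1, e2, caseI_two]
  apply ENNReal.ofReal_le_ofReal
  linarith

theorem caseI (d : ℕ) (hd : 0 < d) (R : ℕ) (hR : 12 ≤ R) : ∃ C : ℝ, 0 < C ∧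
    ∀ (f : E d → ℝ) (ν : E d), Continuous f → ‖ν‖ = 1 →
      (∫ y in ball (0 : E d) 1, f y) = 0 →
      (∀ v : E d, ‖v + ν‖ ≤ 1 → ∫ y in ball v 1, f y ≤ 0) →
      (∃ h₀, CaseIcond f R ν h₀) →
      ∫⁻ y in ball (0 : E d) 1, ENNReal.ofReal |f y| ≤
        ENNReal.ofReal C * NN f (20000 * R) 1 1 (ball 0 2) := by
  have hR' : (12 : ℝ) ≤ R := by exact_mod_cast hR
  have hRpos : (0 : ℝ) < R := by linarith
  set r : ℝ := 5 / (20000 * R) with hr
  have hrpos : 0 < r := by positivity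
  have hrR : r * (20000 * R) = 5 := by rw [hr]; field_simp
  have hr12 : r ≤ 1 / 48000 := by
    have : r * (20000 * 12) ≤ r * (20000 * R) := by
      apply mul_le_mul_of_nonneg_left _ hrpos.le
      linarith
    linarith
  have hkap : 0 < kap d := by
    unfold kap
    exact ENNReal.toReal_pos (measure_ball_pos _ _ one_pos).ne' measure_ball_lt_top.ne
  have hvol1 : volume (ball (0 : E d) 1) = ENNReal.ofReal (kap d) := by
    unfold kap
    rw [measureReal_def, ENNReal.ofReal_toReal measure_ball_lt_top.ne]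
  have hvolr : volume (ball (0 : E d) (r / 2)) = ENNReal.ofReal ((r / 2) ^ d * kap d) := by
    rw [Measure.addHaar_ball_of_pos volume _ (by positivity), finrank_euclideanSpace_fin, hvol1,
      ENNReal.ofReal_mul (by positivity)]
  obtain ⟨C₀, hC₀, hpoin⟩ := poin_mean d hd (r / 2) (by positivity)
  set q : ℝ := (r / 2) ^ d * kap d with hq
  have hqpos : 0 < q := by positivity
  refine ⟨C₀ * (16 / q), by positivity, ?_⟩
  rintro f ν hf hν hmean hneg ⟨h₀, h1, h2, h3, h4, h5⟩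
  set K : ℕ := 20000 * R with hK
  have hKpos : 0 < K := by omega
  have hKR : (K : ℝ) = 20000 * R := by rw [hK]; push_cast; ring
  have hKpos' : (0 : ℝ) < K := by rw [hKR]; positivity
  set a : ℝ := 1 / (20000 * R) with ha
  have hapos : 0 < a := by positivity
  have haK : a * K = 1 := by rw [ha, hKR]; field_simp
  have har : r = 5 * a := by rw [hr, ha]; ring
  set vc : E d := a • h₀ with hvc
  have hKvc : (K : ℝ) • vc = h₀ := by rw [hvc, smul_smul, mul_comm, haK, one_smul]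
  have hvcn : ‖vc‖ ≤ 1 / 1000 := by
    rw [hvc, norm_smul, Real.norm_of_nonneg hapos.le]
    have b1 : a * ‖h₀‖ ≤ a * (20 * R) := mul_le_mul_of_nonneg_left h2 hapos.le
    have b2 : a * (20 * R) = (a * K) / 1000 := by rw [hKR]; ring
    rw [b2, haK] at b1
    exact b1
  -- far points
  have hfar : ∀ k : ℕ, k = K ∨ k = K + 1 → ∀ y ∈ ball (0 : E d) (1 + 1), ∀ v ∈ ball vc r,
      ‖y‖ + ‖(k : ℝ) • v - h₀‖ < 10 := by
    intro k hk y hy v hv
    rw [mem_ball_zero_iff] at hy
    rw [mem_ball, dist_eq_norm] at hv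
    have hkR : (k : ℝ) ≤ K + 1 := by
      rcases hk with rfl | rfl
      · linarith
      · push_cast; linarith
    have hk0 : (0 : ℝ) ≤ k := by positivity
    have b1 : ‖(k : ℝ) • v - h₀‖ ≤ ‖(k : ℝ) • (v - vc)‖ + ‖((k : ℝ) - K) • vc‖ := by
      have e1 : (k : ℝ) • v - h₀ = (k : ℝ) • (v - vc) + ((k : ℝ) - K) • vc := by
        rw [smul_sub, sub_smul, hKvc]; abel
      rw [e1]
      exact norm_add_le _ _
    have b2 : ‖(k : ℝ) • (v - vc)‖ ≤ (K + 1) * r := by
      rw [norm_smul, Real.norm_of_nonneg hk0]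
      exact mul_le_mul hkR hv.le (norm_nonneg _) (by positivity)
    have b3 : ‖((k : ℝ) - K) • vc‖ ≤ 1 * (1 / 1000) := by
      rw [norm_smul]
      refine mul_le_mul ?_ hvcn (norm_nonneg _) (by norm_num)
      rcases hk with rfl | rfl
      · simp
      · simp
    have b4 : ((K : ℝ) + 1) * r = 5 + r := by
      rw [add_mul, one_mul, mul_comm, hKR, hrR]
    linarith
  have hmono := mono hf K (by omega) vc hrpos (by linarith) (one_pos : (0 : ℝ) < 1)
    (ENNReal.ofReal (((K : ℝ) ^ d)⁻¹ * (kap d / 16))) ?_ ?_ ?_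
  · -- apply the Poincare lemma
    have hA : ∀ w ∈ ball ((2 : ℝ) • vc) (r / 2),
        ∫⁻ y in ball (0 : E d) 1, ENNReal.ofReal |f (y + w) - f y| ≤
          ENNReal.ofReal (16 / q) * NN f K 1 1 (ball 0 2) := by
      intro w hw
      have hwν : ‖w + ν‖ ≤ 1 := caseI_norm R hR ν h₀ w hν h1 h2 h3 hw
      have hwneg := hneg w hwν
      have hint : ∀ g : E d → ℝ, Continuous g → IntegrableOn g (ball (0 : E d) 1) := by
        intro g hg
        exact (hg.continuousOn.integrableOn_compact (isCompact_closedBall (0 : E d) 1)).mono_set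
          ball_subset_closedBall
      have hfw : Continuous fun y => f (y + w) := hf.comp (continuous_id.add continuous_const)
      have h0 : ∫ y in ball (0 : E d) 1, (f (y + w) - f y) ≤ 0 := by
        rw [integral_sub (hint _ hfw) (hint _ hf), caseI_shift, hmean, sub_zero]
        exact hwneg
      have hab := caseI_abs (t := fun y => f (y + w) - f y) (hfw.sub hf) h0
      have e1 : ∀ y, -(f (y + w) - f y) = f y - f (y + w) := fun y => by ring
      simp only [e1] at hab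
      have hm := hmono w hw
      rw [hvolr] at hm
      have e2 : (1 : ℝ) + 1 = 2 := by norm_num
      rw [e2] at hm
      have hq0 : ENNReal.ofReal q ≠ 0 := by
        rw [Ne, ENNReal.ofReal_eq_zero, not_le]
        exact hqpos
      have hm2 : ∫⁻ y in ball (0 : E d) 1, ENNReal.ofReal (f y - f (y + w))
          ≤ ENNReal.ofReal (8 / q) * NN f K 1 1 (ball 0 2) := by
        have e3 : ENNReal.ofReal (8 / q) = 8 / ENNReal.ofReal q := by
          rw [ENNReal.ofReal_div_of_pos hqpos]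
          simp
        rw [e3, div_eq_mul_inv, mul_right_comm, ← div_eq_mul_inv,
          ENNReal.le_div_iff_mul_le (Or.inl hq0) (Or.inl ENNReal.ofReal_ne_top)]
        exact hm
      refine hab.trans ?_
      calc 2 * ∫⁻ y in ball (0 : E d) 1, ENNReal.ofReal (f y - f (y + w))
          ≤ 2 * (ENNReal.ofReal (8 / q) * NN f K 1 1 (ball 0 2)) := mul_le_mul_right hm2 2
        _ = ENNReal.ofReal (16 / q) * NN f K 1 1 (ball 0 2) := by
            rw [← mul_assoc, caseI_two]
            congr 2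
            ring
    refine (hpoin f hf hmean _ _ hA).trans (le_of_eq ?_)
    rw [← mul_assoc, ← ENNReal.ofReal_mul hC₀.le]
  · intro k hk y hy
    have hkK : K ≤ k := by rcases hk with rfl | rfl <;> omega
    have h6 := caseI_exc (d := d) hKpos hkK (c := -(k : ℝ)) (by rw [abs_neg, abs_of_nonneg]; positivity)
      y (-h₀) (vc := vc) (r := r) (by
        intro v hv
        rw [mem_ball, dist_eq_norm]
        have e1 : y + -(k : ℝ) • v - -h₀ = y - ((k : ℝ) • v - h₀) := by
          rw [neg_smul]; abel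
        rw [e1]
        exact (norm_sub_le _ _).trans_lt (hfar k hk y hy v hv)) (fun z => 0 < f z)
      h5
    have e2 : ∀ v : E d, y - (k : ℝ) • v = y + -(k : ℝ) • v := fun v => by
      rw [neg_smul, sub_eq_add_neg]
    simp only [e2]
    exact h6
  · intro k hk y hy
    have hkK : K ≤ k := by rcases hk with rfl | rfl <;> omega
    exact caseI_exc (d := d) hKpos hkK (c := (k : ℝ)) (by rw [abs_of_nonneg]; positivity)
      y h₀ (vc := vc) (r := r) (by
        intro v hv
        rw [mem_ball, dist_eq_norm]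
        have e1 : y + (k : ℝ) • v - h₀ = y + ((k : ℝ) • v - h₀) := by abel
        rw [e1]
        exact (norm_add_le _ _).trans_lt (hfar k hk y hy v hv)) (fun z => f z ≤ 0)
      h4
  · rw [hvolr]
    have e4 : (4 : ℝ≥0∞) = ENNReal.ofReal 4 := by simp
    rw [e4, ← ENNReal.ofReal_mul (by norm_num)]
    apply ENNReal.ofReal_le_ofReal
    have b1 : ((K : ℝ) ^ d)⁻¹ ≤ (r / 2) ^ d := by
      rw [← inv_pow]
      apply pow_le_pow_left₀ (by positivity)
      have : (K : ℝ)⁻¹ = a := by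
        rw [inv_eq_one_div, hKR]
      rw [this, har]
      linarith
    have b2 : ((K : ℝ) ^ d)⁻¹ * (kap d / 16) ≤ (r / 2) ^ d * (kap d / 16) :=
      mul_le_mul_of_nonneg_right b1 (by positivity)
    rw [hq]
    nlinarith [hqpos]

end

end Vale.Agent.P137F
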