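import Vale.Agent.Lib.P137F.Struct
import Vale.Agent.Lib.P137F.Mono
import Vale.Agent.Lib.P137F.Poin

/-!
# P137F: case II of the local lemma

`K = 20000 R`, `v_c = (1/2000) ν` (so `K v_c = 10 R ν`), `r = 1/80000` (so `K r = R/4`),
`Y + 1 = (5/2) R`.  For `y ∈ ball 0 (5R/2)`, `v ∈ ball v_c r`, `k ∈ {K, K+1}` the point `y - k v`
is in `farM R ν` and `y + k v` in `farP R ν`; the exceptional sets of `mono` have measure
`≤ β = K^{-d} κ (20R)^d / (4·17000^d) = κ / (4 (17·10^6)^d)` and `4 β ≤ κ / 160000^d = |ball 0 (r/2)|`.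

`caseII_mono`: for `w ∈ W = ball (2 v_c) (r/2) = ball (ν/1000) (1/160000)`
  `∫_{ball 0 Y} (f y - f (y+w))₊ ≤ E₀ := 8 NN / |ball 0 (1/160000)|`.

`caseII`: if `∫_B |f| > C NN` then by `poin_mean` (contrapositive, `w₀ = ν/1000`, `ρ' = 1/160000`)
there is `w* ∈ W` with `∫_B |f (y+w*) - f y| > (2 + 1500 R) E₀`, so
`∫_{ball w* 1} f - ∫_{ball 0 1} f > 1500 R E₀`.
For `θ ∈ ball ν (1/1000)` and `s ∈ [1/4, 3R/2]` let `τ = 1/1000`, `m = ⌊s/τ⌋ - 1`, `w = (s θ - w*)/m`;
then `w ∈ W` and `m ≤ 1500 R`, and moving `m` times by `w` costs at most `E₀` each time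
(all balls `ball (w* + i w) 1 ⊆ ball 0 Y`), so `∫_{ball (s θ) 1} f > 0`.
For `s < 1/4`, `‖-ν + s θ‖ ≤ 1` and `z = 0` works.
Finally `{θ ∈ ball ν (1/1000) : f (-ν + (3R/2) θ) ≤ 0}` has measure
`≤ (3R/2)^{-d} |{f ≤ 0} ∩ farP R ν| ≤ (14/17000)^d κ / 4 ≤ κ 1000^{-d} / 2`.
-/

namespace Vale.Agent.P137F

open MeasureTheory Metric Set ENNReal

noncomputable section

/-- scaling of volumes under `v ↦ y + k v` -/
theorem caseII_vol_pre {d : ℕ} (S : Set (E d)) (y : E d) (k : ℝ) (hk : k ≠ 0) :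
    volume {v : E d | y + k • v ∈ S} = ENNReal.ofReal |(k ^ d)⁻¹| * volume S := by
  have h1 : {v : E d | y + k • v ∈ S} =
      (fun v : E d => k • v) ⁻¹' ((fun z => y + z) ⁻¹' S) := rfl
  rw [h1]
  have h2 := Measure.addHaar_preimage_smul (volume : Measure (E d)) hk ((fun z => y + z) ⁻¹' S)
  rw [finrank_euclideanSpace_fin] at h2
  rw [h2, measure_preimage_add]

theorem caseII_kap_pos (d : ℕ) : 0 < kap d := by
  unfold kap
  rw [Measure.real]
  exact ENNReal.toReal_pos (measure_ball_pos volume _ one_pos).ne' measure_ball_lt_top.ne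

theorem caseII_vol_ball {d : ℕ} (x : E d) {r : ℝ} (hr : 0 < r) :
    volume (ball x r) = ENNReal.ofReal (kap d * r ^ d) := by
  rw [Measure.addHaar_ball_of_pos volume x hr, finrank_euclideanSpace_fin, mul_comm,
    ENNReal.ofReal_mul (caseII_kap_pos d).le]
  congr 1
  unfold kap
  rw [Measure.real, ENNReal.ofReal_toReal measure_ball_lt_top.ne]

theorem caseII_memM {d : ℕ} {R : ℕ} {ν h : E d} (hν : ‖ν‖ = 1) {a e : ℝ} (ha : 0 ≤ a)
    (hh : ‖h + a • ν‖ ≤ e) (h1 : (R : ℝ) ≤ a - e) (h2 : a + e ≤ 20 * R)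
    (h3 : (a + e) / 2 ≤ a - e) : h ∈ farM R ν := by
  have hav : ‖a • ν‖ = a := by rw [norm_smul, hν, mul_one, Real.norm_of_nonneg ha]
  have hup : ‖h‖ ≤ a + e := by
    have := norm_sub_le (h + a • ν) (a • ν)
    rw [add_sub_cancel_right] at this
    linarith
  have hlo : a - e ≤ ‖h‖ := by
    have := norm_sub_le (h + a • ν) h
    rw [add_sub_cancel_left] at this
    linarith
  have hin : inner ℝ h ν ≤ e - a := by
    have h4 : inner ℝ (h + a • ν) ν ≤ ‖h + a • ν‖ * ‖ν‖ := real_inner_le_norm _ _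
    rw [inner_add_left, real_inner_smul_left, real_inner_self_eq_norm_sq, hν] at h4
    linarith
  refine ⟨by linarith, by linarith, by linarith⟩

theorem caseII_memP {d : ℕ} {R : ℕ} {ν h : E d} (hν : ‖ν‖ = 1) {a e : ℝ} (ha : 0 ≤ a)
    (hh : ‖h - a • ν‖ ≤ e) (h1 : (R : ℝ) ≤ a - e) (h2 : a + e ≤ 20 * R)
    (h3 : (a + e) / 2 ≤ a - e) : h ∈ farP R ν := by
  have hav : ‖a • ν‖ = a := by rw [norm_smul, hν, mul_one, Real.norm_of_nonneg ha]
  have hup : ‖h‖ ≤ a + e := by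
    have := norm_add_le (h - a • ν) (a • ν)
    rw [sub_add_cancel] at this
    linarith
  have hlo : a - e ≤ ‖h‖ := by
    have := norm_sub_le (h - a • ν) h
    rw [sub_sub_cancel_left, norm_neg] at this
    linarith
  have hin : a - e ≤ inner ℝ h ν := by
    have h4 : |inner ℝ (h - a • ν) ν| ≤ ‖h - a • ν‖ * ‖ν‖ := abs_real_inner_le_norm _ _
    rw [inner_sub_left, real_inner_smul_left, real_inner_self_eq_norm_sq, hν] at h4
    have h5 := abs_le.1 h4
    linarith [h5.1]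
  refine ⟨by linarith, by linarith, by linarith⟩

/-- the arithmetic of the measure bound -/
theorem caseII_arith {d R : ℕ} (hR : 12 ≤ R) {k : ℝ} (hk : 20000 * (R : ℝ) ≤ k) :
    |(k ^ d)⁻¹| * (kap d * (20 * R) ^ d / (4 * 17000 ^ d)) ≤ kap d / (4 * 17000000 ^ d) := by
  have hR0 : (0 : ℝ) < R := by
    have : (12 : ℝ) ≤ R := by exact_mod_cast hR
    linarith
  have hk0 : 0 < k := by linarith
  have hkd : (20000 * (R : ℝ)) ^ d ≤ k ^ d := pow_le_pow_left₀ (by positivity) hk d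
  have hkp : 0 < k ^ d := pow_pos hk0 d
  have h20 : (0 : ℝ) < (20000 * (R : ℝ)) ^ d := by positivity
  rw [abs_of_pos (inv_pos.2 hkp)]
  have hkap := caseII_kap_pos d
  have h1 : (k ^ d)⁻¹ ≤ ((20000 * (R : ℝ)) ^ d)⁻¹ := inv_anti₀ h20 hkd
  calc (k ^ d)⁻¹ * (kap d * (20 * R) ^ d / (4 * 17000 ^ d))
      ≤ ((20000 * (R : ℝ)) ^ d)⁻¹ * (kap d * (20 * R) ^ d / (4 * 17000 ^ d)) :=
        mul_le_mul_of_nonneg_right h1 (by positivity)
    _ = kap d / (4 * 17000000 ^ d) := by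
        have e1 : (20000 * (R : ℝ)) ^ d = 1000 ^ d * (20 * R) ^ d := by
          rw [← mul_pow]; congr 1; ring
        have e2 : (17000000 : ℝ) ^ d = 1000 ^ d * 17000 ^ d := by
          rw [← mul_pow]; norm_num
        rw [e1, e2]
        have : (0 : ℝ) < (20 * (R : ℝ)) ^ d := by positivity
        field_simp

theorem caseII_mono (d : ℕ) (hd : 0 < d) (R : ℕ) (hR : 12 ≤ R)
    (f : E d → ℝ) (ν : E d) (hf : Continuous f) (hν : ‖ν‖ = 1) (h : CaseIIcond f R ν)
    (w : E d) (hw : w ∈ ball ((1 / 1000 : ℝ) • ν) (1 / 160000)) :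
    (∫⁻ y in ball (0 : E d) (5 / 2 * R - 1), ENNReal.ofReal (f y - f (y + w))) *
      volume (ball (0 : E d) (1 / 160000)) ≤
        8 * NN f (20000 * R) 1 1 (ball 0 (5 / 2 * R)) := by
  have hR' : (12 : ℝ) ≤ R := by exact_mod_cast hR
  have hkap := caseII_kap_pos d
  -- the two types of `k`
  have hkk : ∀ k : ℕ, k = 20000 * R ∨ k = 20000 * R + 1 →
      20000 * (R : ℝ) ≤ (k : ℝ) ∧ (k : ℝ) ≤ 20000 * (R : ℝ) + 1 := by
    rintro k (rfl | rfl)
    · push_cast; constructor <;> linarith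
    · push_cast; constructor <;> linarith
  have hUL : ∀ k : ℕ, k = 20000 * R ∨ k = 20000 * R + 1 → ∀ (σ : ℝ), (σ = 1 ∨ σ = -1) →
      ∀ y ∈ ball (0 : E d) (5 / 2 * R), ∀ v ∈ ball ((1 / 2000 : ℝ) • ν) (1 / 80000 : ℝ),
      ‖(y + (σ * (k : ℝ)) • v) - (σ * ((k : ℝ) / 2000)) • ν‖ ≤ 11 / 4 * R + 1 / 80000 := by
    intro k hk σ hσ y hy v hv
    obtain ⟨hk1, hk2⟩ := hkk k hk
    have hk0 : (0 : ℝ) ≤ k := Nat.cast_nonneg k
    have e1 : (y + (σ * (k : ℝ)) • v) - (σ * ((k : ℝ) / 2000)) • ν =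
        y + (σ * (k : ℝ)) • (v - (1 / 2000 : ℝ) • ν) := by
      rw [smul_sub, smul_smul]
      rw [add_sub_assoc]
      congr 3
      ring
    have hσa : |σ| = 1 := by
      rcases hσ with rfl | rfl <;> simp
    have e2 : ‖(σ * (k : ℝ)) • (v - (1 / 2000 : ℝ) • ν)‖ ≤ k * (1 / 80000) := by
      rw [norm_smul, Real.norm_eq_abs, abs_mul, hσa, one_mul, abs_of_nonneg hk0]
      have := mem_ball_iff_norm.1 hv
      exact mul_le_mul_of_nonneg_left this.le hk0
    have hy' := mem_ball_zero_iff.1 hy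
    rw [e1]
    have := norm_add_le y ((σ * (k : ℝ)) • (v - (1 / 2000 : ℝ) • ν))
    linarith
  have hmain := mono hf (20000 * R) (by omega) ((1 / 2000 : ℝ) • ν) (r := 1 / 80000)
    (Y := 5 / 2 * R - 1) (by norm_num)
    (by rw [norm_smul, hν, Real.norm_eq_abs, abs_of_pos (by norm_num)]; norm_num)
    (by linarith) (ENNReal.ofReal (kap d / (4 * 17000000 ^ d))) ?_ ?_ ?_ w ?_
  · rw [show (1 / 80000 : ℝ) / 2 = 1 / 160000 by norm_num] at hmain
    rw [show (5 / 2 * (R : ℝ) - 1 + 1) = 5 / 2 * R by ring] at hmain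
    exact hmain
  · intro k hk y hy
    rw [show (5 / 2 * (R : ℝ) - 1 + 1) = 5 / 2 * R by ring] at hy
    obtain ⟨hk1, hk2⟩ := hkk k hk
    have hk0 : (0 : ℝ) < k := by linarith
    have hsub : {v : E d | v ∈ ball ((1 / 2000 : ℝ) • ν) (1 / 80000) ∧ 0 < f (y - (k : ℝ) • v)} ⊆
        {v : E d | y + (-(k : ℝ)) • v ∈ {z | z ∈ farM R ν ∧ 0 < f z}} := by
      rintro v ⟨hv, hfv⟩
      have e3 : y + (-(k : ℝ)) • v = y - (k : ℝ) • v := by rw [neg_smul, sub_eq_add_neg]
      have h4 := hUL k hk (-1) (Or.inr rfl) y hy v hv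
      rw [show (-1 : ℝ) * (k : ℝ) = -(k : ℝ) by ring, neg_mul, one_mul, neg_smul ((k : ℝ) / 2000),
        sub_neg_eq_add] at h4
      refine ⟨?_, ?_⟩
      · exact caseII_memM hν (by positivity) h4 (by linarith) (by linarith) (by linarith)
      · show 0 < f (y + (-(k : ℝ)) • v)
        rw [e3]; exact hfv
    calc volume {v : E d | v ∈ ball ((1 / 2000 : ℝ) • ν) (1 / 80000) ∧ 0 < f (y - (k : ℝ) • v)}
        ≤ volume {v : E d | y + (-(k : ℝ)) • v ∈ {z | z ∈ farM R ν ∧ 0 < f z}} :=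
          measure_mono hsub
      _ = ENNReal.ofReal |((-(k : ℝ)) ^ d)⁻¹| * volume {z | z ∈ farM R ν ∧ 0 < f z} :=
          caseII_vol_pre _ _ _ (by linarith)
      _ ≤ ENNReal.ofReal |((-(k : ℝ)) ^ d)⁻¹| *
            ENNReal.ofReal (kap d * (20 * R) ^ d / (4 * 17000 ^ d)) := by
          gcongr
          exact h.1
      _ = ENNReal.ofReal (|((k : ℝ) ^ d)⁻¹| * (kap d * (20 * R) ^ d / (4 * 17000 ^ d))) := by
          rw [← ENNReal.ofReal_mul (abs_nonneg _)]
          congr 2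
          rw [abs_inv, abs_inv, abs_pow, abs_pow, abs_neg]
      _ ≤ ENNReal.ofReal (kap d / (4 * 17000000 ^ d)) :=
          ENNReal.ofReal_le_ofReal (caseII_arith hR hk1)
  · intro k hk y hy
    rw [show (5 / 2 * (R : ℝ) - 1 + 1) = 5 / 2 * R by ring] at hy
    obtain ⟨hk1, hk2⟩ := hkk k hk
    have hk0 : (0 : ℝ) < k := by linarith
    have hsub : {v : E d | v ∈ ball ((1 / 2000 : ℝ) • ν) (1 / 80000) ∧ f (y + (k : ℝ) • v) ≤ 0} ⊆
        {v : E d | y + (k : ℝ) • v ∈ {z | z ∈ farP R ν ∧ f z ≤ 0}} := by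
      rintro v ⟨hv, hfv⟩
      have h4 := hUL k hk 1 (Or.inl rfl) y hy v hv
      rw [one_mul, one_mul] at h4
      refine ⟨?_, hfv⟩
      exact caseII_memP hν (by positivity) h4 (by linarith) (by linarith) (by linarith)
    calc volume {v : E d | v ∈ ball ((1 / 2000 : ℝ) • ν) (1 / 80000) ∧ f (y + (k : ℝ) • v) ≤ 0}
        ≤ volume {v : E d | y + (k : ℝ) • v ∈ {z | z ∈ farP R ν ∧ f z ≤ 0}} :=
          measure_mono hsub
      _ = ENNReal.ofReal |((k : ℝ) ^ d)⁻¹| * volume {z | z ∈ farP R ν ∧ f z ≤ 0} :=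
          caseII_vol_pre _ _ _ hk0.ne'
      _ ≤ ENNReal.ofReal |((k : ℝ) ^ d)⁻¹| *
            ENNReal.ofReal (kap d * (20 * R) ^ d / (4 * 17000 ^ d)) := by
          gcongr
          exact h.2
      _ = ENNReal.ofReal (|((k : ℝ) ^ d)⁻¹| * (kap d * (20 * R) ^ d / (4 * 17000 ^ d))) := by
          rw [← ENNReal.ofReal_mul (abs_nonneg _)]
      _ ≤ ENNReal.ofReal (kap d / (4 * 17000000 ^ d)) :=
          ENNReal.ofReal_le_ofReal (caseII_arith hR hk1)
  · rw [caseII_vol_ball _ (by norm_num)]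
    rw [show (4 : ℝ≥0∞) = ENNReal.ofReal 4 by norm_num, ← ENNReal.ofReal_mul (by norm_num)]
    apply ENNReal.ofReal_le_ofReal
    rw [show (4 : ℝ) * (kap d / (4 * 17000000 ^ d)) = kap d * (1 / 17000000) ^ d by
      rw [div_pow, one_pow]; field_simp]
    apply mul_le_mul_of_nonneg_left _ hkap.le
    exact pow_le_pow_left₀ (by norm_num) (by norm_num) d
  · rw [smul_smul, show (2 : ℝ) * (1 / 2000) = 1 / 1000 by norm_num,
      show (1 / 80000 : ℝ) / 2 = 1 / 160000 by norm_num]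
    exact hw

/-- the geometric decomposition of `s θ - w*` into `m` equal steps in `W`. -/
theorem caseII_steps {d : ℕ} (R : ℕ) (hR : 12 ≤ R) (ν θ w' : E d) (hν : ‖ν‖ = 1)
    (hθ : θ ∈ ball ν (1 / 1000)) (hw' : w' ∈ ball ((1 / 1000 : ℝ) • ν) (1 / 160000))
    (s : ℝ) (hs : 1 / 4 ≤ s) (hs' : s ≤ 3 / 2 * R) :
    ∃ m : ℕ, 1 ≤ m ∧ m ≤ 1500 * R ∧
      ((1 / m : ℝ) • (s • θ - w')) ∈ ball ((1 / 1000 : ℝ) • ν) (1 / 160000) ∧
      ∀ i : ℕ, i ≤ m → ball (w' + (i : ℝ) • ((1 / m : ℝ) • (s • θ - w'))) 1 ⊆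
        ball 0 (5 / 2 * R - 1) := by
  have hR' : (12 : ℝ) ≤ R := by exact_mod_cast hR
  have hn1 : ((⌊1000 * s⌋₊ : ℕ) : ℝ) ≤ 1000 * s := Nat.floor_le (by linarith)
  have hn2 : 1000 * s < (⌊1000 * s⌋₊ : ℕ) + 1 := Nat.lt_floor_add_one _
  have hn3 : 250 ≤ ⌊1000 * s⌋₊ := Nat.le_floor (by push_cast; linarith)
  obtain ⟨m, hm⟩ : ∃ m, ⌊1000 * s⌋₊ = m + 1 := ⟨⌊1000 * s⌋₊ - 1, by omega⟩
  rw [hm] at hn1 hn2 hn3
  push_cast at hn1 hn2
  have hm249 : 249 ≤ m := by omega
  have hm249' : (249 : ℝ) ≤ m := by exact_mod_cast hm249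
  have hm0 : (0 : ℝ) < m := by linarith
  have hθ' : ‖θ - ν‖ < 1 / 1000 := mem_ball_iff_norm.1 hθ
  have hw'' : ‖w' - (1 / 1000 : ℝ) • ν‖ < 1 / 160000 := mem_ball_iff_norm.1 hw'
  refine ⟨m, by omega, ?_, ?_, ?_⟩
  · have : (m : ℝ) ≤ 1500 * R := by linarith
    exact_mod_cast this
  · rw [mem_ball_iff_norm]
    have e1 : (1 / m : ℝ) • (s • θ - w') - (1 / 1000 : ℝ) • ν =
        (1 / m : ℝ) • ((s • (θ - ν) - (w' - (1 / 1000 : ℝ) • ν)) +
          (s - 1 / 1000 - m / 1000) • ν) := by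
      have e2 : (1 / 1000 : ℝ) • ν = (1 / m : ℝ) • (((m : ℝ) / 1000) • ν) := by
        rw [smul_smul]; congr 1; field_simp
      nth_rewrite 1 [e2]
      rw [← smul_sub]
      congr 1
      rw [smul_sub, sub_smul, sub_smul]
      abel
    rw [e1, norm_smul, Real.norm_eq_abs, abs_of_pos (by positivity)]
    have h1 : ‖(s • (θ - ν) - (w' - (1 / 1000 : ℝ) • ν)) + (s - 1 / 1000 - m / 1000) • ν‖ <
        s * (1 / 1000) + 1 / 160000 + 1 / 1000 := by
      have a1 := norm_add_le (s • (θ - ν) - (w' - (1 / 1000 : ℝ) • ν))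
        ((s - 1 / 1000 - m / 1000) • ν)
      have a2 := norm_sub_le (s • (θ - ν)) (w' - (1 / 1000 : ℝ) • ν)
      have a3 : ‖s • (θ - ν)‖ ≤ s * (1 / 1000) := by
        rw [norm_smul, Real.norm_eq_abs, abs_of_nonneg (by linarith)]
        exact mul_le_mul_of_nonneg_left hθ'.le (by linarith)
      have a4 : ‖(s - 1 / 1000 - m / 1000) • ν‖ ≤ 1 / 1000 := by
        rw [norm_smul, hν, mul_one, Real.norm_eq_abs, abs_le]
        constructor <;> linarith
      linarith
    rw [one_div, inv_mul_lt_iff₀ hm0]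
    linarith
  · intro i hi
    have hi' : (i : ℝ) ≤ m := by exact_mod_cast hi
    have hi0 : (0 : ℝ) ≤ i := Nat.cast_nonneg i
    apply ball_subset_ball'
    rw [dist_zero_right]
    have hq1 : (i : ℝ) / m ≤ 1 := by rw [div_le_one hm0]; exact hi'
    have hq0 : 0 ≤ (i : ℝ) / m := by positivity
    have e3 : w' + (i : ℝ) • ((1 / m : ℝ) • (s • θ - w')) =
        (1 - (i : ℝ) / m) • w' + ((i : ℝ) / m) • (s • θ) := by
      rw [smul_smul, show (i : ℝ) * (1 / m) = (i : ℝ) / m by ring, smul_sub, sub_smul, one_smul]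
      abel
    rw [e3]
    have b1 : ‖w'‖ ≤ 1 := by
      have := norm_add_le (w' - (1 / 1000 : ℝ) • ν) ((1 / 1000 : ℝ) • ν)
      rw [sub_add_cancel, norm_smul (1 / 1000 : ℝ) ν, hν, Real.norm_eq_abs,
        abs_of_pos (by norm_num)] at this
      linarith
    have b2 : ‖s • θ‖ ≤ 1502 / 1000 * R + 1 / 2 := by
      have c1 : ‖θ‖ ≤ 1001 / 1000 := by
        have := norm_add_le (θ - ν) ν
        rw [sub_add_cancel, hν] at this
        linarith
      rw [norm_smul, Real.norm_eq_abs, abs_of_nonneg (by linarith)]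
      have c2 : s * ‖θ‖ ≤ (3 / 2 * R) * (1001 / 1000) :=
        mul_le_mul hs' c1 (norm_nonneg _) (by positivity)
      linarith
    have b3 := norm_add_le ((1 - (i : ℝ) / m) • w') (((i : ℝ) / m) • (s • θ))
    have b4 : ‖(1 - (i : ℝ) / m) • w'‖ ≤ (1 - (i : ℝ) / m) * 1 := by
      rw [norm_smul, Real.norm_eq_abs, abs_of_nonneg (by linarith)]
      exact mul_le_mul_of_nonneg_left b1 (by linarith)
    have b5 : ‖((i : ℝ) / m) • (s • θ)‖ ≤ 1 * (1502 / 1000 * R + 1 / 2) := by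
      rw [norm_smul, Real.norm_eq_abs, abs_of_nonneg hq0]
      exact mul_le_mul hq1 b2 (norm_nonneg _) zero_le_one
    linarith

theorem caseII_hit (d : ℕ) (hd : 0 < d) (R : ℕ) (hR : 12 ≤ R)
    (f : E d → ℝ) (ν : E d) (hf : Continuous f) (hν : ‖ν‖ = 1) (h : CaseIIcond f R ν) :
    ENNReal.ofReal (kap d / (2 * 1000 ^ d)) ≤
      volume {θ | θ ∈ ball ν (1 / 1000) ∧ 0 < f (-ν + (3 / 2 * R : ℝ) • θ)} := by
  have hR' : (12 : ℝ) ≤ R := by exact_mod_cast hR
  have hkap := caseII_kap_pos d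
  set G : Set (E d) := {θ | θ ∈ ball ν (1 / 1000) ∧ 0 < f (-ν + (3 / 2 * R : ℝ) • θ)} with hG
  set Bd : Set (E d) := {θ | θ ∈ ball ν (1 / 1000) ∧ f (-ν + (3 / 2 * R : ℝ) • θ) ≤ 0} with hBd
  have hcov : ball ν (1 / 1000 : ℝ) ⊆ G ∪ Bd := by
    intro θ hθ
    rcases lt_or_ge 0 (f (-ν + (3 / 2 * R : ℝ) • θ)) with h1 | h1
    · exact Or.inl ⟨hθ, h1⟩
    · exact Or.inr ⟨hθ, h1⟩
  have hT : (0 : ℝ) < 3 / 2 * R := by linarith
  have hsub : Bd ⊆ {θ : E d | -ν + (3 / 2 * R : ℝ) • θ ∈ {z | z ∈ farP R ν ∧ f z ≤ 0}} := by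
    rintro θ ⟨hθ, hfθ⟩
    refine ⟨?_, hfθ⟩
    have hθ' : ‖θ - ν‖ < 1 / 1000 := mem_ball_iff_norm.1 hθ
    have e1 : (-ν + (3 / 2 * R : ℝ) • θ) - (3 / 2 * R - 1 : ℝ) • ν =
        (3 / 2 * R : ℝ) • (θ - ν) := by
      rw [smul_sub, sub_smul, one_smul]; abel
    have h4 : ‖(-ν + (3 / 2 * R : ℝ) • θ) - (3 / 2 * R - 1 : ℝ) • ν‖ ≤ 3 / 2 * R * (1 / 1000) := by
      rw [e1, norm_smul, Real.norm_eq_abs, abs_of_pos hT]
      exact mul_le_mul_of_nonneg_left hθ'.le hT.le
    exact caseII_memP hν (by linarith) h4 (by linarith) (by linarith) (by linarith)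
  have hBdle : volume Bd ≤ ENNReal.ofReal (kap d / (2 * 1000 ^ d)) := by
    calc volume Bd ≤ volume {θ : E d | -ν + (3 / 2 * R : ℝ) • θ ∈ {z | z ∈ farP R ν ∧ f z ≤ 0}} :=
          measure_mono hsub
      _ = ENNReal.ofReal |((3 / 2 * R : ℝ) ^ d)⁻¹| * volume {z | z ∈ farP R ν ∧ f z ≤ 0} :=
          caseII_vol_pre _ _ _ hT.ne'
      _ ≤ ENNReal.ofReal |((3 / 2 * R : ℝ) ^ d)⁻¹| *
            ENNReal.ofReal (kap d * (20 * R) ^ d / (4 * 17000 ^ d)) := by
          gcongr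
          exact h.2
      _ = ENNReal.ofReal (|((3 / 2 * R : ℝ) ^ d)⁻¹| *
            (kap d * (20 * R) ^ d / (4 * 17000 ^ d))) := by
          rw [← ENNReal.ofReal_mul (abs_nonneg _)]
      _ ≤ ENNReal.ofReal (kap d / (2 * 1000 ^ d)) := by
          apply ENNReal.ofReal_le_ofReal
          rw [abs_of_pos (by positivity)]
          have e1 : (17000 : ℝ) ^ d = (17000 / (40 / 3)) ^ d * (40 / 3) ^ d := by
            rw [← mul_pow]; norm_num
          have e2 : (20 * (R : ℝ)) ^ d = (40 / 3) ^ d * (3 / 2 * R) ^ d := by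
            rw [← mul_pow]; congr 1; ring
          have e3 : ((3 / 2 * R : ℝ) ^ d)⁻¹ * (kap d * (20 * R) ^ d / (4 * 17000 ^ d)) =
              kap d / (4 * (17000 / (40 / 3)) ^ d) := by
            rw [e1, e2]
            have p1 : (0 : ℝ) < (3 / 2 * (R : ℝ)) ^ d := by positivity
            have p2 : (0 : ℝ) < (40 / 3 : ℝ) ^ d := by positivity
            field_simp
          rw [e3]
          have e4 : (1000 : ℝ) ^ d ≤ (17000 / (40 / 3)) ^ d :=
            pow_le_pow_left₀ (by norm_num) (by norm_num) d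
          have e5 : (0 : ℝ) < (1000 : ℝ) ^ d := by positivity
          apply div_le_div_of_nonneg_left hkap.le (by positivity)
          linarith
  have hvb : volume (ball ν (1 / 1000 : ℝ)) =
      ENNReal.ofReal (kap d / (2 * 1000 ^ d)) + ENNReal.ofReal (kap d / (2 * 1000 ^ d)) := by
    rw [caseII_vol_ball _ (by norm_num), ← ENNReal.ofReal_add (by positivity) (by positivity)]
    congr 1
    rw [div_pow, one_pow]
    field_simp
    norm_num
  have h5 : ENNReal.ofReal (kap d / (2 * 1000 ^ d)) + ENNReal.ofReal (kap d / (2 * 1000 ^ d)) ≤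
      volume G + ENNReal.ofReal (kap d / (2 * 1000 ^ d)) := by
    rw [← hvb]
    calc volume (ball ν (1 / 1000 : ℝ)) ≤ volume (G ∪ Bd) := measure_mono hcov
      _ ≤ volume G + volume Bd := measure_union_le _ _
      _ ≤ _ := by gcongr
  exact ENNReal.le_of_add_le_add_right ENNReal.ofReal_ne_top h5

theorem caseII_intOn {d : ℕ} {f : E d → ℝ} (hf : Continuous f) (c : E d) :
    IntegrableOn f (ball c 1) volume :=
  (hf.continuousOn.integrableOn_compact (isCompact_closedBall c 1)).mono_set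
    ball_subset_closedBall

theorem caseII_shift {d : ℕ} (f : E d → ℝ) (c w : E d) :
    ∫ y in ball c 1, f (y + w) = ∫ y in ball (c + w) 1, f y := by
  have h := (measurePreserving_add_right (volume : Measure (E d)) w).setIntegral_preimage_emb
    (measurableEmbedding_addRight w) f (ball (c + w) 1)
  rw [← h]
  congr 2
  ext y
  simp

/-- one step: moving a unit ball inside `ball 0 Y` by `w` costs at most `e`. -/
theorem caseII_onestep {d : ℕ} {f : E d → ℝ} (hf : Continuous f) (w c : E d) {Y : ℝ}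
    {e : ℝ≥0∞} (he : e ≠ ∞)
    (hw : ∫⁻ y in ball (0 : E d) Y, ENNReal.ofReal (f y - f (y + w)) ≤ e)
    (hc : ball c 1 ⊆ ball 0 Y) :
    (∫ y in ball c 1, f y) - e.toReal ≤ ∫ y in ball (c + w) 1, f y := by
  have hfw : Continuous fun y => f (y + w) := by fun_prop
  have i1 := caseII_intOn hf c
  have i2 := caseII_intOn hfw c
  have h1 : ∫ y in ball c 1, (f y - f (y + w)) =
      (∫ y in ball c 1, f y) - ∫ y in ball (c + w) 1, f y := by
    rw [integral_sub i1 i2, caseII_shift]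
  have h2 : ∫ y in ball c 1, (f y - f (y + w)) ≤
      (∫⁻ y in ball c 1, ENNReal.ofReal (f y - f (y + w))).toReal := by
    rw [integral_eq_lintegral_pos_part_sub_lintegral_neg_part
      (f := fun y => f y - f (y + w)) (i1.sub i2)]
    have : 0 ≤ (∫⁻ (a : E d) in ball c 1, ENNReal.ofReal (-(f a - f (a + w)))).toReal :=
      ENNReal.toReal_nonneg
    linarith
  have h3 : (∫⁻ y in ball c 1, ENNReal.ofReal (f y - f (y + w))).toReal ≤ e.toReal :=
    ENNReal.toReal_mono he ((lintegral_mono_set hc).trans hw)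
  linarith

theorem caseII (d : ℕ) (hd : 0 < d) (R : ℕ) (hR : 12 ≤ R) : ∃ C : ℝ, 0 < C ∧
    ∀ (f : E d → ℝ) (ν : E d), Continuous f → ‖ν‖ = 1 →
      (∫ y in ball (0 : E d) 1, f y) = 0 → CaseIIcond f R ν →
      ∫⁻ y in ball (0 : E d) 1, ENNReal.ofReal |f y| ≤
          ENNReal.ofReal C * NN f (20000 * R) 1 1 (ball 0 (5 / 2 * R)) ∨
      ENNReal.ofReal (kap d / (2 * 1000 ^ d)) ≤ volume (goodDir f (3 / 2 * R) ν) := by
  obtain ⟨C0, hC0, hpoin⟩ := poin_mean d hd (1 / 160000) (by norm_num)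
  have hR' : (12 : ℝ) ≤ R := by exact_mod_cast hR
  have hkap := caseII_kap_pos d
  set v0 : ℝ := kap d * (1 / 160000) ^ d with hv0
  have hv0p : 0 < v0 := by positivity
  refine ⟨C0 * ((2 + 1500 * R) * (8 / v0)), by positivity, ?_⟩
  intro f ν hf hν hf0 hII
  set N : ℝ≥0∞ := NN f (20000 * R) 1 1 (ball 0 (5 / 2 * R)) with hN
  set E0 : ℝ≥0∞ := ENNReal.ofReal (8 / v0) * N with hE0
  -- the monotonicity in the form used below
  have hmono : ∀ w ∈ ball ((1 / 1000 : ℝ) • ν) (1 / 160000 : ℝ),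
      ∫⁻ y in ball (0 : E d) (5 / 2 * R - 1), ENNReal.ofReal (f y - f (y + w)) ≤ E0 := by
    intro w hw
    have h1 := caseII_mono d hd R hR f ν hf hν hII w hw
    rw [caseII_vol_ball _ (by norm_num), ← hv0, ← hN] at h1
    have h2 : ENNReal.ofReal v0 * ENNReal.ofReal (1 / v0) = 1 := by
      rw [← ENNReal.ofReal_mul hv0p.le, mul_one_div_cancel hv0p.ne', ENNReal.ofReal_one]
    calc ∫⁻ y in ball (0 : E d) (5 / 2 * R - 1), ENNReal.ofReal (f y - f (y + w))
        = (∫⁻ y in ball (0 : E d) (5 / 2 * R - 1), ENNReal.ofReal (f y - f (y + w))) *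
            (ENNReal.ofReal v0 * ENNReal.ofReal (1 / v0)) := by rw [h2, mul_one]
      _ = ((∫⁻ y in ball (0 : E d) (5 / 2 * R - 1), ENNReal.ofReal (f y - f (y + w))) *
            ENNReal.ofReal v0) * ENNReal.ofReal (1 / v0) := by rw [mul_assoc]
      _ ≤ (8 * N) * ENNReal.ofReal (1 / v0) := by gcongr
      _ = E0 := by
          rw [hE0, show (8 : ℝ≥0∞) = ENNReal.ofReal 8 by norm_num, mul_right_comm,
            ← ENNReal.ofReal_mul (by norm_num), mul_one_div]
  by_cases hNtop : N = ∞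
  · left
    rw [hNtop, ENNReal.mul_top]
    · exact le_top
    · exact (ENNReal.ofReal_pos.2 (by positivity)).ne'
  have hE0top : E0 ≠ ∞ := ENNReal.mul_ne_top ENNReal.ofReal_ne_top hNtop
  by_cases hall : ∀ w ∈ ball ((1 / 1000 : ℝ) • ν) (1 / 160000 : ℝ),
      ∫⁻ y in ball (0 : E d) 1, ENNReal.ofReal |f (y + w) - f y| ≤
        ENNReal.ofReal (2 + 1500 * R) * E0
  · left
    refine (hpoin f hf hf0 _ _ hall).trans (le_of_eq ?_)
    rw [hE0, ← mul_assoc, ← mul_assoc, ← ENNReal.ofReal_mul hC0.le,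
      ← ENNReal.ofReal_mul (by positivity), mul_assoc]
  · right
    push Not at hall
    obtain ⟨w', hw', hbig⟩ := hall
    set E1 : ℝ := E0.toReal with hE1
    have hE1nn : 0 ≤ E1 := ENNReal.toReal_nonneg
    -- the first step
    have hB1 : ball (0 : E d) 1 ⊆ ball 0 (5 / 2 * R - 1) := ball_subset_ball (by linarith)
    have hfw : Continuous fun y => f (y + w') := by fun_prop
    have i1 := caseII_intOn hf (0 : E d)
    have i2 := caseII_intOn hfw (0 : E d)
    have hstart : 1500 * R * E1 < ∫ y in ball w' 1, f y := by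
      have h1 : ∫ y in ball (0 : E d) 1, (f (y + w') - f y) = ∫ y in ball w' 1, f y := by
        rw [integral_sub i2 i1, hf0, caseII_shift, sub_zero, zero_add]
      rw [← h1, integral_eq_lintegral_pos_part_sub_lintegral_neg_part
        (f := fun y => f (y + w') - f y) (i2.sub i1)]
      set P : ℝ≥0∞ := ∫⁻ a in ball (0 : E d) 1, ENNReal.ofReal (f (a + w') - f a) with hP
      have hPtop : P ≠ ∞ := by
        have h7 : Integrable (fun y => f (y + w') - f y) (volume.restrict (ball (0 : E d) 1)) :=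
          i2.sub i1
        exact h7.lintegral_lt_top.ne
      have hQ : ∫⁻ a in ball (0 : E d) 1, ENNReal.ofReal (-(f (a + w') - f a)) ≤ E0 := by
        refine le_trans ?_ (hmono w' hw')
        refine le_trans (lintegral_mono_set hB1) (le_of_eq ?_)
        congr 1
        ext a
        rw [neg_sub]
      set Q : ℝ≥0∞ := ∫⁻ a in ball (0 : E d) 1, ENNReal.ofReal (-(f (a + w') - f a)) with hQd
      have hPQ : ∫⁻ y in ball (0 : E d) 1, ENNReal.ofReal |f (y + w') - f y| = P + Q := by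
        rw [hP, hQd, ← lintegral_add_left]
        · congr 1
          ext a
          rcases le_total 0 (f (a + w') - f a) with h | h
          · rw [abs_of_nonneg h, ENNReal.ofReal_of_nonpos (p := -(f (a + w') - f a)) (by linarith),
              add_zero]
          · rw [abs_of_nonpos h, ENNReal.ofReal_of_nonpos h, zero_add]
        · exact (hfw.sub hf).measurable.ennreal_ofReal
      rw [hPQ] at hbig
      have hQtop : Q ≠ ∞ := ne_top_of_le_ne_top hE0top hQ
      have h3 : (ENNReal.ofReal (2 + 1500 * R) * E0).toReal < (P + Q).toReal :=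
        ENNReal.toReal_strict_mono (ENNReal.add_ne_top.2 ⟨hPtop, hQtop⟩) hbig
      rw [ENNReal.toReal_mul, ENNReal.toReal_ofReal (by positivity),
        ENNReal.toReal_add hPtop hQtop, ← hE1] at h3
      have h4 : Q.toReal ≤ E1 := ENNReal.toReal_mono hE0top hQ
      nlinarith
    -- positivity along the rays
    have hray : ∀ θ ∈ ball ν (1 / 1000 : ℝ), ∀ s : ℝ, 1 / 4 ≤ s → s ≤ 3 / 2 * R →
        0 < ∫ y in ball (s • θ) 1, f y := by
      intro θ hθ s hs hs'
      obtain ⟨m, hm1, hm2, hmW, hmB⟩ := caseII_steps R hR ν θ w' hν hθ hw' s hs hs'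
      set w : E d := (1 / m : ℝ) • (s • θ - w') with hw
      have hind : ∀ i : ℕ, i ≤ m → (∫ y in ball w' 1, f y) - i * E1 ≤
          ∫ y in ball (w' + (i : ℝ) • w) 1, f y := by
        intro i
        induction i with
        | zero => intro _; simp
        | succ i ih =>
          intro hi
          have h1 := ih (by omega)
          have h2 := caseII_onestep hf w (w' + (i : ℝ) • w) hE0top (hmono w hmW)
            (hmB i (by omega))
          have e1 : w' + (i : ℝ) • w + w = w' + ((i + 1 : ℕ) : ℝ) • w := by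
            push_cast
            rw [add_smul, one_smul, add_assoc]
          rw [e1] at h2
          push_cast at h2 ⊢
          linarith
      have h5 := hind m le_rfl
      have hm0 : (0 : ℝ) < m := by exact_mod_cast hm1
      have e2 : w' + (m : ℝ) • w = s • θ := by
        rw [hw, smul_smul, mul_one_div_cancel hm0.ne', one_smul]
        abel
      rw [e2] at h5
      have hm2' : (m : ℝ) ≤ 1500 * R := by exact_mod_cast hm2
      have h6 : (m : ℝ) * E1 ≤ 1500 * R * E1 := mul_le_mul_of_nonneg_right hm2' hE1nn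
      linarith
    refine (caseII_hit d hd R hR f ν hf hν hII).trans (measure_mono ?_)
    rintro θ ⟨hθ, hfθ⟩
    refine ⟨hθ, hfθ, ?_⟩
    intro s hs0 hs1
    rcases le_or_gt (1 / 4 : ℝ) s with hs | hs
    · refine ⟨s • θ, ?_, (hray θ hθ s hs hs1).le⟩
      rw [add_sub_cancel_right, norm_neg, hν]
    · refine ⟨0, ?_, hf0.ge⟩
      have hθ' : ‖θ - ν‖ < 1 / 1000 := mem_ball_iff_norm.1 hθ
      have e3 : (-ν + s • θ) - 0 = (s - 1) • ν + s • (θ - ν) := by
        rw [sub_smul, smul_sub, one_smul]; abel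
      rw [e3]
      have a1 := norm_add_le ((s - 1) • ν) (s • (θ - ν))
      have a2 : ‖(s - 1) • ν‖ = 1 - s := by
        rw [norm_smul, hν, mul_one, Real.norm_eq_abs, abs_of_nonpos (by linarith)]
        ring
      have a3 : ‖s • (θ - ν)‖ ≤ s * (1 / 1000) := by
        rw [norm_smul, Real.norm_eq_abs, abs_of_nonneg hs0]
        exact mul_le_mul_of_nonneg_left hθ'.le hs0
      linarith

end

end Vale.Agent.P137F
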