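import Vale.Agent.Lib.P137F.Defs

/-!
# P137F: the gradient of `M` at a contact point

If `(z, r)` is a contact ball at `x` then `M ≥ M x` on `closedBall z r` (`avg_le`).  If `M` is
differentiable at `x` with nonzero derivative then `‖x - z‖ = r` (otherwise `x` would be an interior
minimum) and the gradient is `κ (z - x)`, `κ > 0`, since `⟪grad, w⟫ ≥ 0` whenever `⟪w, z - x⟫ > 0`.
-/

namespace Vale.Agent.P137F

open MeasureTheory Metric Set ENNReal

noncomputable section

theorem contact_ge {d : ℕ} {f M : E d → ℝ} (h : MaxPair f M) {x z : E d} {r : ℝ}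
    (hc : Contact f M x z r) (y : E d) (hy : ‖y - z‖ ≤ r) : M x ≤ M y := by
  obtain ⟨hr, -, he⟩ := hc
  have h1 := h.avg_le y z r hr hy
  rw [he] at h1
  have h2 : 0 < volume.real (ball z r) :=
    ENNReal.toReal_pos (measure_ball_pos volume z hr).ne' measure_ball_lt_top.ne
  exact le_of_mul_le_mul_right h1 h2

/-- directional derivatives into the contact ball are nonnegative -/
theorem contact_dir {d : ℕ} {f M : E d → ℝ} (h : MaxPair f M) {x z : E d} {r : ℝ}
    (hc : Contact f M x z r) (hdiff : DifferentiableAt ℝ M x) {ν : E d} (hν : ‖ν‖ = 1)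
    (hz : z = x + r • ν) {w : E d} (hw : 0 < inner ℝ ν w) : 0 ≤ fderiv ℝ M x w := by
  have hr := hc.1
  have hline : HasDerivAt (fun s : ℝ => x + s • w) w 0 := by
    have := ((hasDerivAt_id (0 : ℝ)).smul_const w).const_add x
    simpa using this
  have hM : HasFDerivAt M (fderiv ℝ M x) (x + (0 : ℝ) • w) := by
    rw [zero_smul, add_zero]
    exact hdiff.hasFDerivAt
  have hcomp : HasDerivAt (fun s : ℝ => M (x + s • w)) (fderiv ℝ M x w) 0 :=
    hM.comp_hasDerivAt (0 : ℝ) hline
  have hslope := hcomp.tendsto_slope_zero_right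
  refine ge_of_tendsto hslope ?_
  -- for small `s > 0` the point is in the closed ball
  have hw0 : 0 < ‖w‖ ^ 2 := by
    have : w ≠ 0 := by
      rintro rfl
      simp at hw
    positivity
  have hδ : 0 < 2 * r * inner ℝ ν w / ‖w‖ ^ 2 := by positivity
  have hev : ∀ᶠ s : ℝ in nhdsWithin 0 (Ioi 0), s < 2 * r * inner ℝ ν w / ‖w‖ ^ 2 :=
    nhdsWithin_le_nhds (Iio_mem_nhds hδ)
  filter_upwards [hev, self_mem_nhdsWithin] with s hs hs0
  have hs0' : 0 < s := hs0
  have hin : ‖x + s • w - z‖ ≤ r := by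
    rw [hz]
    have e1 : x + s • w - (x + r • ν) = s • w - r • ν := by abel
    rw [e1]
    have h3 : ‖s • w - r • ν‖ ^ 2 ≤ r ^ 2 := by
      rw [norm_sub_sq_real, norm_smul, norm_smul, hν, inner_smul_left, inner_smul_right,
        real_inner_comm]
      simp only [Real.norm_eq_abs, mul_one, conj_trivial, mul_pow, sq_abs]
      rw [lt_div_iff₀ hw0] at hs
      nlinarith [hs, hs0']
    exact abs_le_of_sq_le_sq' h3 hr.le |>.2
  have h4 := contact_ge h hc _ hin
  have h5 : 0 ≤ M (x + s • w) - M x := sub_nonneg.2 h4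
  simp only [zero_add, zero_smul, add_zero, smul_eq_mul]
  positivity

/-- there is a unit vector `ν` with `z = x + r ν` and `fderiv M x θ = ‖fderiv M x‖ ⟪ν, θ⟫`. -/
theorem contact_grad {d : ℕ} {f M : E d → ℝ} (h : MaxPair f M) {x z : E d} {r : ℝ}
    (hc : Contact f M x z r) (hdiff : DifferentiableAt ℝ M x) (hne : fderiv ℝ M x ≠ 0) :
    ∃ ν : E d, ‖ν‖ = 1 ∧ z = x + r • ν ∧ ∀ θ : E d, fderiv ℝ M x θ = ‖fderiv ℝ M x‖ * inner ℝ ν θ := by
  have hr := hc.1
  -- `x` is on the sphere
  have hxz : ‖x - z‖ = r := by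
    by_contra hlt
    have hlt' : ‖x - z‖ < r := lt_of_le_of_ne hc.2.1 hlt
    apply hne
    apply IsLocalMin.fderiv_eq_zero
    have hb : ball z r ∈ nhds x := isOpen_ball.mem_nhds (by rwa [mem_ball, dist_eq_norm])
    filter_upwards [hb] with y hy
    rw [mem_ball, dist_eq_norm] at hy
    exact contact_ge h hc y hy.le
  set ν : E d := (1 / r) • (z - x) with hνdef
  have hν : ‖ν‖ = 1 := by
    rw [hνdef, norm_smul, norm_sub_rev, hxz, Real.norm_eq_abs, abs_of_pos (by positivity)]
    field_simp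
  have hz : z = x + r • ν := by
    rw [hνdef, smul_smul, mul_one_div_cancel hr.ne', one_smul]
    abel
  have hdir : ∀ w : E d, 0 < inner ℝ ν w → 0 ≤ fderiv ℝ M x w := fun w hw =>
    contact_dir h hc hdiff hν hz hw
  have hνν : inner ℝ ν ν = 1 := by
    rw [real_inner_self_eq_norm_sq, hν, one_pow]
  have hLν : 0 ≤ fderiv ℝ M x ν := hdir ν (by rw [hνν]; exact one_pos)
  have hperp' : ∀ w : E d, inner ℝ ν w = 0 → 0 ≤ fderiv ℝ M x w := by
    intro w hw
    refine le_of_forall_pos_le_add fun ε hε => ?_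
    have h2 := hdir (w + (ε / (1 + fderiv ℝ M x ν)) • ν) (by
      rw [inner_add_right, inner_smul_right, hw, hνν]
      have : 0 < ε / (1 + fderiv ℝ M x ν) := by positivity
      linarith)
    rw [map_add, map_smul, smul_eq_mul] at h2
    have h3 : ε / (1 + fderiv ℝ M x ν) * fderiv ℝ M x ν ≤ ε := by
      rw [div_mul_eq_mul_div, div_le_iff₀ (by positivity)]
      nlinarith
    linarith
  have hperp : ∀ w : E d, inner ℝ ν w = 0 → fderiv ℝ M x w = 0 := by
    intro w hw
    have h1 := hperp' w hw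
    have h2 := hperp' (-w) (by rw [inner_neg_right, hw, neg_zero])
    rw [map_neg] at h2
    linarith
  have hform : ∀ θ : E d, fderiv ℝ M x θ = fderiv ℝ M x ν * inner ℝ ν θ := by
    intro θ
    have h1 := hperp (θ - (inner ℝ ν θ : ℝ) • ν) (by
      rw [inner_sub_right, inner_smul_right, hνν, mul_one, sub_self])
    rw [map_sub, map_smul, smul_eq_mul] at h1
    linarith
  have hnorm : ‖fderiv ℝ M x‖ = fderiv ℝ M x ν := by
    apply le_antisymm
    · refine ContinuousLinearMap.opNorm_le_bound _ hLν fun θ => ?_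
      rw [hform θ, norm_mul, Real.norm_eq_abs, abs_of_nonneg hLν, Real.norm_eq_abs]
      refine mul_le_mul_of_nonneg_left ?_ hLν
      have := abs_real_inner_le_norm ν θ
      rwa [hν, one_mul] at this
    · have h1 := (fderiv ℝ M x).le_opNorm ν
      rw [hν, mul_one, Real.norm_eq_abs] at h1
      exact (le_abs_self _).trans h1
  exact ⟨ν, hν, hz, fun θ => by rw [hnorm]; exact hform θ⟩

/-- rays into the contact ball -/
theorem contact_ray {d : ℕ} {f M : E d → ℝ} (h : MaxPair f M) {x z ν θ : E d} {r s : ℝ}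
    (hc : Contact f M x z r) (hν : ‖ν‖ = 1) (hz : z = x + r • ν) (hθ : θ ∈ ball ν (1 / 1000))
    (hs : 0 ≤ s) (hs' : s ≤ r) : M x ≤ M (x + s • θ) := by
  apply contact_ge h hc
  rw [mem_ball, dist_eq_norm] at hθ
  rw [hz]
  have e1 : x + s • θ - (x + r • ν) = s • (θ - ν) - (r - s) • ν := by
    rw [smul_sub, sub_smul]
    abel
  rw [e1]
  calc ‖s • (θ - ν) - (r - s) • ν‖ ≤ ‖s • (θ - ν)‖ + ‖(r - s) • ν‖ := norm_sub_le _ _
    _ = s * ‖θ - ν‖ + (r - s) := by
        rw [norm_smul, norm_smul, hν, Real.norm_eq_abs, Real.norm_eq_abs, abs_of_nonneg hs,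
          abs_of_nonneg (by linarith), mul_one]
    _ ≤ r := by nlinarith

theorem inner_ge {d : ℕ} {ν θ : E d} (hν : ‖ν‖ = 1) (hθ : θ ∈ ball ν (1 / 1000)) :
    1 / 2 ≤ inner ℝ ν θ := by
  rw [mem_ball, dist_eq_norm] at hθ
  have h1 : inner ℝ ν θ = 1 + inner ℝ ν (θ - ν) := by
    rw [inner_sub_right, real_inner_self_eq_norm_sq, hν]
    ring
  have h2 := abs_real_inner_le_norm ν (θ - ν)
  rw [hν, one_mul] at h2
  have h3 := (abs_le.1 h2).1
  rw [h1]
  linarith

end

end Vale.Agent.P137F
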