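import Vale.Agent.Lib.P137F.Dist3

/-!
# P137F: the non-monotonicity defects are summable over all dyadic scales

`W t = ∫ |f (y + t v) - f y| dy` is subadditive, `W t ≤ D ‖v‖ t`, and
`2 ∫ dist3 (f (y - a v)) (f y) (f (y + b v)) dy = W a + W b - W (a + b)`.
With `V t = W t / t`, `q = k + 1 ≤ Q = 2 ^ p` (take `p = k`):
`W (k t) + W t - W ((k+1) t) ≤ (k+1) W t - W ((k+1) t) ≤ Q W t - W (Q t) = Q t (V t - V (Q t))`,
so the sum over `t = 2 ^ n` telescopes and is `≤ Q p sup V ≤ k 2 ^ k D ‖v‖`.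
-/

namespace Vale.Agent.P137F

open MeasureTheory Metric Set ENNReal

noncomputable section

/-- the `L¹` modulus of translation -/
def defW {d : ℕ} (f : E d → ℝ) (v : E d) : ℝ≥0∞ := ∫⁻ y, ENNReal.ofReal |f (y + v) - f y|

theorem dist3_identity (a b c : ℝ) :
    2 * ENNReal.ofReal (dist3 a b c) + ENNReal.ofReal |c - a| =
      ENNReal.ofReal |b - a| + ENNReal.ofReal |c - b| := by
  have h0 : 0 ≤ dist3 a b c := dist3_nonneg a b c
  have h2 : (2 : ℝ≥0∞) = ENNReal.ofReal 2 := by simp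
  rw [h2, ← ENNReal.ofReal_mul (by norm_num), ← ENNReal.ofReal_add (by positivity) (abs_nonneg _),
    ← ENNReal.ofReal_add (abs_nonneg _) (abs_nonneg _)]
  congr 1
  unfold dist3
  ring

/-- the basic identity `2 ∫ dist3 = W a + W b - W (a+b)` in additive form (no subtraction). -/
theorem two_lintegral_dist3 {d : ℕ} {f : E d → ℝ} (hm : Continuous f) (hf : Integrable f)
    (v w : E d) :
    2 * (∫⁻ y, ENNReal.ofReal (dist3 (f (y - v)) (f y) (f (y + w)))) +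
      (∫⁻ y, ENNReal.ofReal |f (y + (v + w)) - f y|) =
      (∫⁻ y, ENNReal.ofReal |f (y + v) - f y|) + (∫⁻ y, ENNReal.ofReal |f (y + w) - f y|) := by
  have hA : Measurable (fun y : E d => ENNReal.ofReal |f (y + (v + w)) - f y|) := by
    have : Continuous (fun y : E d => |f (y + (v + w)) - f y|) := by fun_prop
    exact this.measurable.ennreal_ofReal
  have hB : Measurable (fun y : E d => ENNReal.ofReal |f (y + v) - f y|) := by
    have : Continuous (fun y : E d => |f (y + v) - f y|) := by fun_prop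
    exact this.measurable.ennreal_ofReal
  have e1 : ∫⁻ y, ENNReal.ofReal |f (y + (v + w)) - f y| =
      ∫⁻ y, ENNReal.ofReal |f (y + w) - f (y - v)| := by
    rw [← lintegral_add_right_eq_self
      (fun y : E d => ENNReal.ofReal |f (y + (v + w)) - f y|) (-v)]
    refine lintegral_congr fun y => ?_
    have h1 : y + -v + (v + w) = y + w := by abel
    have h2 : y + -v = y - v := by abel
    rw [h1, h2]
  have e2 : ∫⁻ y, ENNReal.ofReal |f (y + v) - f y| =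
      ∫⁻ y, ENNReal.ofReal |f y - f (y - v)| := by
    rw [← lintegral_add_right_eq_self
      (fun y : E d => ENNReal.ofReal |f (y + v) - f y|) (-v)]
    refine lintegral_congr fun y => ?_
    have h1 : y + -v + v = y := by abel
    have h2 : y + -v = y - v := by abel
    rw [h1, h2]
  have hC : Measurable (fun y : E d => ENNReal.ofReal |f (y + w) - f (y - v)|) := by
    have : Continuous (fun y : E d => |f (y + w) - f (y - v)|) := by fun_prop
    exact this.measurable.ennreal_ofReal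
  have hE : Measurable (fun y : E d => ENNReal.ofReal |f (y + w) - f y|) := by
    have : Continuous (fun y : E d => |f (y + w) - f y|) := by fun_prop
    exact this.measurable.ennreal_ofReal
  rw [e1, e2, ← lintegral_const_mul' _ _ (by norm_num), ← lintegral_add_right _ hC,
    ← lintegral_add_right _ hE]
  exact lintegral_congr fun y => dist3_identity _ _ _

theorem defW_zero {d : ℕ} (f : E d → ℝ) : defW f 0 = 0 := by
  unfold defW
  simp

theorem defW_add_le {d : ℕ} {f : E d → ℝ} (hm : Continuous f) (hf : Integrable f) (v w : E d) :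
    defW f (v + w) ≤ defW f v + defW f w := by
  have h := two_lintegral_dist3 hm hf v w
  unfold defW
  rw [← h]
  exact le_add_self

theorem defW_nsmul_le {d : ℕ} {f : E d → ℝ} (hm : Continuous f) (hf : Integrable f) (v : E d)
    (q : ℕ) : defW f ((q : ℝ) • v) ≤ (q : ℝ≥0∞) * defW f v := by
  induction q with
  | zero => simp [defW_zero]
  | succ q ih =>
    have h1 : ((q + 1 : ℕ) : ℝ) • v = (q : ℝ) • v + v := by
      push_cast
      rw [add_smul, one_smul]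
    rw [h1]
    refine (defW_add_le hm hf _ _).trans ?_
    push_cast
    rw [add_mul, one_mul]
    exact add_le_add ih le_rfl

theorem defW_lt_top {d : ℕ} {f : E d → ℝ} (hf : Integrable f) (v : E d) : defW f v < ⊤ := by
  have h1 : Integrable (fun y : E d => f (y + v) - f y) := (hf.comp_add_right v).sub hf
  have h2 := h1.hasFiniteIntegral
  unfold HasFiniteIntegral at h2
  unfold defW
  refine lt_of_le_of_lt (le_of_eq ?_) h2
  refine lintegral_congr fun y => ?_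
  rw [Real.enorm_eq_ofReal_abs]

/-- the one-scale estimate -/
theorem defW_scale {d : ℕ} {f : E d → ℝ} (hm : Continuous f) (hf : Integrable f) (k : ℕ)
    (hk : 1 ≤ k) (v : E d) (t : ℝ) :
    2 * (∫⁻ y, ENNReal.ofReal (dist3 (f (y - ((k : ℝ) * t) • v)) (f y) (f (y + t • v)))) +
      defW f (((2 : ℝ) ^ k * t) • v) ≤ ENNReal.ofReal ((2 : ℝ) ^ k) * defW f (t • v) := by
  have h1 := two_lintegral_dist3 hm hf (((k : ℝ) * t) • v) (t • v)
  have hk2 : k + 1 ≤ 2 ^ k := by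
    have := Nat.lt_two_pow_self (n := k)
    omega
  obtain ⟨r, hr⟩ : ∃ r : ℕ, 2 ^ k = (k + 1) + r := ⟨2 ^ k - (k + 1), by omega⟩
  have hr' : ((2 : ℝ) ^ k) = ((k : ℝ) + 1) + r := by exact_mod_cast hr
  have h2 : ((2 : ℝ) ^ k * t) • v = (((k : ℝ) * t) • v + t • v) + (r : ℝ) • (t • v) := by
    rw [hr', smul_smul, ← add_smul, ← add_smul]
    congr 1
    ring
  have h3 : defW f (((2 : ℝ) ^ k * t) • v) ≤
      defW f (((k : ℝ) * t) • v + t • v) + (r : ℝ≥0∞) * defW f (t • v) := by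
    rw [h2]
    exact (defW_add_le hm hf _ _).trans (add_le_add le_rfl (defW_nsmul_le hm hf _ _))
  have h4 : defW f (((k : ℝ) * t) • v) ≤ (k : ℝ≥0∞) * defW f (t • v) := by
    rw [mul_smul]
    exact defW_nsmul_le hm hf _ _
  have h5 : ENNReal.ofReal ((2 : ℝ) ^ k) = (k : ℝ≥0∞) + 1 + r := by
    rw [hr', ENNReal.ofReal_add (by positivity) (by positivity),
      ENNReal.ofReal_add (by positivity) (by positivity), ENNReal.ofReal_natCast,
      ENNReal.ofReal_natCast, ENNReal.ofReal_one]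
  calc 2 * (∫⁻ y, ENNReal.ofReal (dist3 (f (y - ((k : ℝ) * t) • v)) (f y) (f (y + t • v)))) +
      defW f (((2 : ℝ) ^ k * t) • v)
      ≤ 2 * (∫⁻ y, ENNReal.ofReal (dist3 (f (y - ((k : ℝ) * t) • v)) (f y) (f (y + t • v)))) +
        (defW f (((k : ℝ) * t) • v + t • v) + (r : ℝ≥0∞) * defW f (t • v)) :=
        add_le_add le_rfl h3
    _ = (2 * (∫⁻ y, ENNReal.ofReal (dist3 (f (y - ((k : ℝ) * t) • v)) (f y) (f (y + t • v)))) +
        (∫⁻ y, ENNReal.ofReal |f (y + (((k : ℝ) * t) • v + t • v)) - f y|)) +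
          (r : ℝ≥0∞) * defW f (t • v) := by
        rw [add_assoc]
        rfl
    _ = (defW f (((k : ℝ) * t) • v) + defW f (t • v)) + (r : ℝ≥0∞) * defW f (t • v) := by
        rw [h1]
        rfl
    _ ≤ ((k : ℝ≥0∞) * defW f (t • v) + defW f (t • v)) + (r : ℝ≥0∞) * defW f (t • v) :=
        add_le_add (add_le_add h4 le_rfl) le_rfl
    _ = ENNReal.ofReal ((2 : ℝ) ^ k) * defW f (t • v) := by
        rw [h5]
        ring

/-- normalised modulus at scale `2 ^ n` (times `2 ^ k`) -/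
def defV {d : ℕ} (f : E d → ℝ) (v : E d) (k : ℕ) (n : ℤ) : ℝ≥0∞ :=
  ENNReal.ofReal ((2 : ℝ) ^ k) * (ENNReal.ofReal ((2 : ℝ) ^ (-n)) * defW f ((2 : ℝ) ^ n • v))

/-- normalised defect at scale `2 ^ n` -/
def defJ {d : ℕ} (f : E d → ℝ) (v : E d) (k : ℕ) (n : ℤ) : ℝ≥0∞ :=
  ENNReal.ofReal ((2 : ℝ) ^ (-n)) * ∫⁻ y, ENNReal.ofReal (dist3
      (f (y - ((k : ℝ) * (2 : ℝ) ^ n) • v)) (f y) (f (y + ((2 : ℝ) ^ n) • v)))

theorem defJ_add_defV_le {d : ℕ} {f : E d → ℝ} (hm : Continuous f) (hf : Integrable f) (k : ℕ)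
    (hk : 1 ≤ k) (v : E d) (n : ℤ) :
    defJ f v k n + defV f v k (n + k) ≤ defV f v k n := by
  have h1 := defW_scale hm hf k hk v ((2 : ℝ) ^ n)
  have h2 : (2 : ℝ) ^ k * (2 : ℝ) ^ n = (2 : ℝ) ^ (n + k) := by
    rw [zpow_add₀ (by norm_num), zpow_natCast, mul_comm]
  rw [h2] at h1
  have h3 : ENNReal.ofReal ((2 : ℝ) ^ k) * ENNReal.ofReal ((2 : ℝ) ^ (-(n + (k : ℤ)))) =
      ENNReal.ofReal ((2 : ℝ) ^ (-n)) := by
    rw [← ENNReal.ofReal_mul (by positivity)]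
    congr 1
    rw [neg_add, zpow_add₀ (by norm_num), zpow_neg _ (k : ℤ), zpow_natCast]
    field_simp
  unfold defJ defV
  rw [← mul_assoc, h3]
  calc ENNReal.ofReal ((2 : ℝ) ^ (-n)) * (∫⁻ y, ENNReal.ofReal (dist3
      (f (y - ((k : ℝ) * (2 : ℝ) ^ n) • v)) (f y) (f (y + ((2 : ℝ) ^ n) • v)))) +
        ENNReal.ofReal ((2 : ℝ) ^ (-n)) * defW f ((2 : ℝ) ^ (n + (k : ℤ)) • v)
      ≤ ENNReal.ofReal ((2 : ℝ) ^ (-n)) * (2 * (∫⁻ y, ENNReal.ofReal (dist3
      (f (y - ((k : ℝ) * (2 : ℝ) ^ n) • v)) (f y) (f (y + ((2 : ℝ) ^ n) • v)))) +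
        defW f ((2 : ℝ) ^ (n + (k : ℤ)) • v)) := by
        rw [← mul_add]
        refine mul_le_mul' le_rfl (add_le_add ?_ le_rfl)
        rw [two_mul]
        exact le_self_add
    _ ≤ ENNReal.ofReal ((2 : ℝ) ^ (-n)) * (ENNReal.ofReal ((2 : ℝ) ^ k) *
        defW f ((2 : ℝ) ^ n • v)) := mul_le_mul' le_rfl h1
    _ = _ := by ring

/-- a finite set of integers lies in an interval `[-N, N)` -/
theorem defect_finset_subset (s : Finset ℤ) : ∃ a b : ℤ, a ≤ b ∧ s ⊆ Finset.Ico a b := by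
  refine ⟨-(∑ i ∈ s, |i|), (∑ i ∈ s, |i|) + 1, ?_, ?_⟩
  · have : 0 ≤ ∑ i ∈ s, |i| := Finset.sum_nonneg fun i _ => abs_nonneg i
    omega
  · intro i hi
    have h1 : |i| ≤ ∑ i ∈ s, |i| :=
      Finset.single_le_sum (f := fun i : ℤ => |i|) (fun i _ => abs_nonneg i) hi
    have h2 := abs_le.1 h1
    rw [Finset.mem_Ico]
    omega

theorem defect_sum_shift (V : ℤ → ℝ≥0∞) (a b : ℤ) (k : ℕ) :
    ∑ n ∈ Finset.Ico a b, V (n + k) = ∑ n ∈ Finset.Ico (a + k) (b + k), V n := by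
  rw [← Finset.map_add_right_Ico, Finset.sum_map]
  rfl

theorem defect_tele {J V : ℤ → ℝ≥0∞} (k : ℕ) (hV : ∀ n, V n < ⊤)
    (h : ∀ n, J n + V (n + k) ≤ V n) {a b : ℤ} (hab : a ≤ b) :
    ∑ n ∈ Finset.Ico a b, J n + ∑ n ∈ Finset.Ico b (b + k), V n ≤
      ∑ n ∈ Finset.Ico a (a + k), V n := by
  have h1 : ∑ n ∈ Finset.Ico a b, J n + ∑ n ∈ Finset.Ico (a + k) (b + k), V n ≤
      ∑ n ∈ Finset.Ico a b, V n := by
    rw [← defect_sum_shift, ← Finset.sum_add_distrib]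
    exact Finset.sum_le_sum fun n _ => h n
  have h2 : ∑ n ∈ Finset.Ico a b, V n + ∑ n ∈ Finset.Ico b (b + k), V n =
      ∑ n ∈ Finset.Ico a (a + k), V n + ∑ n ∈ Finset.Ico (a + k) (b + k), V n := by
    rw [← Finset.sum_union, ← Finset.sum_union]
    · congr 1
      ext i
      simp only [Finset.mem_union, Finset.mem_Ico]
      omega
    · rw [Finset.disjoint_left]
      intro i h1 h2
      simp only [Finset.mem_Ico] at h1 h2
      omega
    · rw [Finset.disjoint_left]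
      intro i h1 h2
      simp only [Finset.mem_Ico] at h1 h2
      omega
  have hfin : ∑ n ∈ Finset.Ico (a + k) (b + k), V n ≠ ⊤ :=
    (ENNReal.sum_lt_top.2 fun n _ => hV n).ne
  have h3 : (∑ n ∈ Finset.Ico a b, J n + ∑ n ∈ Finset.Ico b (b + k), V n) +
      ∑ n ∈ Finset.Ico (a + k) (b + k), V n ≤
      ∑ n ∈ Finset.Ico a (a + k), V n + ∑ n ∈ Finset.Ico (a + k) (b + k), V n := by
    rw [← h2]
    calc (∑ n ∈ Finset.Ico a b, J n + ∑ n ∈ Finset.Ico b (b + k), V n) +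
      ∑ n ∈ Finset.Ico (a + k) (b + k), V n =
        (∑ n ∈ Finset.Ico a b, J n + ∑ n ∈ Finset.Ico (a + k) (b + k), V n) +
          ∑ n ∈ Finset.Ico b (b + k), V n := by
          rw [add_assoc, add_comm (∑ n ∈ Finset.Ico b (b + k), V n), ← add_assoc]
      _ ≤ _ := add_le_add h1 le_rfl
  exact (ENNReal.add_le_add_iff_right hfin).1 h3

theorem defV_lt_top {d : ℕ} {f : E d → ℝ} (hf : Integrable f) (v : E d) (k : ℕ) (n : ℤ) :
    defV f v k n < ⊤ := by
  unfold defV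
  exact ENNReal.mul_lt_top ENNReal.ofReal_lt_top
    (ENNReal.mul_lt_top ENNReal.ofReal_lt_top (defW_lt_top hf _))

theorem defV_le {d : ℕ} {f : E d → ℝ} (v : E d) (k : ℕ) (n : ℤ) {B : ℝ}
    (h : defW f ((2 : ℝ) ^ n • v) ≤ ENNReal.ofReal ((2 : ℝ) ^ n * B)) :
    defV f v k n ≤ ENNReal.ofReal ((2 : ℝ) ^ k * B) := by
  unfold defV
  refine (mul_le_mul' le_rfl (mul_le_mul' le_rfl h)).trans (le_of_eq ?_)
  rw [← ENNReal.ofReal_mul (by positivity), ← ENNReal.ofReal_mul (by positivity)]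
  congr 1
  have h2 : (2 : ℝ) ^ (-n) * (2 : ℝ) ^ n = 1 := by
    rw [← zpow_add₀ (by norm_num)]
    simp
  calc (2 : ℝ) ^ k * ((2 : ℝ) ^ (-n) * ((2 : ℝ) ^ n * B)) =
      (2 : ℝ) ^ k * (((2 : ℝ) ^ (-n) * (2 : ℝ) ^ n) * B) := by ring
    _ = (2 : ℝ) ^ k * B := by rw [h2, one_mul]

theorem le_defV {d : ℕ} {f : E d → ℝ} (v : E d) (k : ℕ) (n : ℤ) {B : ℝ}
    (h : ENNReal.ofReal ((2 : ℝ) ^ n * B) ≤ defW f ((2 : ℝ) ^ n • v)) :
    ENNReal.ofReal ((2 : ℝ) ^ k * B) ≤ defV f v k n := by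
  unfold defV
  refine le_trans (le_of_eq ?_) (mul_le_mul' le_rfl (mul_le_mul' le_rfl h))
  rw [← ENNReal.ofReal_mul (by positivity), ← ENNReal.ofReal_mul (by positivity)]
  congr 1
  have h2 : (2 : ℝ) ^ (-n) * (2 : ℝ) ^ n = 1 := by
    rw [← zpow_add₀ (by norm_num)]
    simp
  calc (2 : ℝ) ^ k * B = (2 : ℝ) ^ k * (((2 : ℝ) ^ (-n) * (2 : ℝ) ^ n) * B) := by
        rw [h2, one_mul]
    _ = (2 : ℝ) ^ k * ((2 : ℝ) ^ (-n) * ((2 : ℝ) ^ n * B)) := by ring

theorem defect_sum_Ico_le {d : ℕ} {f : E d → ℝ} (v : E d) (k : ℕ) {B : ℝ}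
    (h : ∀ n : ℤ, defW f ((2 : ℝ) ^ n • v) ≤ ENNReal.ofReal ((2 : ℝ) ^ n * B)) (a : ℤ) :
    ∑ n ∈ Finset.Ico a (a + k), defV f v k n ≤ ENNReal.ofReal (k * (2 ^ k * B)) := by
  refine (Finset.sum_le_card_nsmul _ _ _ fun n _ => defV_le v k n (h n)).trans (le_of_eq ?_)
  rw [Int.card_Ico, nsmul_eq_mul, ENNReal.ofReal_mul (Nat.cast_nonneg k), ENNReal.ofReal_natCast]
  congr 2
  simp

theorem defect_sum {d : ℕ} {f : E d → ℝ} (hm : Continuous f) (hf : Integrable f) {D : ℝ}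
    (hD : 0 ≤ D) (h : TransBV f D) (k : ℕ) (hk : 1 ≤ k) (v : E d) :
    ∑' n : ℤ, ENNReal.ofReal ((2 : ℝ) ^ (-n)) * ∫⁻ y, ENNReal.ofReal (dist3
      (f (y - ((k : ℝ) * (2 : ℝ) ^ n) • v)) (f y) (f (y + ((2 : ℝ) ^ n) • v))) ≤
      ENNReal.ofReal (k * 2 ^ k * D * ‖v‖) := by
  have hW : ∀ n : ℤ, defW f ((2 : ℝ) ^ n • v) ≤ ENNReal.ofReal ((2 : ℝ) ^ n * (D * ‖v‖)) := by
    intro n
    refine (h ((2 : ℝ) ^ n • v)).trans (le_of_eq ?_)
    congr 1
    rw [norm_smul, Real.norm_of_nonneg (by positivity)]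
    ring
  change ∑' n : ℤ, defJ f v k n ≤ _
  rw [ENNReal.tsum_eq_iSup_sum]
  refine iSup_le fun s => ?_
  obtain ⟨a, b, hab, hs⟩ := defect_finset_subset s
  calc ∑ n ∈ s, defJ f v k n ≤ ∑ n ∈ Finset.Ico a b, defJ f v k n :=
        Finset.sum_le_sum_of_subset hs
    _ ≤ ∑ n ∈ Finset.Ico a b, defJ f v k n + ∑ n ∈ Finset.Ico b (b + k), defV f v k n :=
        le_self_add
    _ ≤ ∑ n ∈ Finset.Ico a (a + k), defV f v k n :=
        defect_tele k (defV_lt_top hf v k) (defJ_add_defV_le hm hf k hk v) hab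
    _ ≤ ENNReal.ofReal (k * (2 ^ k * (D * ‖v‖))) := defect_sum_Ico_le v k hW a
    _ = ENNReal.ofReal (k * 2 ^ k * D * ‖v‖) := by
        congr 1
        ring

/-- tail version: only scales `2 ^ n` with `n < N`; if the modulus at scales `2^(N+j)`, `j ≤ k`, is
still close to `D ‖v‖` then the tail is small. -/
theorem defect_tail {d : ℕ} {f : E d → ℝ} (hm : Continuous f) (hf : Integrable f) {D : ℝ}
    (k : ℕ) (hk : 1 ≤ k) (v : E d) (N : ℤ) (ε : ℝ) (hε : 0 ≤ ε)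
    (h : ∀ n : ℤ, ∫⁻ y, ENNReal.ofReal |f (y + ((2 : ℝ) ^ n) • v) - f y| ≤
      ENNReal.ofReal ((2 : ℝ) ^ n * D))
    (h' : ∀ j : ℕ, j ≤ k → ENNReal.ofReal ((2 : ℝ) ^ (N + j) * (D - ε)) ≤
      ∫⁻ y, ENNReal.ofReal |f (y + ((2 : ℝ) ^ (N + j)) • v) - f y|) :
    ∑' n : ℤ, (if n < N then ENNReal.ofReal ((2 : ℝ) ^ (-n)) * ∫⁻ y, ENNReal.ofReal (dist3
      (f (y - ((k : ℝ) * (2 : ℝ) ^ n) • v)) (f y) (f (y + ((2 : ℝ) ^ n) • v))) else 0) ≤
      ENNReal.ofReal (k * 2 ^ k * ε) := by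
  have hW : ∀ n : ℤ, defW f ((2 : ℝ) ^ n • v) ≤ ENNReal.ofReal ((2 : ℝ) ^ n * D) := h
  change ∑' n : ℤ, (if n < N then defJ f v k n else 0) ≤ _
  rw [ENNReal.tsum_eq_iSup_sum]
  refine iSup_le fun s => ?_
  obtain ⟨a', b, hab, hs⟩ := defect_finset_subset s
  set a := min a' N with ha
  have haN : a ≤ N := min_le_right _ _
  have h1 : ∑ n ∈ s, (if n < N then defJ f v k n else 0) ≤ ∑ n ∈ Finset.Ico a N, defJ f v k n := by
    rw [← Finset.sum_filter]
    refine Finset.sum_le_sum_of_subset ?_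
    intro n hn
    rw [Finset.mem_filter] at hn
    have h2 := hs hn.1
    rw [Finset.mem_Ico] at h2 ⊢
    exact ⟨(min_le_left _ _).trans h2.1, hn.2⟩
  refine h1.trans ?_
  have h2 : ∑ n ∈ Finset.Ico a N, defJ f v k n + ∑ n ∈ Finset.Ico N (N + k), defV f v k n ≤
      ENNReal.ofReal (k * (2 ^ k * D)) :=
    (defect_tele k (defV_lt_top hf v k) (defJ_add_defV_le hm hf k hk v) haN).trans
      (defect_sum_Ico_le v k hW a)
  have h3 : ENNReal.ofReal (k * (2 ^ k * (D - ε))) ≤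
      ∑ n ∈ Finset.Ico N (N + k), defV f v k n := by
    have h4 : ∀ n ∈ Finset.Ico N (N + k), ENNReal.ofReal (2 ^ k * (D - ε)) ≤ defV f v k n := by
      intro n hn
      rw [Finset.mem_Ico] at hn
      obtain ⟨j, hj⟩ : ∃ j : ℕ, n = N + j := ⟨(n - N).toNat, by omega⟩
      rw [hj]
      exact le_defV v k _ (h' j (by omega))
    refine le_trans (le_of_eq ?_) (Finset.card_nsmul_le_sum _ _ _ h4)
    rw [Int.card_Ico, nsmul_eq_mul, ENNReal.ofReal_mul (Nat.cast_nonneg k),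
      ENNReal.ofReal_natCast]
    congr 2
    simp
  rcases le_or_gt 0 (D - ε) with hDe | hDe
  · have h5 : ENNReal.ofReal (k * (2 ^ k * D)) =
        ENNReal.ofReal (k * 2 ^ k * ε) + ENNReal.ofReal (k * (2 ^ k * (D - ε))) := by
      rw [← ENNReal.ofReal_add (by positivity) (by positivity)]
      congr 1
      ring
    have h6 : ∑ n ∈ Finset.Ico a N, defJ f v k n + ENNReal.ofReal (k * (2 ^ k * (D - ε))) ≤
        ENNReal.ofReal (k * 2 ^ k * ε) + ENNReal.ofReal (k * (2 ^ k * (D - ε))) := by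
      rw [← h5]
      exact (add_le_add le_rfl h3).trans h2
    exact (ENNReal.add_le_add_iff_right ENNReal.ofReal_ne_top).1 h6
  · refine (le_self_add.trans h2).trans (ENNReal.ofReal_le_ofReal ?_)
    have h7 : D ≤ ε := by linarith
    have h8 : (0 : ℝ) ≤ k * 2 ^ k := by positivity
    calc (k : ℝ) * (2 ^ k * D) = (k * 2 ^ k) * D := by ring
      _ ≤ (k * 2 ^ k) * ε := mul_le_mul_of_nonneg_left h7 h8

theorem NN_sum {d : ℕ} (K : ℕ) (ρ : ℝ) (hρ : 0 < ρ) : ∃ C : ℝ, 0 < C ∧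
    ∀ (f : E d → ℝ) (D : ℝ), Continuous f → Integrable f → 0 ≤ D → TransBV f D →
      ∑' n : ℤ, ENNReal.ofReal ((2 : ℝ) ^ (-n)) * NN f K ρ ((2 : ℝ) ^ n) univ ≤
        ENNReal.ofReal (C * D) := by
  refine ⟨(∑ k ∈ Finset.Icc 1 K, ((k : ℝ) * 2 ^ k * ρ)) * volume.real (ball (0 : E d) ρ) + 1,
    ?_, ?_⟩
  · have : 0 ≤ (∑ k ∈ Finset.Icc 1 K, ((k : ℝ) * 2 ^ k * ρ)) * volume.real (ball (0 : E d) ρ) := by
      positivity
    linarith
  intro f D hm hf hD hT
  have hmeas : ∀ (k : ℕ) (t : ℝ), Measurable (fun p : E d × E d =>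
      ENNReal.ofReal (dist3 (f (p.1 - ((k : ℝ) * t) • p.2)) (f p.1) (f (p.1 + t • p.2)))) := by
    intro k t
    have h1 : Continuous (fun p : E d × E d =>
        (f (p.1 - ((k : ℝ) * t) • p.2), f p.1, f (p.1 + t • p.2))) := by fun_prop
    exact (continuous_dist3.comp h1).measurable.ennreal_ofReal
  have hswap : ∀ (k : ℕ) (t : ℝ),
      ∫⁻ y in univ, ∫⁻ v in ball (0 : E d) ρ,
        ENNReal.ofReal (dist3 (f (y - ((k : ℝ) * t) • v)) (f y) (f (y + t • v))) =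
      ∫⁻ v in ball (0 : E d) ρ, ∫⁻ y,
        ENNReal.ofReal (dist3 (f (y - ((k : ℝ) * t) • v)) (f y) (f (y + t • v))) := by
    intro k t
    rw [Measure.restrict_univ]
    exact lintegral_lintegral_swap (hmeas k t).aemeasurable
  have hJm : ∀ (k : ℕ) (n : ℤ), Measurable (fun v : E d => defJ f v k n) := by
    intro k n
    unfold defJ
    refine Measurable.const_mul ?_ _
    exact ((hmeas k ((2 : ℝ) ^ n)).comp measurable_swap).lintegral_prod_right'
  have hE : ∀ n : ℤ, ENNReal.ofReal ((2 : ℝ) ^ (-n)) * NN f K ρ ((2 : ℝ) ^ n) univ =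
      ∑ k ∈ Finset.Icc 1 K, ∫⁻ v in ball (0 : E d) ρ, defJ f v k n := by
    intro n
    unfold NN
    rw [Finset.mul_sum]
    refine Finset.sum_congr rfl fun k _ => ?_
    rw [hswap, ← lintegral_const_mul' _ _ ENNReal.ofReal_ne_top]
    rfl
  simp_rw [hE]
  rw [Summable.tsum_finsetSum (fun _ _ => ENNReal.summable)]
  have hk : ∀ k ∈ Finset.Icc 1 K, ∑' n : ℤ, ∫⁻ v in ball (0 : E d) ρ, defJ f v k n ≤
      ENNReal.ofReal (((k : ℝ) * 2 ^ k * ρ) * volume.real (ball (0 : E d) ρ) * D) := by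
    intro k hk
    rw [← lintegral_tsum (fun n => (hJm k n).aemeasurable)]
    have h1 : ∀ v ∈ ball (0 : E d) ρ, ∑' n : ℤ, defJ f v k n ≤
        ENNReal.ofReal ((k : ℝ) * 2 ^ k * D * ρ) := by
      intro v hv
      refine (defect_sum hm hf hD hT k (Finset.mem_Icc.1 hk).1 v).trans
        (ENNReal.ofReal_le_ofReal ?_)
      have hv2 : ‖v‖ ≤ ρ := by
        rw [mem_ball_zero_iff] at hv
        exact hv.le
      exact mul_le_mul_of_nonneg_left hv2 (by positivity)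
    refine (setLIntegral_mono measurable_const h1).trans (le_of_eq ?_)
    rw [setLIntegral_const]
    have hfin : volume (ball (0 : E d) ρ) ≠ ⊤ := measure_ball_lt_top.ne
    rw [← ofReal_measureReal hfin, ← ENNReal.ofReal_mul (by positivity)]
    congr 1
    ring
  refine (Finset.sum_le_sum hk).trans ?_
  rw [← ENNReal.ofReal_sum_of_nonneg (fun k _ => by positivity)]
  refine ENNReal.ofReal_le_ofReal ?_
  rw [← Finset.sum_mul, ← Finset.sum_mul, add_mul]
  linarith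

end

end Vale.Agent.P137F
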