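import Vale.Agent.Lib.P137F.Dist3

/-!
# P137F: the set of bad levels has small measure

First part: Markov + `lintegral_NN_ind`.  Second part: with
`τ = C₁ NN / t^d` (if `NN = 0` then `τ = 0`), Tonelli:
`∫_l |{y ∈ ball p (ρ t) : |f y - l| ≤ τ}| dl = 2 τ |ball p (ρ t)|`, then Markov.
-/

namespace Vale.Agent.P137F

open MeasureTheory Metric Set ENNReal

noncomputable section

theorem gamVol_measurable_inner {A : Type*} [MeasurableSpace A] {d : ℕ} {h : A → E d → ℝ}
    (hh : Measurable (fun q : A × E d => h q.1 q.2)) (k : ℕ) (ρ t : ℝ) :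
    Measurable (fun q : A × E d => ∫⁻ v in ball (0 : E d) ρ,
      ENNReal.ofReal (dist3 (h q.1 (q.2 - ((k : ℝ) * t) • v)) (h q.1 q.2)
        (h q.1 (q.2 + t • v)))) := by
  apply Measurable.lintegral_prod_right'
    (f := fun r : (A × E d) × E d => ENNReal.ofReal
      (dist3 (h r.1.1 (r.1.2 - ((k : ℝ) * t) • r.2)) (h r.1.1 r.1.2) (h r.1.1 (r.1.2 + t • r.2))))
  apply Measurable.ennreal_ofReal
  have h1 : Measurable fun r : (A × E d) × E d => h r.1.1 (r.1.2 - ((k : ℝ) * t) • r.2) := by
    have : Measurable fun r : (A × E d) × E d => (r.1.1, r.1.2 - ((k : ℝ) * t) • r.2) := by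
      fun_prop
    exact hh.comp this
  have h2 : Measurable fun r : (A × E d) × E d => h r.1.1 r.1.2 := hh.comp measurable_fst
  have h3 : Measurable fun r : (A × E d) × E d => h r.1.1 (r.1.2 + t • r.2) := by
    have : Measurable fun r : (A × E d) × E d => (r.1.1, r.1.2 + t • r.2) := by
      fun_prop
    exact hh.comp this
  exact continuous_dist3.measurable.comp (h1.prodMk (h2.prodMk h3))

theorem gamVol_measurable_inner₀ {d : ℕ} {f : E d → ℝ} (hf : Continuous f) (k : ℕ) (ρ t : ℝ) :
    Measurable (fun y : E d => ∫⁻ v in ball (0 : E d) ρ,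
      ENNReal.ofReal (dist3 (f (y - ((k : ℝ) * t) • v)) (f y) (f (y + t • v)))) := by
  apply Measurable.lintegral_prod_right'
    (f := fun r : E d × E d => ENNReal.ofReal
      (dist3 (f (r.1 - ((k : ℝ) * t) • r.2)) (f r.1) (f (r.1 + t • r.2))))
  apply Measurable.ennreal_ofReal
  have h1 : Continuous fun r : E d × E d => f (r.1 - ((k : ℝ) * t) • r.2) := by fun_prop
  have h2 : Continuous fun r : E d × E d => f r.1 := by fun_prop
  have h3 : Continuous fun r : E d × E d => f (r.1 + t • r.2) := by fun_prop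
  exact (continuous_dist3.comp (h1.prodMk (h2.prodMk h3))).measurable

theorem gamVol_measurable_NN {A : Type*} [MeasurableSpace A] {d : ℕ} {h : A → E d → ℝ}
    (hh : Measurable (fun q : A × E d => h q.1 q.2)) {c : A → E d} (hc : Measurable c) (K : ℕ)
    (ρ t r : ℝ) : Measurable (fun a => NN (h a) K ρ t (ball (c a) r)) := by
  unfold NN
  refine Finset.measurable_sum _ fun k _ => ?_
  have hs : MeasurableSet {q : A × E d | q.2 ∈ ball (c q.1) r} := by
    have h1 : Measurable fun q : A × E d => dist q.2 (c q.1) := by fun_prop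
    exact measurableSet_lt h1 measurable_const
  have h1 : Measurable (fun q : A × E d => ({q : A × E d | q.2 ∈ ball (c q.1) r}).indicator
      (fun q => ∫⁻ v in ball (0 : E d) ρ,
      ENNReal.ofReal (dist3 (h q.1 (q.2 - ((k : ℝ) * t) • v)) (h q.1 q.2)
        (h q.1 (q.2 + t • v)))) q) := (gamVol_measurable_inner hh k ρ t).indicator hs
  have h2 := h1.lintegral_prod_right' (ν := (volume : Measure (E d)))
  have e : (fun a => ∫⁻ y in ball (c a) r, ∫⁻ v in ball (0 : E d) ρ,
      ENNReal.ofReal (dist3 (h a (y - ((k : ℝ) * t) • v)) (h a y) (h a (y + t • v))))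
      = fun a => ∫⁻ y, ({q : A × E d | q.2 ∈ ball (c q.1) r}).indicator
      (fun q => ∫⁻ v in ball (0 : E d) ρ,
      ENNReal.ofReal (dist3 (h q.1 (q.2 - ((k : ℝ) * t) • v)) (h q.1 q.2)
        (h q.1 (q.2 + t • v)))) (a, y) := by
    funext a
    rw [← lintegral_indicator measurableSet_ball]
    rfl
  rw [e]
  exact h2

theorem gamVol_le_of_mul_le {a b : ℝ} (ha : 0 < a) {v : ℝ≥0∞}
    (h : ENNReal.ofReal a * v ≤ ENNReal.ofReal b) : v ≤ ENNReal.ofReal (b / a) := by
  rw [ENNReal.ofReal_div_of_pos ha, ENNReal.le_div_iff_mul_le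
    (Or.inl (by simpa using ha)) (Or.inl ENNReal.ofReal_ne_top), mul_comm]
  exact h

theorem gamVol_kap_nonneg (d : ℕ) : 0 ≤ kap d := measureReal_nonneg

theorem gamVol_ball {d : ℕ} (p : E d) {r : ℝ} (hr : 0 < r) :
    volume (ball p r) = ENNReal.ofReal (r ^ d * kap d) := by
  have h1 := Measure.addHaar_ball_of_pos (volume : Measure (E d)) p hr
  rw [finrank_euclideanSpace_fin] at h1
  rw [h1, ENNReal.ofReal_mul (by positivity)]
  congr 1
  unfold kap
  exact (ENNReal.ofReal_toReal measure_ball_lt_top.ne).symm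

theorem gamVol_second {d : ℕ} {f : E d → ℝ} (hf : Continuous f) {ρ c₁ t τ : ℝ} (hρ : 0 < ρ)
    (hc : 0 < c₁) (ht : 0 < t) (hτ : 0 ≤ τ) (p : E d) :
    volume {l : ℝ | ENNReal.ofReal (c₁ * t ^ d) ≤
      volume {y | y ∈ ball p (ρ * t) ∧ |f y - l| ≤ τ}} ≤
      ENNReal.ofReal (2 * τ * ((ρ * t) ^ d * kap d) / (c₁ * t ^ d)) := by
  apply gamVol_le_of_mul_le (by positivity)
  set s : Set (ℝ × E d) := {q | q.2 ∈ ball p (ρ * t) ∧ |f q.2 - q.1| ≤ τ} with hs
  have hsm : MeasurableSet s := by
    have h1 : MeasurableSet {q : ℝ × E d | q.2 ∈ ball p (ρ * t)} :=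
      measurable_snd measurableSet_ball
    have h2 : MeasurableSet {q : ℝ × E d | |f q.2 - q.1| ≤ τ} := by
      have h3 : Continuous fun q : ℝ × E d => |f q.2 - q.1| := by fun_prop
      exact measurableSet_le h3.measurable measurable_const
    exact h1.inter h2
  have hmeas : Measurable fun l : ℝ => volume {y | y ∈ ball p (ρ * t) ∧ |f y - l| ≤ τ} :=
    measurable_measure_prodMk_left hsm
  have h1 := mul_meas_ge_le_lintegral₀ (μ := (volume : Measure ℝ)) hmeas.aemeasurable
    (ENNReal.ofReal (c₁ * t ^ d))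
  refine h1.trans (le_of_eq ?_)
  have h2 : ∫⁻ l : ℝ, volume {y | y ∈ ball p (ρ * t) ∧ |f y - l| ≤ τ}
      = ((volume : Measure ℝ).prod (volume : Measure (E d))) s :=
    (Measure.prod_apply hsm).symm
  rw [h2, Measure.prod_apply_symm hsm]
  have h3 : ∀ y : E d, volume ((fun x : ℝ => (x, y)) ⁻¹' s)
      = (ball p (ρ * t)).indicator (fun _ => ENNReal.ofReal (2 * τ)) y := by
    intro y
    by_cases hy : y ∈ ball p (ρ * t)
    · rw [indicator_of_mem hy]
      have e1 : (fun x : ℝ => (x, y)) ⁻¹' s = Icc (f y - τ) (f y + τ) := by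
        ext l
        simp only [hs, mem_preimage, mem_Icc]
        constructor
        · rintro ⟨-, h⟩
          rw [abs_le] at h
          constructor <;> linarith
        · rintro ⟨h1, h2⟩
          refine ⟨hy, ?_⟩
          show |f y - l| ≤ τ
          rw [abs_le]
          constructor <;> linarith
      rw [e1, Real.volume_Icc]
      congr 1
      ring
    · rw [indicator_of_notMem hy]
      have e1 : (fun x : ℝ => (x, y)) ⁻¹' s = ∅ := by
        ext l
        simp only [hs, mem_preimage, mem_empty_iff_false, iff_false]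
        rintro ⟨h, -⟩
        exact hy h
      rw [e1, measure_empty]
  simp only [h3]
  rw [lintegral_indicator measurableSet_ball, setLIntegral_const,
    gamVol_ball p (by positivity), ← ENNReal.ofReal_mul (by positivity)]

theorem volume_Gam_le (d : ℕ) (hd : 0 < d) (ρ c₁ C₁ : ℝ) (hρ : 0 < ρ) (hc : 0 < c₁)
    (hC : 0 < C₁) : ∃ C : ℝ, 0 < C ∧
    ∀ (f : E d → ℝ), Continuous f → ∀ (K : ℕ) (t : ℝ), 0 < t → ∀ p : E d,
      volume (Gam f K ρ c₁ C₁ t p) ≤ ENNReal.ofReal (C / t ^ d) * NN f K ρ t (ball p (ρ * t)) := by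
  have hk : 0 ≤ kap d := gamVol_kap_nonneg d
  refine ⟨1 / c₁ + 2 * C₁ * (ρ ^ d * kap d) / c₁, by positivity, ?_⟩
  intro f hf K t ht p
  set N : ℝ≥0∞ := NN f K ρ t (ball p (ρ * t)) with hN
  have hNtop : N ≠ ⊤ := (NN_lt_top hf K ρ t p (ρ * t)).ne
  set n : ℝ := N.toReal with hn
  have hn0 : 0 ≤ n := ENNReal.toReal_nonneg
  have hNn : N = ENNReal.ofReal n := (ENNReal.ofReal_toReal hNtop).symm
  have htd : 0 < t ^ d := by positivity
  have h1 : volume {l : ℝ | ENNReal.ofReal (c₁ * t ^ d) ≤
      NN (ind l f) K ρ t (ball p (ρ * t))} ≤ ENNReal.ofReal (n / (c₁ * t ^ d)) := by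
    apply gamVol_le_of_mul_le (by positivity)
    rw [← hNn, hN, ← lintegral_NN_ind hf K ρ t measurableSet_ball]
    have hmeas : Measurable fun l : ℝ => NN (ind l f) K ρ t (ball p (ρ * t)) :=
      gamVol_measurable_NN (h := fun l => ind l f) (measurable_ind hf)
        (c := fun _ => p) measurable_const K ρ t (ρ * t)
    exact mul_meas_ge_le_lintegral₀ hmeas.aemeasurable _
  have h2 : volume {l : ℝ | ENNReal.ofReal (c₁ * t ^ d) ≤ volume {y | y ∈ ball p (ρ * t) ∧
      ENNReal.ofReal (|f y - l| * t ^ d) ≤ ENNReal.ofReal C₁ * N}} ≤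
      ENNReal.ofReal (2 * (C₁ * n / t ^ d) * ((ρ * t) ^ d * kap d) / (c₁ * t ^ d)) := by
    have e1 : ∀ l y, ENNReal.ofReal (|f y - l| * t ^ d) ≤ ENNReal.ofReal C₁ * N ↔
        |f y - l| ≤ C₁ * n / t ^ d := by
      intro l y
      rw [hNn, ← ENNReal.ofReal_mul hC.le, ENNReal.ofReal_le_ofReal_iff (by positivity),
        le_div_iff₀ htd]
    simp only [e1]
    exact gamVol_second hf hρ hc ht (by positivity) p
  calc volume (Gam f K ρ c₁ C₁ t p) ≤ _ := measure_union_le _ _
    _ ≤ ENNReal.ofReal (n / (c₁ * t ^ d)) +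
        ENNReal.ofReal (2 * (C₁ * n / t ^ d) * ((ρ * t) ^ d * kap d) / (c₁ * t ^ d)) :=
        add_le_add h1 h2
    _ = ENNReal.ofReal ((1 / c₁ + 2 * C₁ * (ρ ^ d * kap d) / c₁) / t ^ d * n) := by
        rw [← ENNReal.ofReal_add (by positivity) (by positivity)]
        congr 1
        rw [mul_pow]
        field_simp
    _ = _ := by
        rw [hNn, ENNReal.ofReal_mul (by positivity)]

/-- joint measurability in `(p, l)`. -/
theorem measurableSet_Gam {d : ℕ} {f : E d → ℝ} (hf : Continuous f) (K : ℕ) (ρ c₁ C₁ t : ℝ) :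
    MeasurableSet {q : E d × ℝ | q.2 ∈ Gam f K ρ c₁ C₁ t q.1} := by
  have h1 : MeasurableSet {q : E d × ℝ | ENNReal.ofReal (c₁ * t ^ d) ≤
      NN (ind q.2 f) K ρ t (ball q.1 (ρ * t))} := by
    have hm : Measurable fun q : (E d × ℝ) × E d => ind q.1.2 f q.2 := by
      have : Measurable fun q : (E d × ℝ) × E d => (q.1.2, q.2) := by fun_prop
      exact (measurable_ind hf).comp this
    exact measurableSet_le measurable_const
      (gamVol_measurable_NN (h := fun q : E d × ℝ => ind q.2 f) hm (c := fun q => q.1)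
        measurable_fst K ρ t (ρ * t))
  have h2 : MeasurableSet {q : E d × ℝ | ENNReal.ofReal (c₁ * t ^ d) ≤
      volume {y | y ∈ ball q.1 (ρ * t) ∧
      ENNReal.ofReal (|f y - q.2| * t ^ d) ≤
        ENNReal.ofReal C₁ * NN f K ρ t (ball q.1 (ρ * t))}} := by
    have hNm : Measurable fun q : E d × ℝ => NN f K ρ t (ball q.1 (ρ * t)) := by
      have hm : Measurable fun q : (E d × ℝ) × E d => f q.2 := hf.measurable.comp measurable_snd
      exact gamVol_measurable_NN (h := fun _ : E d × ℝ => f) hm (c := fun q => q.1)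
        measurable_fst K ρ t (ρ * t)
    have hs : MeasurableSet {r : (E d × ℝ) × E d | r.2 ∈ ball r.1.1 (ρ * t) ∧
        ENNReal.ofReal (|f r.2 - r.1.2| * t ^ d) ≤
        ENNReal.ofReal C₁ * NN f K ρ t (ball r.1.1 (ρ * t))} := by
      have h3 : MeasurableSet {r : (E d × ℝ) × E d | r.2 ∈ ball r.1.1 (ρ * t)} := by
        have h4 : Measurable fun r : (E d × ℝ) × E d => dist r.2 r.1.1 := by fun_prop
        exact measurableSet_lt h4 measurable_const
      have h5 : MeasurableSet {r : (E d × ℝ) × E d | ENNReal.ofReal (|f r.2 - r.1.2| * t ^ d) ≤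
        ENNReal.ofReal C₁ * NN f K ρ t (ball r.1.1 (ρ * t))} := by
        have h6 : Continuous fun r : (E d × ℝ) × E d => |f r.2 - r.1.2| * t ^ d := by fun_prop
        exact measurableSet_le h6.measurable.ennreal_ofReal
          ((hNm.comp measurable_fst).const_mul _)
      exact h3.inter h5
    exact measurableSet_le measurable_const (measurable_measure_prodMk_left hs)
  exact h1.union h2

theorem gamVol_swap {d : ℕ} (ρ' : ℝ) {G : E d → ℝ≥0∞} (hG : Measurable G) :
    Measurable (fun p : E d => ∫⁻ y in ball p ρ', G y) ∧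
      ∫⁻ p : E d, ∫⁻ y in ball p ρ', G y = volume (ball (0 : E d) ρ') * ∫⁻ y, G y := by
  have hs : MeasurableSet {q : E d × E d | q.2 ∈ ball q.1 ρ'} := by
    have h1 : Measurable fun q : E d × E d => dist q.2 q.1 := by fun_prop
    exact measurableSet_lt h1 measurable_const
  have hF : Measurable (({q : E d × E d | q.2 ∈ ball q.1 ρ'}).indicator
      (fun q => G q.2)) := (hG.comp measurable_snd).indicator hs
  have e1 : ∀ p : E d, ∫⁻ y in ball p ρ', G y
      = ∫⁻ y, ({q : E d × E d | q.2 ∈ ball q.1 ρ'}).indicator (fun q => G q.2) (p, y) := by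
    intro p
    rw [← lintegral_indicator measurableSet_ball]
    rfl
  constructor
  · simp only [e1]
    exact hF.lintegral_prod_right'
  · simp only [e1]
    rw [lintegral_lintegral_swap (f := fun p y =>
      ({q : E d × E d | q.2 ∈ ball q.1 ρ'}).indicator (fun q => G q.2) (p, y)) hF.aemeasurable,
      ← lintegral_const_mul _ hG]
    refine lintegral_congr fun y => ?_
    have e2 : ∀ p : E d, ({q : E d × E d | q.2 ∈ ball q.1 ρ'}).indicator (fun q => G q.2) (p, y)
        = (ball y ρ').indicator (fun _ => G y) p := by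
      intro p
      by_cases h : p ∈ ball y ρ'
      · rw [indicator_of_mem h, indicator_of_mem]
        exact mem_ball_comm.mp h
      · rw [indicator_of_notMem h, indicator_of_notMem]
        intro h2
        exact h (mem_ball_comm.mp h2)
    simp only [e2]
    rw [lintegral_indicator measurableSet_ball, setLIntegral_const, mul_comm,
      Measure.addHaar_ball_center]

/-- integrating `NN` over balls: `∫_p NN (ball p (ρ t)) dp = |ball 0 (ρ t)| NN univ`. -/
theorem lintegral_NN_ball {d : ℕ} {f : E d → ℝ} (hf : Continuous f) (K : ℕ) (ρ ρ' t : ℝ) :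
    ∫⁻ p : E d, NN f K ρ t (ball p ρ') = volume (ball (0 : E d) ρ') * NN f K ρ t univ := by
  have hinner : ∀ k : ℕ, Measurable (fun y : E d => ∫⁻ v in ball (0 : E d) ρ,
      ENNReal.ofReal (dist3 (f (y - ((k : ℝ) * t) • v)) (f y) (f (y + t • v)))) := by
    intro k
    exact gamVol_measurable_inner₀ hf k ρ t
  unfold NN
  rw [lintegral_finsetSum _ fun k _ => (gamVol_swap ρ' (hinner k)).1, Finset.mul_sum]
  refine Finset.sum_congr rfl fun k _ => ?_
  rw [(gamVol_swap ρ' (hinner k)).2, setLIntegral_univ]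

end

end Vale.Agent.P137F
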