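import Vale.Agent.Lib.P137F.LineA
import Vale.Agent.Lib.P137F.Slab

/-!
# P137F: type A points in space (fixed direction `θ`)

On a.e. line `s ↦ x + s θ` apply `lineA` to `G s = M (x + s θ)`, `g s = f (x + s θ)`, with
`A = {s | M differentiable at x + s θ, 0 < fderiv M (x+sθ) θ, inA f M Z θ (x + s θ)}` and then
`lintegral_le_of_lines` with `F = 1_{...} ofReal (fderiv M x θ)`, `H = 1_Z |fderiv f x θ|`
(`deriv g s = fderiv f (x+sθ) θ` at the a.e. point of differentiability of `f`; Rademacher).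
-/

namespace Vale.Agent.P137F

open MeasureTheory Metric Set ENNReal

noncomputable section

/-- joint measurability of the type A condition. In the quantifiers over `s` one may restrict to
rational `s` when `Z` is ... : the condition `∀ s ∈ [0,q], x + s θ ∈ Z` for open `Z` is an open
condition on `(θ, x)` (compactness of `[0,q]`), and `∀ s ∈ [0,q], M x ≤ M (x + s θ)` is closed. -/
theorem measurableSet_inA {d : ℕ} {f M : E d → ℝ} (hf : Continuous f) (hM : Continuous M)
    {Z : Set (E d)} (hZ : IsOpen Z) :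
    MeasurableSet {p : E d × E d | inA f M Z p.1 p.2} := by
  have heq : {p : E d × E d | inA f M Z p.1 p.2} =
      ⋃ q : ℚ, ({p : E d × E d | 0 < q ∧ M p.2 < f (p.2 + (q : ℝ) • p.1)} ∩
        ({p : E d × E d | ∀ s : ℝ, 0 ≤ s → s ≤ (q : ℝ) → M p.2 ≤ M (p.2 + s • p.1)} ∩
         {p : E d × E d | ∀ s ∈ Icc (0 : ℝ) (q : ℝ), p.2 + s • p.1 ∈ Z})) := by
    ext p
    simp only [inA, mem_ofPred_eq, mem_iUnion, mem_inter_iff, mem_Icc]
    constructor
    · rintro ⟨q, hq, h1, h2⟩
      exact ⟨q, ⟨hq, h1⟩, fun s h3 h4 => (h2 s h3 h4).1, fun s h3 => (h2 s h3.1 h3.2).2⟩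
    · rintro ⟨q, ⟨hq, h1⟩, h2, h3⟩
      exact ⟨q, hq, h1, fun s h4 h5 => ⟨h2 s h4 h5, h3 s ⟨h4, h5⟩⟩⟩
  rw [heq]
  refine MeasurableSet.iUnion (fun q => ?_)
  refine MeasurableSet.inter ?_ (MeasurableSet.inter ?_ ?_)
  · by_cases hq : 0 < q
    · have h1 : {p : E d × E d | 0 < q ∧ M p.2 < f (p.2 + (q : ℝ) • p.1)} =
          {p : E d × E d | M p.2 < f (p.2 + (q : ℝ) • p.1)} := by
        ext p
        simp [hq]
      rw [h1]
      exact (isOpen_lt (by fun_prop) (by fun_prop)).measurableSet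
    · have h1 : {p : E d × E d | 0 < q ∧ M p.2 < f (p.2 + (q : ℝ) • p.1)} = ∅ := by
        ext p
        simp [hq]
      rw [h1]
      exact MeasurableSet.empty
  · have h1 : {p : E d × E d | ∀ s : ℝ, 0 ≤ s → s ≤ (q : ℝ) → M p.2 ≤ M (p.2 + s • p.1)} =
        ⋂ s : ℝ, ⋂ _ : 0 ≤ s, ⋂ _ : s ≤ (q : ℝ), {p : E d × E d | M p.2 ≤ M (p.2 + s • p.1)} := by
      ext p
      simp
    rw [h1]
    refine IsClosed.measurableSet ?_
    refine isClosed_iInter (fun s => isClosed_iInter (fun _ => isClosed_iInter (fun _ => ?_)))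
    exact isClosed_le (by fun_prop) (by fun_prop)
  · refine IsOpen.measurableSet ?_
    rw [isOpen_iff_eventually]
    intro p hp
    refine isCompact_Icc.eventually_forall_of_forall_eventually
      (P := fun (p : E d × E d) (s : ℝ) => p.2 + s • p.1 ∈ Z) ?_
    intro s hs
    have hc : Continuous (fun z : (E d × E d) × ℝ => z.1.2 + z.2 • z.1.1) := by fun_prop
    exact (hZ.preimage hc).mem_nhds (hp s hs)

theorem typeA {d : ℕ} {f M : E d → ℝ} (h : MaxPair f M) {Z : Set (E d)} (hZ : IsOpen Z)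
    (θ : E d) (hθ : θ ≠ 0) :
    ∫⁻ x in {x | inA f M Z θ x}, ENNReal.ofReal (fderiv ℝ M x θ) ≤
      ∫⁻ x in Z, ENNReal.ofReal |fderiv ℝ f x θ| := by
  obtain ⟨Kf, hKf⟩ := h.lip_f
  obtain ⟨KM, hKM⟩ := h.lip_M
  have hfc : Continuous f := hKf.continuous
  have hMc : Continuous M := hKM.continuous
  have hSm : MeasurableSet {x | inA f M Z θ x} := by
    have h1 : {x | inA f M Z θ x} =
        (fun x : E d => ((θ, x) : E d × E d)) ⁻¹' {p : E d × E d | inA f M Z p.1 p.2} := rfl
    rw [h1]
    exact (measurableSet_inA hfc hMc hZ).preimage (by fun_prop)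
  rw [← lintegral_indicator hSm, ← lintegral_indicator hZ.measurableSet]
  have hFm : Measurable ({x | inA f M Z θ x}.indicator
      (fun x => ENNReal.ofReal (fderiv ℝ M x θ))) :=
    ((measurable_fderiv_apply_const ℝ M θ).ennreal_ofReal).indicator hSm
  have hHm : Measurable (Z.indicator (fun x => ENNReal.ofReal |fderiv ℝ f x θ|)) := by
    refine Measurable.indicator ?_ hZ.measurableSet
    exact ((measurable_fderiv_apply_const ℝ f θ).abs).ennreal_ofReal
  refine lintegral_le_of_lines _ _ hFm hHm θ hθ ?_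
  have hrad : ∀ᵐ x : E d, DifferentiableAt ℝ f x := hKf.ae_differentiableAt
  filter_upwards [ae_line _ hrad θ] with x hx
  -- the line
  have hline : ∀ s : ℝ, HasDerivAt (fun s : ℝ => x + s • θ) θ s := by
    intro s
    have h1 := ((hasDerivAt_id s).smul_const θ).const_add x
    simpa using h1
  have hlip : ∃ K, LipschitzWith K (fun s : ℝ => x + s • θ) := by
    refine ⟨‖θ‖₊, LipschitzWith.of_dist_le_mul ?_⟩
    intro s t
    rw [dist_add_left, dist_eq_norm, ← sub_smul, norm_smul, coe_nnnorm, mul_comm, ← dist_eq_norm]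
  obtain ⟨Kl, hKl⟩ := hlip
  have hder : ∀ (u : E d → ℝ) (s : ℝ), DifferentiableAt ℝ u (x + s • θ) →
      HasDerivAt (fun s : ℝ => u (x + s • θ)) (fderiv ℝ u (x + s • θ) θ) s := by
    intro u s hu
    exact hu.hasFDerivAt.comp_hasDerivAt s (hline s)
  have hlc : Continuous (fun s : ℝ => x + s • θ) := by fun_prop
  set A : Set ℝ := {s | inA f M Z θ (x + s • θ) ∧ 0 < fderiv ℝ M (x + s • θ) θ} with hAdef
  have hAm : MeasurableSet A := by
    refine MeasurableSet.inter ?_ ?_
    · exact hSm.preimage hlc.measurable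
    · exact measurableSet_lt measurable_const
        ((measurable_fderiv_apply_const ℝ M θ).comp hlc.measurable)
  have hdiff : ∀ s ∈ A, DifferentiableAt ℝ M (x + s • θ) := by
    intro s hs
    by_contra hc
    have h1 := hs.2
    rw [fderiv_zero_of_not_differentiableAt hc] at h1
    simp at h1
  have key := lineA (fun s => M (x + s • θ)) (fun s => f (x + s • θ)) ⟨_, hKM.comp hKl⟩
    ⟨_, hKf.comp hKl⟩ (fun s => h.le _) {s | x + s • θ ∈ Z} (hZ.preimage hlc) A hAm (by
      intro s hs
      have h1 := hder M s (hdiff s hs)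
      refine ⟨h1.differentiableAt, ?_, ?_⟩
      · rw [h1.deriv]
        exact hs.2
      · obtain ⟨q, hq, h2, h3⟩ := hs.1
        refine ⟨(q : ℝ), by exact_mod_cast hq, ?_, ?_⟩
        · rw [add_smul, ← add_assoc]
          exact h2
        · intro s' h4 h5
          have h6 := h3 s' h4 h5
          simp only [mem_ofPred_eq]
          rw [add_smul, ← add_assoc]
          exact h6)
  calc ∫⁻ s : ℝ, {x | inA f M Z θ x}.indicator (fun x => ENNReal.ofReal (fderiv ℝ M x θ))
        (x + s • θ)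
      ≤ ∫⁻ s : ℝ, A.indicator (fun s => ENNReal.ofReal (deriv (fun s => M (x + s • θ)) s)) s := by
        refine lintegral_mono (fun s => ?_)
        by_cases h1 : inA f M Z θ (x + s • θ)
        · rw [indicator_of_mem (show x + s • θ ∈ {x | inA f M Z θ x} from h1)]
          by_cases h2 : 0 < fderiv ℝ M (x + s • θ) θ
          · have h3 : s ∈ A := ⟨h1, h2⟩
            rw [indicator_of_mem h3, (hder M s (hdiff s h3)).deriv]
          · rw [ENNReal.ofReal_of_nonpos (not_lt.mp h2)]
            exact zero_le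
        · rw [indicator_of_notMem (show x + s • θ ∉ {x | inA f M Z θ x} from h1)]
          exact zero_le
    _ = ∫⁻ s in A, ENNReal.ofReal (deriv (fun s => M (x + s • θ)) s) :=
        lintegral_indicator hAm _
    _ ≤ ∫⁻ s in {s | x + s • θ ∈ Z}, ENNReal.ofReal |deriv (fun s => f (x + s • θ)) s| := key
    _ = ∫⁻ s in {s | x + s • θ ∈ Z}, ENNReal.ofReal |fderiv ℝ f (x + s • θ) θ| := by
        refine lintegral_congr_ae ?_
        refine (ae_restrict_of_ae ?_)
        filter_upwards [hx] with s hs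
        rw [(hder f s hs).deriv]
    _ = ∫⁻ s : ℝ, Z.indicator (fun x => ENNReal.ofReal |fderiv ℝ f x θ|) (x + s • θ) := by
        exact (lintegral_indicator (hZ.preimage hlc).measurableSet
          (fun s : ℝ => ENNReal.ofReal |fderiv ℝ f (x + s • θ) θ|)).symm

end

end Vale.Agent.P137F
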