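import Vale.Agent.Lib.P137F.LineB
import Vale.Agent.Lib.P137F.Slab

/-!
# P137F: type B points in space (fixed direction `θ`, scale `t`, center `p`)

On a line `s ↦ x + s θ`, `1/2 ≤ ‖θ‖ ≤ 2`, the points of `ball p (L t)` have parameters in an
interval of length `≤ 8 L t`; `lineB` gives
`∫_{s} 1_{inX} ∂_θ M ds ≤ (8 L + 1) |Γ| 1[the line meets ball p (L t)]`, and
`1[the line meets ball p (L t)] ≤ (1/t) ∫ 1_{ball p ((L+2) t)} (x + s θ) ds`.
Then `lintegral_le_of_lines`.
-/

namespace Vale.Agent.P137F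

open MeasureTheory Metric Set ENNReal

noncomputable section

/-- joint measurability of the type B condition (the condition over `s ∈ [0,t]` is closed). -/
theorem measurableSet_inX {d : ℕ} {M : E d → ℝ} (hM : Continuous M) {Γ : E d → Set ℝ}
    (hΓ : MeasurableSet {q : E d × ℝ | q.2 ∈ Γ q.1}) (t L : ℝ) :
    MeasurableSet {q : E d × E d × E d | inX M (Γ q.2.2) q.2.2 t L q.1 q.2.1} := by
  have h1 : MeasurableSet {q : E d × E d × E d | ‖q.2.1 - q.2.2‖ < L * t} := by
    apply IsOpen.measurableSet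
    apply isOpen_lt
    · fun_prop
    · fun_prop
  have h2 : MeasurableSet {q : E d × E d × E d | M q.2.1 ∈ Γ q.2.2} := by
    have hmeas : Measurable (fun q : E d × E d × E d => (q.2.2, M q.2.1)) := by
      apply Measurable.prodMk
      · fun_prop
      · exact hM.measurable.comp (by fun_prop)
    exact hmeas hΓ
  have h3 : MeasurableSet {q : E d × E d × E d |
      ∀ s : ℝ, 0 ≤ s → s ≤ t → M q.2.1 ≤ M (q.2.1 + s • q.1)} := by
    apply IsClosed.measurableSet
    have : {q : E d × E d × E d | ∀ s : ℝ, 0 ≤ s → s ≤ t → M q.2.1 ≤ M (q.2.1 + s • q.1)} =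
        ⋂ s : ℝ, ⋂ _ : 0 ≤ s, ⋂ _ : s ≤ t,
          {q : E d × E d × E d | M q.2.1 ≤ M (q.2.1 + s • q.1)} := by
      ext q
      simp only [mem_setOf_eq, mem_iInter]
    rw [this]
    refine isClosed_iInter fun s => isClosed_iInter fun _ => isClosed_iInter fun _ => ?_
    apply isClosed_le
    · exact hM.comp (by fun_prop)
    · exact hM.comp (by fun_prop)
  have : {q : E d × E d × E d | inX M (Γ q.2.2) q.2.2 t L q.1 q.2.1} =
      {q : E d × E d × E d | ‖q.2.1 - q.2.2‖ < L * t} ∩
      ({q : E d × E d × E d | M q.2.1 ∈ Γ q.2.2} ∩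
      {q : E d × E d × E d | ∀ s : ℝ, 0 ≤ s → s ≤ t → M q.2.1 ≤ M (q.2.1 + s • q.1)}) := by
    ext q
    simp only [inX, mem_setOf_eq, mem_inter_iff]
  rw [this]
  exact h1.inter (h2.inter h3)

theorem TypeB_measurableSet {d : ℕ} {M : E d → ℝ} (hM : Continuous M) {Γ : Set ℝ}
    (hΓ : MeasurableSet Γ) (p : E d) (t L : ℝ) (θ : E d) :
    MeasurableSet {x | inX M Γ p t L θ x} := by
  have h := measurableSet_inX (d := d) hM (Γ := fun _ => Γ)
    (measurable_snd hΓ) t L
  have hm : Measurable (fun x : E d => (θ, x, p)) := by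
    fun_prop
  exact hm h

/-- the estimate on one line -/
theorem TypeB_line {d : ℕ} {L : ℝ} (hL : 0 < L) {M : E d → ℝ} (hM : ∃ K, LipschitzWith K M)
    {Γ : Set ℝ} (hΓ : MeasurableSet Γ) (p : E d) {t : ℝ} (ht : 0 < t) {θ : E d}
    (hθ1 : 1 / 2 ≤ ‖θ‖) (hθ2 : ‖θ‖ ≤ 2) (x : E d) :
    ∫⁻ s : ℝ, ({x | inX M Γ p t L θ x}.indicator
      (fun y => ENNReal.ofReal (fderiv ℝ M y θ))) (x + s • θ) ≤
    ∫⁻ s : ℝ, ((ball p ((L + 2) * t)).indicator
      (fun _ => ENNReal.ofReal ((8 * L + 1) / t) * volume Γ)) (x + s • θ) := by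
  obtain ⟨K, hK⟩ := hM
  have hMc : Continuous M := hK.continuous
  set A₀ : Set (E d) := {x | inX M Γ p t L θ x} with hA₀
  have hA₀m : MeasurableSet A₀ := TypeB_measurableSet hMc hΓ p t L θ
  set G : ℝ → ℝ := fun s => M (x + s • θ) with hG
  have hline : Continuous (fun s : ℝ => x + s • θ) := by fun_prop
  set A : Set ℝ := {s | x + s • θ ∈ A₀ ∧ DifferentiableAt ℝ M (x + s • θ) ∧
    0 < fderiv ℝ M (x + s • θ) θ} with hA
  have hAm : MeasurableSet A := by
    have h1 : MeasurableSet {s : ℝ | x + s • θ ∈ A₀} := hline.measurable hA₀m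
    have h2 : MeasurableSet {s : ℝ | DifferentiableAt ℝ M (x + s • θ)} :=
      hline.measurable (measurableSet_of_differentiableAt ℝ M)
    have h3 : MeasurableSet {s : ℝ | 0 < fderiv ℝ M (x + s • θ) θ} := by
      have h4 : MeasurableSet {y : E d | 0 < fderiv ℝ M y θ} :=
        measurableSet_lt measurable_const (measurable_fderiv_apply_const ℝ M θ)
      exact hline.measurable h4
    exact h1.inter (h2.inter h3)
  have hderiv : ∀ s ∈ A, HasDerivAt G (fderiv ℝ M (x + s • θ) θ) s := by
    intro s hs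
    have h1 : HasDerivAt (fun s : ℝ => x + s • θ) θ s := by
      have := ((hasDerivAt_id s).smul_const θ).const_add x
      simpa using this
    exact hs.2.1.hasFDerivAt.comp_hasDerivAt s h1
  have hLHS : ∫⁻ s : ℝ, (A₀.indicator (fun y => ENNReal.ofReal (fderiv ℝ M y θ))) (x + s • θ) =
      ∫⁻ s in A, ENNReal.ofReal (deriv G s) := by
    rw [← lintegral_indicator hAm]
    apply lintegral_congr
    intro s
    by_cases hs : s ∈ A
    · rw [indicator_of_mem hs, indicator_of_mem hs.1, (hderiv s hs).deriv]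
    · rw [indicator_of_notMem hs]
      by_cases hs0 : x + s • θ ∈ A₀
      · rw [indicator_of_mem hs0]
        apply ENNReal.ofReal_of_nonpos
        by_contra hpos
        push Not at hpos
        apply hs
        refine ⟨hs0, ?_, hpos⟩
        by_contra hnd
        rw [fderiv_zero_of_not_differentiableAt hnd] at hpos
        simp at hpos
      · rw [indicator_of_notMem hs0]
  rw [hLHS]
  rcases A.eq_empty_or_nonempty with hempty | ⟨s₀, hs₀⟩
  · rw [hempty]
    simp
  have hnear : ∀ s ∈ A, ‖x + s • θ - p‖ < L * t := fun s hs => hs.1.1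
  have hbd : ∀ s ∈ A, |s - s₀| ≤ 4 * (L * t) := by
    intro s hs
    have h1 := hnear s hs
    have h2 := hnear s₀ hs₀
    have h3 : ‖(s - s₀) • θ‖ ≤ ‖x + s • θ - p‖ + ‖x + s₀ • θ - p‖ := by
      have : (s - s₀) • θ = (x + s • θ - p) - (x + s₀ • θ - p) := by
        rw [sub_smul]; abel
      rw [this]
      exact norm_sub_le _ _
    rw [norm_smul, Real.norm_eq_abs] at h3
    have h4 : |s - s₀| * (1 / 2) ≤ |s - s₀| * ‖θ‖ :=
      mul_le_mul_of_nonneg_left hθ1 (abs_nonneg _)
    linarith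
  have hLip : ∃ K', LipschitzWith K' G := by
    refine ⟨K * ‖θ‖₊, ?_⟩
    apply LipschitzWith.comp hK
    apply LipschitzWith.of_dist_le_mul
    intro a b
    rw [dist_add_left, dist_eq_norm, ← sub_smul, norm_smul, dist_eq_norm, mul_comm]
    rfl
  have key := lineB G hLip Γ hΓ (s₀ - 4 * (L * t)) (s₀ + 4 * (L * t)) t
    (by nlinarith [mul_pos hL ht]) ht A hAm (by
      intro s hs
      have h1 := abs_le.mp (hbd s hs)
      refine ⟨by linarith, by linarith, (hderiv s hs).differentiableAt, ?_, hs.1.2.1, ?_⟩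
      · rw [(hderiv s hs).deriv]
        exact hs.2.2
      · intro s' h0 h1
        have h2 := hs.1.2.2 s' h0 h1
        have h3 : x + s • θ + s' • θ = x + (s + s') • θ := by
          rw [add_smul]; abel
        rw [h3] at h2
        exact h2)
  have hconst : (s₀ + 4 * (L * t) - (s₀ - 4 * (L * t))) / t + 1 = 8 * L + 1 := by
    field_simp
    ring
  rw [hconst] at key
  refine key.trans ?_
  have hsub : ∀ s ∈ Icc s₀ (s₀ + t), x + s • θ ∈ ball p ((L + 2) * t) := by
    intro s hs
    rw [mem_ball, dist_eq_norm]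
    have h1 : x + s • θ - p = (x + s₀ • θ - p) + (s - s₀) • θ := by
      rw [sub_smul]; abel
    rw [h1]
    refine lt_of_le_of_lt (norm_add_le _ _) ?_
    rw [norm_smul, Real.norm_eq_abs, abs_of_nonneg (by linarith [hs.1])]
    have h2 := hnear s₀ hs₀
    have h3 : (s - s₀) * ‖θ‖ ≤ t * 2 :=
      mul_le_mul (by linarith [hs.2]) hθ2 (norm_nonneg _) ht.le
    linarith
  calc ENNReal.ofReal (8 * L + 1) * volume Γ
      = (ENNReal.ofReal ((8 * L + 1) / t) * volume Γ) * ENNReal.ofReal t := by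
        rw [mul_right_comm, ← ENNReal.ofReal_mul (by positivity), div_mul_cancel₀ _ ht.ne']
    _ = ∫⁻ _ in Icc s₀ (s₀ + t), ENNReal.ofReal ((8 * L + 1) / t) * volume Γ := by
        rw [setLIntegral_const, Real.volume_Icc]
        congr 2
        ring
    _ = ∫⁻ s : ℝ, (Icc s₀ (s₀ + t)).indicator
          (fun _ => ENNReal.ofReal ((8 * L + 1) / t) * volume Γ) s := by
        rw [lintegral_indicator measurableSet_Icc]
    _ ≤ _ := by
        apply lintegral_mono
        intro s
        by_cases hs : s ∈ Icc s₀ (s₀ + t)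
        · simp only
          rw [indicator_of_mem hs, indicator_of_mem (hsub s hs)]
        · rw [indicator_of_notMem hs]
          exact bot_le

theorem typeB (d : ℕ) (hd : 0 < d) (L : ℝ) (hL : 0 < L) : ∃ C : ℝ, 0 < C ∧
    ∀ (M : E d → ℝ), (∃ K, LipschitzWith K M) → ∀ (Γ : Set ℝ), MeasurableSet Γ →
      ∀ (p : E d) (t : ℝ), 0 < t → ∀ θ : E d, 1 / 2 ≤ ‖θ‖ → ‖θ‖ ≤ 2 →
      ∫⁻ x in {x | inX M Γ p t L θ x}, ENNReal.ofReal (fderiv ℝ M x θ) ≤
        ENNReal.ofReal (C * (t ^ d / t)) * volume Γ := by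
  have hkap : 0 < kap d := by
    unfold kap
    exact ENNReal.toReal_pos (measure_ball_pos volume (0 : E d) one_pos).ne'
      measure_ball_lt_top.ne
  refine ⟨(8 * L + 1) * (L + 2) ^ d * kap d, by positivity, ?_⟩
  intro M hM Γ hΓ p t ht θ hθ1 hθ2
  have hMc : Continuous M := hM.choose_spec.continuous
  have hA₀m : MeasurableSet {x | inX M Γ p t L θ x} := TypeB_measurableSet hMc hΓ p t L θ
  have hθ : θ ≠ 0 := by
    intro h
    rw [h, norm_zero] at hθ1
    linarith
  rw [← lintegral_indicator hA₀m]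
  have hF : Measurable ({x | inX M Γ p t L θ x}.indicator
      (fun y => ENNReal.ofReal (fderiv ℝ M y θ))) :=
    (ENNReal.measurable_ofReal.comp (measurable_fderiv_apply_const ℝ M θ)).indicator hA₀m
  have hH : Measurable ((ball p ((L + 2) * t)).indicator
      (fun _ : E d => ENNReal.ofReal ((8 * L + 1) / t) * volume Γ)) :=
    measurable_const.indicator measurableSet_ball
  refine (lintegral_le_of_lines _ _ hF hH θ hθ
    (Filter.Eventually.of_forall fun x => TypeB_line hL hM hΓ p ht hθ1 hθ2 x)).trans ?_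
  rw [lintegral_indicator measurableSet_ball, setLIntegral_const,
    Measure.addHaar_ball_of_pos volume p (by positivity)]
  have hfin : volume (ball (0 : E d) 1) = ENNReal.ofReal (kap d) := by
    unfold kap
    rw [measureReal_def, ENNReal.ofReal_toReal measure_ball_lt_top.ne]
  rw [hfin, finrank_euclideanSpace_fin, ← ENNReal.ofReal_mul (by positivity), mul_right_comm,
    ← ENNReal.ofReal_mul (by positivity)]
  apply le_of_eq
  congr 2
  rw [mul_pow]
  field_simp

end

end Vale.Agent.P137F
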