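import Vale.Agent.Lib.P137F.Local
import Vale.Agent.Lib.P137F.TypeA
import Vale.Agent.Lib.P137F.TypeB
import Vale.Agent.Lib.P137F.GamVol
import Vale.Agent.Lib.P137F.ContactGrad
import Vale.Agent.Lib.P137F.Defect

/-!
# P137F: core estimate

For a.e. `x ∈ X` with contact ball `(z, r)`, `2^n ≤ r < 2^(n+1)`, `ν = ∇M/‖∇M‖`: `local_scaled` gives
either `M x ∈ Gam ... (2^n) p` for all `p ∈ ball z (2^n)`, and then `inX M (Gam p) p (2^n) 3 θ x` for all
`θ ∈ ball ν (1/1000)` and all such `p`, or `θ ∈ ball ν (1/1000)` is of type A for a set of measure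
`≥ η`.  Since `fderiv M x θ ≥ ‖fderiv M x‖/2` for those `θ`,
`c ‖fderiv M x‖ ≤ ∫_{θ ∈ ball 0 2, ‖θ‖ ≥ 1/2} (∂_θ M x)₊ [1_{inA}(θ,x) +
   ∑_{n ∈ Sc} (2^n)^{-d} ∫_p 1_{inX M (Gam p) p (2^n) 3 θ x} dp] dθ`.
Integrate over `x` (Tonelli), use `typeA`, `typeB`, `volume_Gam_le`, `lintegral_NN_ball`.
-/

namespace Vale.Agent.P137F

open MeasureTheory Metric Set ENNReal Filter Topology

noncomputable section

/-- the annulus of directions -/
def coreAnn (d : ℕ) : Set (E d) := {θ | 1 / 2 ≤ ‖θ‖ ∧ ‖θ‖ ≤ 2}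

theorem measurableSet_coreAnn (d : ℕ) : MeasurableSet (coreAnn d) := by
  apply IsClosed.measurableSet
  exact (isClosed_le continuous_const continuous_norm).inter
    (isClosed_le continuous_norm continuous_const)

theorem volume_coreAnn_lt (d : ℕ) : volume (coreAnn d) < ⊤ := by
  refine lt_of_le_of_lt (measure_mono ?_) (measure_closedBall_lt_top (x := (0 : E d)) (r := 2))
  intro θ hθ
  rw [mem_closedBall_zero_iff]
  exact hθ.2

theorem ball_subset_coreAnn {d : ℕ} {ν : E d} (hν : ‖ν‖ = 1) :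
    ball ν (1 / 1000) ⊆ coreAnn d := by
  intro θ hθ
  rw [mem_ball, dist_eq_norm] at hθ
  have h1 := norm_sub_norm_le θ ν
  have h2 := norm_sub_norm_le ν θ
  rw [norm_sub_rev] at h2
  constructor <;> linarith

/-- the set of pairs of type A -/
def coreSA {d : ℕ} (f M : E d → ℝ) (Z : Set (E d)) : Set (E d × E d) := {q | inA f M Z q.1 q.2}

/-- the set of triples of type B -/
def coreSB {d : ℕ} (M : E d → ℝ) (Γ : E d → Set ℝ) (t : ℝ) : Set (E d × E d × E d) :=
  {q | inX M (Γ q.2.2) q.2.2 t 3 q.1 q.2.1}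

/-- the directional derivative -/
def coreG {d : ℕ} (M : E d → ℝ) (θ x : E d) : ℝ≥0∞ := ENNReal.ofReal (fderiv ℝ M x θ)

/-- integrand, type A -/
def coreFA {d : ℕ} (f M : E d → ℝ) (Z : Set (E d)) : E d × E d → ℝ≥0∞ :=
  (coreSA f M Z).indicator fun q => coreG M q.1 q.2

/-- integrand, type B -/
def coreFB {d : ℕ} (M : E d → ℝ) (Γ : E d → Set ℝ) (t : ℝ) : E d × E d × E d → ℝ≥0∞ :=
  (coreSB M Γ t).indicator fun q => coreG M q.1 q.2.1

/-- the functional counting type A directions -/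
def corePsiA {d : ℕ} (f M : E d → ℝ) (Z : Set (E d)) (x : E d) : ℝ≥0∞ :=
  ∫⁻ θ in coreAnn d, coreFA f M Z (θ, x)

/-- the functional counting type B directions -/
def corePsiB {d : ℕ} (M : E d → ℝ) (Γ : E d → Set ℝ) (t : ℝ) (x : E d) : ℝ≥0∞ :=
  ∫⁻ θ in coreAnn d, ∫⁻ p, coreFB M Γ t (θ, x, p)

theorem core_measurable_g {d : ℕ} (M : E d → ℝ) :
    Measurable fun q : E d × E d => coreG M q.1 q.2 := by
  apply Measurable.ennreal_ofReal
  have h1 : Measurable fun q : E d × E d => (fderiv ℝ M q.2, q.1) :=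
    ((measurable_fderiv ℝ M).comp measurable_snd).prodMk measurable_fst
  exact (ContinuousLinearMap.measurable_apply₂ (𝕜 := ℝ) (E := E d) (F := ℝ)).comp h1

theorem core_measurable_A {d : ℕ} {f M : E d → ℝ} (hf : Continuous f) (hM : Continuous M)
    {Z : Set (E d)} (hZ : IsOpen Z) : Measurable (coreFA f M Z) :=
  (core_measurable_g M).indicator (measurableSet_inA hf hM hZ)

theorem core_measurable_B {d : ℕ} {M : E d → ℝ} (hM : Continuous M) {Γ : E d → Set ℝ}
    (hΓ : MeasurableSet {q : E d × ℝ | q.2 ∈ Γ q.1}) (t : ℝ) : Measurable (coreFB M Γ t) := by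
  refine Measurable.indicator ?_ (measurableSet_inX hM hΓ t 3)
  exact (core_measurable_g M).comp
    (measurable_fst.prodMk (measurable_fst.comp measurable_snd))

theorem measurable_corePsiA {d : ℕ} {f M : E d → ℝ} (hf : Continuous f) (hM : Continuous M)
    {Z : Set (E d)} (hZ : IsOpen Z) : Measurable (corePsiA f M Z) :=
  (core_measurable_A hf hM hZ).lintegral_prod_left'

theorem core_measurable_B' {d : ℕ} {M : E d → ℝ} (hM : Continuous M) {Γ : E d → Set ℝ}
    (hΓ : MeasurableSet {q : E d × ℝ | q.2 ∈ Γ q.1}) (t : ℝ) :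
    Measurable fun q : E d × E d => ∫⁻ p, coreFB M Γ t (q.1, q.2, p) := by
  have h1 : Measurable fun q : (E d × E d) × E d => coreFB M Γ t (q.1.1, q.1.2, q.2) :=
    (core_measurable_B hM hΓ t).comp ((measurable_fst.comp measurable_fst).prodMk
      ((measurable_snd.comp measurable_fst).prodMk measurable_snd))
  exact h1.lintegral_prod_right'

theorem measurable_corePsiB {d : ℕ} {M : E d → ℝ} (hM : Continuous M) {Γ : E d → Set ℝ}
    (hΓ : MeasurableSet {q : E d × ℝ | q.2 ∈ Γ q.1}) (t : ℝ) :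
    Measurable (corePsiB M Γ t) :=
  (core_measurable_B' hM hΓ t).lintegral_prod_left'

/-- the section of the type A integrand -/
theorem core_section_A {d : ℕ} {f M : E d → ℝ} (hf : Continuous f) (hM : Continuous M)
    {Z : Set (E d)} (hZ : IsOpen Z) (θ : E d) :
    ∫⁻ x, coreFA f M Z (θ, x) =
      ∫⁻ x in {x | inA f M Z θ x}, ENNReal.ofReal (fderiv ℝ M x θ) := by
  have hms : MeasurableSet {x | inA f M Z θ x} :=
    (measurableSet_inA hf hM hZ).preimage (measurable_prodMk_left (x := θ))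
  rw [← lintegral_indicator hms]
  apply lintegral_congr
  intro x
  by_cases hx : inA f M Z θ x
  · rw [indicator_of_mem (show x ∈ {x | inA f M Z θ x} from hx)]
    exact indicator_of_mem (show (θ, x) ∈ coreSA f M Z from hx) _
  · rw [indicator_of_notMem (show x ∉ {x | inA f M Z θ x} from hx)]
    exact indicator_of_notMem (show (θ, x) ∉ coreSA f M Z from hx) _

/-- the section of the type B integrand -/
theorem core_section_B {d : ℕ} {M : E d → ℝ} (hM : Continuous M) {Γ : E d → Set ℝ}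
    (hΓ : MeasurableSet {q : E d × ℝ | q.2 ∈ Γ q.1}) (t : ℝ) (θ p : E d) :
    ∫⁻ x, coreFB M Γ t (θ, x, p) =
      ∫⁻ x in {x | inX M (Γ p) p t 3 θ x}, ENNReal.ofReal (fderiv ℝ M x θ) := by
  have hSB : MeasurableSet (coreSB M Γ t) := measurableSet_inX hM hΓ t 3
  have hm : Measurable (fun x : E d => ((θ, x, p) : E d × E d × E d)) :=
    measurable_const.prodMk (measurable_id.prodMk measurable_const)
  have hms : MeasurableSet {x | inX M (Γ p) p t 3 θ x} := hm hSB
  rw [← lintegral_indicator hms]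
  apply lintegral_congr
  intro x
  by_cases hx : inX M (Γ p) p t 3 θ x
  · rw [indicator_of_mem (show x ∈ {x | inX M (Γ p) p t 3 θ x} from hx)]
    exact indicator_of_mem (show (θ, x, p) ∈ coreSB M Γ t from hx) _
  · rw [indicator_of_notMem (show x ∉ {x | inX M (Γ p) p t 3 θ x} from hx)]
    exact indicator_of_notMem (show (θ, x, p) ∉ coreSB M Γ t from hx) _

/-- upper bound, type A -/
theorem lintegral_corePsiA_le {d : ℕ} {f M : E d → ℝ} (h : MaxPair f M) {Z : Set (E d)}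
    (hZ : IsOpen Z) :
    ∫⁻ x, corePsiA f M Z x ≤
      volume (coreAnn d) * (ENNReal.ofReal 2 * ∫⁻ x in Z, ENNReal.ofReal ‖fderiv ℝ f x‖) := by
  have hf : Continuous f := by
    obtain ⟨K, hK⟩ := h.lip_f
    exact hK.continuous
  have hM : Continuous M := by
    obtain ⟨K, hK⟩ := h.lip_M
    exact hK.continuous
  unfold corePsiA
  rw [lintegral_lintegral_swap (f := fun x θ => coreFA f M Z (θ, x))
    ((core_measurable_A hf hM hZ).comp measurable_swap).aemeasurable]
  have hpt : ∀ θ ∈ coreAnn d, ∫⁻ x, coreFA f M Z (θ, x)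
      ≤ ENNReal.ofReal 2 * ∫⁻ x in Z, ENNReal.ofReal ‖fderiv ℝ f x‖ := by
    intro θ hθ
    have hθ0 : θ ≠ 0 := by
      rintro rfl
      have := hθ.1
      rw [norm_zero] at this
      norm_num at this
    rw [core_section_A hf hM hZ]
    refine (typeA h hZ θ hθ0).trans ?_
    rw [← lintegral_const_mul' _ _ ENNReal.ofReal_ne_top]
    apply lintegral_mono
    intro x
    show ENNReal.ofReal |fderiv ℝ f x θ| ≤ ENNReal.ofReal 2 * ENNReal.ofReal ‖fderiv ℝ f x‖
    rw [← ENNReal.ofReal_mul (by norm_num)]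
    apply ENNReal.ofReal_le_ofReal
    have e3 := (fderiv ℝ f x).le_opNorm θ
    rw [Real.norm_eq_abs] at e3
    refine e3.trans ?_
    rw [mul_comm]
    exact mul_le_mul_of_nonneg_right hθ.2 (norm_nonneg _)
  calc ∫⁻ θ in coreAnn d, ∫⁻ x, coreFA f M Z (θ, x)
      ≤ ∫⁻ _ in coreAnn d, (ENNReal.ofReal 2 * ∫⁻ x in Z, ENNReal.ofReal ‖fderiv ℝ f x‖) :=
        setLIntegral_mono' (measurableSet_coreAnn d) hpt
    _ = volume (coreAnn d) * (ENNReal.ofReal 2 * ∫⁻ x in Z, ENNReal.ofReal ‖fderiv ℝ f x‖) := by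
        rw [setLIntegral_const, mul_comm]

/-- upper bound, type B -/
theorem lintegral_corePsiB_le {d : ℕ} {M : E d → ℝ} (hMl : ∃ K, LipschitzWith K M)
    {Γ : E d → Set ℝ} (hΓ : MeasurableSet {q : E d × ℝ | q.2 ∈ Γ q.1}) (t B : ℝ)
    (hB : ∀ Γ' : Set ℝ, MeasurableSet Γ' → ∀ p θ : E d, 1 / 2 ≤ ‖θ‖ → ‖θ‖ ≤ 2 →
      ∫⁻ x in {x | inX M Γ' p t 3 θ x}, ENNReal.ofReal (fderiv ℝ M x θ) ≤
        ENNReal.ofReal B * volume Γ') :
    ∫⁻ x, corePsiB M Γ t x ≤ volume (coreAnn d) * (ENNReal.ofReal B * ∫⁻ p, volume (Γ p)) := by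
  have hM : Continuous M := by
    obtain ⟨K, hK⟩ := hMl
    exact hK.continuous
  unfold corePsiB
  rw [lintegral_lintegral_swap (f := fun x θ => ∫⁻ p, coreFB M Γ t (θ, x, p))
    ((core_measurable_B' hM hΓ t).comp measurable_swap).aemeasurable]
  have hpt : ∀ θ ∈ coreAnn d, ∫⁻ x, ∫⁻ p, coreFB M Γ t (θ, x, p)
      ≤ ENNReal.ofReal B * ∫⁻ p, volume (Γ p) := by
    intro θ hθ
    rw [lintegral_lintegral_swap (f := fun x p => coreFB M Γ t (θ, x, p))
      ((core_measurable_B hM hΓ t).comp (measurable_prodMk_left (x := θ))).aemeasurable]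
    rw [← lintegral_const_mul' _ _ ENNReal.ofReal_ne_top]
    apply lintegral_mono
    intro p
    show ∫⁻ x, coreFB M Γ t (θ, x, p) ≤ ENNReal.ofReal B * volume (Γ p)
    rw [core_section_B hM hΓ]
    exact hB (Γ p) (hΓ.preimage (measurable_prodMk_left (x := p))) p θ hθ.1 hθ.2
  calc ∫⁻ θ in coreAnn d, ∫⁻ x, ∫⁻ p, coreFB M Γ t (θ, x, p)
      ≤ ∫⁻ _ in coreAnn d, (ENNReal.ofReal B * ∫⁻ p, volume (Γ p)) :=
        setLIntegral_mono' (measurableSet_coreAnn d) hpt
    _ = volume (coreAnn d) * (ENNReal.ofReal B * ∫⁻ p, volume (Γ p)) := by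
        rw [setLIntegral_const, mul_comm]

/-- lower bound, type A -/
theorem core_lower_A {d : ℕ} {f M : E d → ℝ} (h : MaxPair f M) {Z : Set (E d)}
    (hZ : IsOpen Z) {x ν : E d} (hν : ‖ν‖ = 1)
    (hder : ∀ θ : E d, fderiv ℝ M x θ = ‖fderiv ℝ M x‖ * inner ℝ ν θ) {η : ℝ}
    (hη : ENNReal.ofReal η ≤ volume {θ | θ ∈ ball ν (1 / 1000) ∧ inA f M Z θ x}) :
    ENNReal.ofReal (‖fderiv ℝ M x‖ / 2) * ENNReal.ofReal η ≤ corePsiA f M Z x := by
  have hf : Continuous f := by
    obtain ⟨K, hK⟩ := h.lip_f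
    exact hK.continuous
  have hM : Continuous M := by
    obtain ⟨K, hK⟩ := h.lip_M
    exact hK.continuous
  set S : Set (E d) := {θ | θ ∈ ball ν (1 / 1000) ∧ inA f M Z θ x} with hS
  have hSm : MeasurableSet S :=
    measurableSet_ball.inter ((measurableSet_inA hf hM hZ).preimage
      (measurable_prodMk_right (y := x)))
  have hSA : S ⊆ coreAnn d := fun θ hθ => ball_subset_coreAnn hν hθ.1
  calc ENNReal.ofReal (‖fderiv ℝ M x‖ / 2) * ENNReal.ofReal η
      ≤ ENNReal.ofReal (‖fderiv ℝ M x‖ / 2) * volume S := by gcongr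
    _ = ∫⁻ _ in S, ENNReal.ofReal (‖fderiv ℝ M x‖ / 2) := by rw [setLIntegral_const]
    _ ≤ ∫⁻ θ in S, coreFA f M Z (θ, x) := by
        apply setLIntegral_mono' hSm
        intro θ hθ
        unfold coreFA
        rw [indicator_of_mem (show (θ, x) ∈ coreSA f M Z from hθ.2)]
        apply ENNReal.ofReal_le_ofReal
        show _ ≤ fderiv ℝ M x θ
        rw [hder θ]
        have := inner_ge hν hθ.1
        have h0 := norm_nonneg (fderiv ℝ M x)
        nlinarith
    _ ≤ corePsiA f M Z x := lintegral_mono_set hSA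

/-- lower bound, type B -/
theorem core_lower_B {d : ℕ} {M : E d → ℝ} {Γ : E d → Set ℝ} {x z ν : E d} {t : ℝ} (ht : 0 < t)
    (hν : ‖ν‖ = 1)
    (hder : ∀ θ : E d, fderiv ℝ M x θ = ‖fderiv ℝ M x‖ * inner ℝ ν θ)
    (hxz : ‖x - z‖ ≤ 2 * t)
    (hray : ∀ θ ∈ ball ν (1 / 1000), ∀ s : ℝ, 0 ≤ s → s ≤ t → M x ≤ M (x + s • θ))
    (hG : ∀ p ∈ ball z t, M x ∈ Γ p) :
    ENNReal.ofReal (‖fderiv ℝ M x‖ / 2) * (volume (ball (0 : E d) (1 / 1000)) *
      (ENNReal.ofReal (t ^ d) * volume (ball (0 : E d) 1))) ≤ corePsiB M Γ t x := by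
  have hvt : volume (ball z t) = ENNReal.ofReal (t ^ d) * volume (ball (0 : E d) 1) := by
    rw [Measure.addHaar_ball_of_pos _ _ ht, finrank_euclideanSpace_fin]
  have hv0 : volume (ball ν (1 / 1000)) = volume (ball (0 : E d) (1 / 1000)) := by
    rw [Measure.addHaar_ball_center]
  calc ENNReal.ofReal (‖fderiv ℝ M x‖ / 2) * (volume (ball (0 : E d) (1 / 1000)) *
        (ENNReal.ofReal (t ^ d) * volume (ball (0 : E d) 1)))
      = ∫⁻ _ in ball ν (1 / 1000), ∫⁻ _ in ball z t, ENNReal.ofReal (‖fderiv ℝ M x‖ / 2) := by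
        rw [setLIntegral_const, setLIntegral_const, hvt, hv0]
        ring
    _ ≤ ∫⁻ θ in ball ν (1 / 1000), ∫⁻ p, coreFB M Γ t (θ, x, p) := by
        apply setLIntegral_mono' measurableSet_ball
        intro θ hθ
        refine le_trans ?_ (setLIntegral_le_lintegral (ball z t) _)
        apply setLIntegral_mono' measurableSet_ball
        intro p hp
        have hmem : (θ, x, p) ∈ coreSB M Γ t := by
          refine ⟨?_, hG p hp, hray θ hθ⟩
          show ‖x - p‖ < 3 * t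
          rw [mem_ball, dist_eq_norm] at hp
          have e1 := norm_add_le (x - z) (z - p)
          rw [sub_add_sub_cancel] at e1
          rw [norm_sub_rev] at hp
          linarith
        unfold coreFB
        rw [indicator_of_mem hmem]
        apply ENNReal.ofReal_le_ofReal
        show _ ≤ fderiv ℝ M x θ
        rw [hder θ]
        have := inner_ge hν hθ
        have h0 := norm_nonneg (fderiv ℝ M x)
        nlinarith
    _ ≤ corePsiB M Γ t x := lintegral_mono_set (ball_subset_coreAnn hν)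


theorem core_gen (d : ℕ) (hd : 0 < d) : ∃ (K : ℕ) (ρ C : ℝ), 1 ≤ K ∧ 1 ≤ ρ ∧ 0 < C ∧
    ∀ (f M : E d → ℝ), MaxPair f M → ∀ (Z : Set (E d)), IsOpen Z → ∀ (Sc : Set ℤ) (X : Set (E d)),
      (∀ x ∈ X, ∃ (z : E d) (r : ℝ) (n : ℤ), Contact f M x z r ∧ n ∈ Sc ∧ (2 : ℝ) ^ n ≤ r ∧
        r ≤ 2 * (2 : ℝ) ^ n ∧ ball x (ρ * r) ⊆ Z) →
      ∫⁻ x in X, ENNReal.ofReal ‖fderiv ℝ M x‖ ≤
        ENNReal.ofReal C * ((∫⁻ x in Z, ENNReal.ofReal ‖fderiv ℝ f x‖) +
          ∑' n : ℤ, Sc.indicator (fun n => ENNReal.ofReal ((2 : ℝ) ^ (-n)) *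
            NN f K ρ ((2 : ℝ) ^ n) univ) n) := by
  obtain ⟨K, ρ, c₁, C₁, η, hK, hρ, hc₁, hC₁, hη, hloc⟩ := local_scaled d hd
  obtain ⟨CG, hCG, hGam⟩ := volume_Gam_le d hd ρ c₁ C₁ (by linarith) hc₁ hC₁
  obtain ⟨CB, hCB, hTB⟩ := typeB d hd 3 (by norm_num)
  set κ : ℝ := volume.real (ball (0 : E d) 1) with hκ
  set v₀ : ℝ := volume.real (ball (0 : E d) (1 / 1000)) with hv₀
  set vA : ℝ := volume.real (coreAnn d) with hvA
  have hκ0 : 0 < κ := ENNReal.toReal_pos (measure_ball_pos _ _ one_pos).ne' measure_ball_lt_top.ne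
  have hv₀0 : 0 < v₀ :=
    ENNReal.toReal_pos (measure_ball_pos _ _ (by norm_num)).ne' measure_ball_lt_top.ne
  have hvA0 : 0 ≤ vA := ENNReal.toReal_nonneg
  have hκE : volume (ball (0 : E d) 1) = ENNReal.ofReal κ :=
    (ENNReal.ofReal_toReal measure_ball_lt_top.ne).symm
  have hv₀E : volume (ball (0 : E d) (1 / 1000)) = ENNReal.ofReal v₀ :=
    (ENNReal.ofReal_toReal measure_ball_lt_top.ne).symm
  have hvAE : volume (coreAnn d) = ENNReal.ofReal vA :=
    (ENNReal.ofReal_toReal (volume_coreAnn_lt d).ne).symm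
  set c : ℝ := min η (v₀ * κ) / 2 with hc
  have hc0 : 0 < c := by positivity
  set C' : ℝ := vA * (2 + CB * CG * ρ ^ d * κ) with hC'
  have hρ0 : 0 < ρ := by linarith
  have hC'0 : 0 ≤ C' := by positivity
  refine ⟨K, ρ, C' / c + 1, hK, hρ, by positivity, fun f M h Z hZ Sc X hX => ?_⟩
  have hf : Continuous f := by
    obtain ⟨L, hL⟩ := h.lip_f
    exact hL.continuous
  have hM : Continuous M := by
    obtain ⟨L, hL⟩ := h.lip_M
    exact hL.continuous
  set Γ : ℤ → E d → Set ℝ := fun n p => Gam f K ρ c₁ C₁ ((2 : ℝ) ^ n) p with hΓ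
  have hΓm : ∀ n, MeasurableSet {q : E d × ℝ | q.2 ∈ Γ n q.1} := fun n =>
    measurableSet_Gam hf K ρ c₁ C₁ ((2 : ℝ) ^ n)
  have h2n : ∀ n : ℤ, (0 : ℝ) < (2 : ℝ) ^ n := fun n => by positivity
  -- the dominating function
  set Ψ : E d → ℝ≥0∞ := fun x => corePsiA f M Z x + ∑' n : ℤ, Sc.indicator
    (fun n => ENNReal.ofReal ((((2 : ℝ) ^ n) ^ d)⁻¹) * corePsiB M (Γ n) ((2 : ℝ) ^ n) x) n with hΨ
  have hmeasB : ∀ n : ℤ, Measurable fun x => Sc.indicator
      (fun n => ENNReal.ofReal ((((2 : ℝ) ^ n) ^ d)⁻¹) * corePsiB M (Γ n) ((2 : ℝ) ^ n) x) n := by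
    intro n
    by_cases hn : n ∈ Sc
    · simp only [indicator_of_mem hn]
      exact (measurable_corePsiB hM (hΓm n) _).const_mul _
    · simp only [indicator_of_notMem hn]
      exact measurable_const
  have hΨm : Measurable Ψ := (measurable_corePsiA hf hM hZ).add (Measurable.tsum hmeasB)
  have hDm : Measurable fun x => ENNReal.ofReal c * ENNReal.ofReal ‖fderiv ℝ M x‖ :=
    ((measurable_fderiv ℝ M).norm.ennreal_ofReal).const_mul _
  -- the pointwise bound
  have hpt : ∀ᵐ x : E d, x ∈ X → ENNReal.ofReal c * ENNReal.ofReal ‖fderiv ℝ M x‖ ≤ Ψ x := by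
    obtain ⟨L, hL⟩ := h.lip_M
    filter_upwards [hL.ae_differentiableAt] with x hdiff hx
    by_cases hne : fderiv ℝ M x = 0
    · rw [hne, norm_zero, ENNReal.ofReal_zero, mul_zero]
      exact zero_le
    obtain ⟨z, r, n, hcon, hnS, hnr, hrn, hball⟩ := hX x hx
    obtain ⟨ν, hν, hz, hder⟩ := contact_grad h hcon hdiff hne
    have hr : 0 < r := hcon.1
    have h0 := norm_nonneg (fderiv ℝ M x)
    rcases hloc f M h x z ν r hr hν hz hcon.2.2 ((2 : ℝ) ^ n) (h2n n) hnr hrn Z hball with hG | hA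
    · -- type B
      have h1 := core_lower_B (M := M) (Γ := Γ n) (x := x) (z := z) (h2n n) hν hder
        (hcon.2.1.trans hrn)
        (fun θ hθ s hs hs' => contact_ray h hcon hν hz hθ hs (hs'.trans hnr)) hG
      have h2 : ENNReal.ofReal ((((2 : ℝ) ^ n) ^ d)⁻¹) * corePsiB M (Γ n) ((2 : ℝ) ^ n) x ≤ Ψ x := by
        refine le_trans ?_ le_add_self
        have h3 := ENNReal.le_tsum (f := fun n : ℤ => Sc.indicator (fun n =>
          ENNReal.ofReal ((((2 : ℝ) ^ n) ^ d)⁻¹) * corePsiB M (Γ n) ((2 : ℝ) ^ n) x) n) n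
        rw [indicator_of_mem hnS] at h3
        exact h3
      refine le_trans ?_ h2
      refine le_trans ?_ (mul_le_mul_right h1 _)
      rw [hv₀E, hκE]
      repeat rw [← ENNReal.ofReal_mul (by positivity)]
      apply ENNReal.ofReal_le_ofReal
      have h4 : ((((2 : ℝ) ^ n) ^ d)⁻¹) * (‖fderiv ℝ M x‖ / 2 * (v₀ * (((2 : ℝ) ^ n) ^ d * κ)))
          = v₀ * κ / 2 * ‖fderiv ℝ M x‖ := by
        have := (pow_pos (h2n n) d).ne'
        field_simp
      rw [h4]
      apply mul_le_mul_of_nonneg_right _ h0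
      rw [hc]
      have := min_le_right η (v₀ * κ)
      linarith
    · -- type A
      have h1 := core_lower_A h hZ hν hder hA
      refine le_trans ?_ (le_trans h1 le_self_add)
      repeat rw [← ENNReal.ofReal_mul (by positivity)]
      apply ENNReal.ofReal_le_ofReal
      have h4 : ‖fderiv ℝ M x‖ / 2 * η = η / 2 * ‖fderiv ℝ M x‖ := by ring
      rw [h4]
      apply mul_le_mul_of_nonneg_right _ h0
      rw [hc]
      have := min_le_left η (v₀ * κ)
      linarith
  have hpt' : ∀ᵐ x ∂(volume.restrict X),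
      ENNReal.ofReal c * ENNReal.ofReal ‖fderiv ℝ M x‖ ≤ Ψ x :=
    (ae_restrict_iff (measurableSet_le hDm hΨm)).mpr hpt
  -- the integral of the dominating function
  have hIB : ∀ n : ℤ, ∫⁻ x, Sc.indicator (fun n => ENNReal.ofReal ((((2 : ℝ) ^ n) ^ d)⁻¹)
      * corePsiB M (Γ n) ((2 : ℝ) ^ n) x) n ≤ ENNReal.ofReal C' *
        Sc.indicator (fun n => ENNReal.ofReal ((2 : ℝ) ^ (-n)) * NN f K ρ ((2 : ℝ) ^ n) univ) n := by
    intro n
    by_cases hn : n ∈ Sc
    · simp only [indicator_of_mem hn]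
      set t : ℝ := (2 : ℝ) ^ n with ht
      have ht0 : 0 < t := h2n n
      rw [lintegral_const_mul' _ _ ENNReal.ofReal_ne_top]
      have h1 := lintegral_corePsiB_le (M := M) h.lip_M (hΓm n) t (CB * (t ^ d / t))
        (fun Γ' hΓ' p θ hθ1 hθ2 => hTB M h.lip_M Γ' hΓ' p t ht0 θ hθ1 hθ2)
      have h2 : ∫⁻ p, volume (Γ n p) ≤ ENNReal.ofReal (CG / t ^ d) *
          (ENNReal.ofReal ((ρ * t) ^ d * κ) * NN f K ρ t univ) := by
        calc ∫⁻ p, volume (Γ n p)
            ≤ ∫⁻ p, ENNReal.ofReal (CG / t ^ d) * NN f K ρ t (ball p (ρ * t)) :=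
              lintegral_mono fun p => hGam f hf K t ht0 p
          _ = ENNReal.ofReal (CG / t ^ d) * ∫⁻ p, NN f K ρ t (ball p (ρ * t)) :=
              lintegral_const_mul' _ _ ENNReal.ofReal_ne_top
          _ = _ := by
              rw [lintegral_NN_ball hf, Measure.addHaar_ball_of_pos _ _ (by positivity),
                finrank_euclideanSpace_fin, hκE, ← ENNReal.ofReal_mul (by positivity)]
      have h3 : ENNReal.ofReal ((t ^ d)⁻¹) * ∫⁻ x, corePsiB M (Γ n) t x
          ≤ ENNReal.ofReal ((t ^ d)⁻¹) * (ENNReal.ofReal vA * (ENNReal.ofReal (CB * (t ^ d / t)) *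
            (ENNReal.ofReal (CG / t ^ d) * (ENNReal.ofReal ((ρ * t) ^ d * κ) *
              NN f K ρ t univ)))) := by
        refine mul_le_mul_right (h1.trans ?_) _
        rw [hvAE]
        exact mul_le_mul_right (mul_le_mul_right h2 _) _
      refine h3.trans ?_
      rw [← mul_assoc, ← mul_assoc, ← mul_assoc, ← mul_assoc, ← mul_assoc,
        ← ENNReal.ofReal_mul (by positivity), ← ENNReal.ofReal_mul (by positivity),
        ← ENNReal.ofReal_mul (by positivity), ← ENNReal.ofReal_mul (by positivity),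
        ← ENNReal.ofReal_mul hC'0]
      apply mul_le_mul_left
      apply ENNReal.ofReal_le_ofReal
      have e1 : (2 : ℝ) ^ (-n) = t⁻¹ := by rw [zpow_neg]
      rw [e1]
      have e2 : (t ^ d)⁻¹ * vA * (CB * (t ^ d / t)) * (CG / t ^ d) * ((ρ * t) ^ d * κ)
          = vA * (CB * CG * ρ ^ d * κ) * t⁻¹ := by
        rw [mul_pow]
        field_simp
      rw [e2, hC']
      apply mul_le_mul_of_nonneg_right _ (by positivity)
      apply mul_le_mul_of_nonneg_left _ hvA0
      linarith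
    · simp only [indicator_of_notMem hn, lintegral_zero, mul_zero, le_refl]
  have hI : ∫⁻ x, Ψ x ≤ ENNReal.ofReal C' * ((∫⁻ x in Z, ENNReal.ofReal ‖fderiv ℝ f x‖) +
      ∑' n : ℤ, Sc.indicator (fun n => ENNReal.ofReal ((2 : ℝ) ^ (-n)) *
        NN f K ρ ((2 : ℝ) ^ n) univ) n) := by
    rw [hΨ, lintegral_add_left (measurable_corePsiA hf hM hZ),
      lintegral_tsum fun n => (hmeasB n).aemeasurable, mul_add]
    apply add_le_add
    · refine (lintegral_corePsiA_le h hZ).trans ?_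
      rw [hvAE, ← mul_assoc, ← ENNReal.ofReal_mul hvA0]
      apply mul_le_mul_left
      apply ENNReal.ofReal_le_ofReal
      rw [hC']
      apply mul_le_mul_of_nonneg_left _ hvA0
      have : 0 ≤ CB * CG * ρ ^ d * κ := by positivity
      linarith
    · rw [← ENNReal.tsum_mul_left]
      exact ENNReal.tsum_le_tsum hIB
  -- conclusion
  have hfin : ENNReal.ofReal c * ∫⁻ x in X, ENNReal.ofReal ‖fderiv ℝ M x‖ ≤
      ENNReal.ofReal C' * ((∫⁻ x in Z, ENNReal.ofReal ‖fderiv ℝ f x‖) +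
      ∑' n : ℤ, Sc.indicator (fun n => ENNReal.ofReal ((2 : ℝ) ^ (-n)) *
        NN f K ρ ((2 : ℝ) ^ n) univ) n) := by
    rw [← lintegral_const_mul' _ _ ENNReal.ofReal_ne_top]
    refine (lintegral_mono_ae hpt').trans (le_trans ?_ hI)
    exact lintegral_mono' Measure.restrict_le_self le_rfl
  set R : ℝ≥0∞ := (∫⁻ x in Z, ENNReal.ofReal ‖fderiv ℝ f x‖) +
      ∑' n : ℤ, Sc.indicator (fun n => ENNReal.ofReal ((2 : ℝ) ^ (-n)) *
        NN f K ρ ((2 : ℝ) ^ n) univ) n with hR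
  calc ∫⁻ x in X, ENNReal.ofReal ‖fderiv ℝ M x‖
      = ENNReal.ofReal c⁻¹ * (ENNReal.ofReal c * ∫⁻ x in X, ENNReal.ofReal ‖fderiv ℝ M x‖) := by
        rw [← mul_assoc, ← ENNReal.ofReal_mul (by positivity), inv_mul_cancel₀ hc0.ne',
          ENNReal.ofReal_one, one_mul]
    _ ≤ ENNReal.ofReal c⁻¹ * (ENNReal.ofReal C' * R) := mul_le_mul_right hfin _
    _ = ENNReal.ofReal (C' / c) * R := by
        rw [← mul_assoc, ← ENNReal.ofReal_mul (by positivity)]
        congr 2
        rw [div_eq_inv_mul]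
    _ ≤ ENNReal.ofReal (C' / c + 1) * R :=
        mul_le_mul_left (ENNReal.ofReal_le_ofReal (by linarith)) _

/-- the operator norm is at most the sum over an orthonormal basis -/
theorem core_opNorm_le {d : ℕ} (L : E d →L[ℝ] ℝ) :
    ‖L‖ ≤ ∑ i, |L (EuclideanSpace.basisFun (Fin d) ℝ i)| := by
  set b := EuclideanSpace.basisFun (Fin d) ℝ with hb
  refine L.opNorm_le_bound (Finset.sum_nonneg fun i _ => abs_nonneg _) fun x => ?_
  have hx := b.sum_repr' x
  have e1 : L x = ∑ i, inner ℝ (b i) x * L (b i) := by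
    conv_lhs => rw [← hx]
    rw [map_sum]
    exact Finset.sum_congr rfl fun i _ => by rw [map_smul, smul_eq_mul]
  rw [e1, Real.norm_eq_abs, Finset.sum_mul]
  refine (Finset.abs_sum_le_sum_abs _ _).trans (Finset.sum_le_sum fun i _ => ?_)
  rw [abs_mul, mul_comm]
  have e2 := abs_real_inner_le_norm (b i) x
  rw [b.norm_eq_one i, one_mul] at e2
  exact mul_le_mul_of_nonneg_left e2 (abs_nonneg _)

theorem core_dir {d : ℕ} {f : E d → ℝ} {D : ℝ} (hf : ∃ K, LipschitzWith K f)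
    (h : TransBV f D) (v : E d) :
    ∫⁻ y, ENNReal.ofReal |fderiv ℝ f y v| ≤ ENNReal.ofReal (D * ‖v‖) := by
  obtain ⟨K, hK⟩ := hf
  have hc : Continuous f := hK.continuous
  set F : ℕ → E d → ℝ≥0∞ := fun n y =>
    ENNReal.ofReal |((n : ℝ) + 1) * (f (y + ((n : ℝ) + 1)⁻¹ • v) - f y)| with hF
  have hmeas : ∀ n, Measurable (F n) := by
    intro n
    have : Continuous fun y => |((n : ℝ) + 1) * (f (y + ((n : ℝ) + 1)⁻¹ • v) - f y)| := by
      fun_prop
    exact this.measurable.ennreal_ofReal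
  have hle : ∀ n, ∫⁻ y, F n y ≤ ENNReal.ofReal (D * ‖v‖) := by
    intro n
    have hn : (0 : ℝ) < (n : ℝ) + 1 := by positivity
    have e1 : ∀ y, F n y = ENNReal.ofReal ((n : ℝ) + 1)
        * ENNReal.ofReal |f (y + ((n : ℝ) + 1)⁻¹ • v) - f y| := by
      intro y
      show ENNReal.ofReal |((n : ℝ) + 1) * (f (y + ((n : ℝ) + 1)⁻¹ • v) - f y)| = _
      rw [← ENNReal.ofReal_mul hn.le, abs_mul, abs_of_pos hn]
    simp_rw [e1]
    rw [lintegral_const_mul' _ _ ENNReal.ofReal_ne_top]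
    calc ENNReal.ofReal ((n : ℝ) + 1) * ∫⁻ y, ENNReal.ofReal |f (y + ((n : ℝ) + 1)⁻¹ • v) - f y|
        ≤ ENNReal.ofReal ((n : ℝ) + 1) * ENNReal.ofReal (D * ‖((n : ℝ) + 1)⁻¹ • v‖) := by
          gcongr
          exact h _
      _ = ENNReal.ofReal (D * ‖v‖) := by
          rw [← ENNReal.ofReal_mul hn.le, norm_smul, Real.norm_of_nonneg (by positivity)]
          congr 1
          field_simp
  have hlim : ∀ᵐ y : E d, Tendsto (fun n => F n y) atTop (𝓝 (ENNReal.ofReal |fderiv ℝ f y v|)) := by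
    filter_upwards [hK.ae_differentiableAt] with y hy
    have h1 : Tendsto (fun n : ℕ => ((n : ℝ) + 1) • (f (y + ((n : ℝ) + 1)⁻¹ • v) - f y)) atTop
        (𝓝 (fderiv ℝ f y v)) := by
      apply hy.hasFDerivAt.lim v
      have : Tendsto (fun n : ℕ => ((n : ℝ) + 1)) atTop atTop :=
        tendsto_atTop_add_const_right _ _ tendsto_natCast_atTop_atTop
      exact tendsto_norm_atTop_atTop.comp this
    exact ENNReal.tendsto_ofReal h1.abs
  have e2 : ∫⁻ y, ENNReal.ofReal |fderiv ℝ f y v| = ∫⁻ y, liminf (fun n => F n y) atTop := by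
    apply lintegral_congr_ae
    filter_upwards [hlim] with y hy
    exact hy.liminf_eq.symm
  rw [e2]
  refine (lintegral_liminf_le hmeas).trans ?_
  refine liminf_le_of_frequently_le' ?_
  exact Frequently.of_forall hle

/-- Lipschitz `f` with translation modulus `D`: `∫ ‖fderiv f‖ ≤ C D`. -/
theorem lintegral_fderiv_le (d : ℕ) (hd : 0 < d) : ∃ C : ℝ, 0 < C ∧
    ∀ (f : E d → ℝ) (D : ℝ), (∃ K, LipschitzWith K f) → 0 ≤ D → TransBV f D →
      ∫⁻ x, ENNReal.ofReal ‖fderiv ℝ f x‖ ≤ ENNReal.ofReal (C * D) := by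
  refine ⟨d, by exact_mod_cast hd, fun f D hf hD h => ?_⟩
  have hc : Continuous f := by
    obtain ⟨K, hK⟩ := hf
    exact hK.continuous
  calc ∫⁻ x, ENNReal.ofReal ‖fderiv ℝ f x‖
      ≤ ∫⁻ x, ∑ i : Fin d, ENNReal.ofReal |fderiv ℝ f x (EuclideanSpace.basisFun (Fin d) ℝ i)| := by
        apply lintegral_mono
        intro x
        show ENNReal.ofReal ‖fderiv ℝ f x‖ ≤
          ∑ i : Fin d, ENNReal.ofReal |fderiv ℝ f x (EuclideanSpace.basisFun (Fin d) ℝ i)|
        rw [← ENNReal.ofReal_sum_of_nonneg fun i _ => abs_nonneg _]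
        exact ENNReal.ofReal_le_ofReal (core_opNorm_le _)
    _ = ∑ i : Fin d, ∫⁻ x, ENNReal.ofReal |fderiv ℝ f x (EuclideanSpace.basisFun (Fin d) ℝ i)| := by
        apply lintegral_finsetSum
        intro i _
        have := measurable_fderiv_apply_const ℝ f (EuclideanSpace.basisFun (Fin d) ℝ i)
        exact this.abs.ennreal_ofReal
    _ ≤ ∑ i : Fin d, ENNReal.ofReal D := by
        apply Finset.sum_le_sum
        intro i _
        have := core_dir hf h (EuclideanSpace.basisFun (Fin d) ℝ i)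
        rwa [(EuclideanSpace.basisFun (Fin d) ℝ).norm_eq_one i, mul_one] at this
    _ = ENNReal.ofReal (d * D) := by
        rw [Finset.sum_const, Finset.card_univ, Fintype.card_fin, nsmul_eq_mul,
          ENNReal.ofReal_mul (Nat.cast_nonneg d), ENNReal.ofReal_natCast]


/-- Stage 1: `∫ ‖∇M‖ ≤ C D`. Apply `core_gen` with `Z = univ`, `Sc = univ`, `X = {f < M}`; on
`{M = f}` the derivatives of `f` and `M` agree a.e.; `NN_sum`, `lintegral_fderiv_le`. -/
theorem core (d : ℕ) (hd : 0 < d) : ∃ C : ℝ, 0 < C ∧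
    ∀ (f M : E d → ℝ) (D : ℝ), MaxPair f M → 0 ≤ D → TransBV f D →
      ∫⁻ x, ENNReal.ofReal ‖fderiv ℝ M x‖ ≤ ENNReal.ofReal (C * D) := by
  obtain ⟨K, ρ, C, hK, hρ, hC, hcore⟩ := core_gen d hd
  obtain ⟨C₂, hC₂, hf2⟩ := lintegral_fderiv_le d hd
  obtain ⟨C₃, hC₃, hN⟩ := NN_sum (d := d) K ρ (by linarith)
  refine ⟨C * (C₂ + C₃) + C₂, by positivity, fun f M D h hD hT => ?_⟩
  have hf : Continuous f := by
    obtain ⟨L, hL⟩ := h.lip_f
    exact hL.continuous
  have hM : Continuous M := by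
    obtain ⟨L, hL⟩ := h.lip_M
    exact hL.continuous
  set X : Set (E d) := {x | f x < M x} with hX
  have hXm : MeasurableSet X := (isOpen_lt hf hM).measurableSet
  have h1 := hcore f M h univ isOpen_univ univ X (by
    intro x hx
    obtain ⟨z, r, hcon⟩ := h.exists_ball x hx
    refine ⟨z, r, Int.log 2 r, hcon, mem_univ _, ?_, ?_, subset_univ _⟩
    · have := Int.zpow_log_le_self (b := 2) (by norm_num) hcon.1
      exact_mod_cast this
    · have := Int.lt_zpow_succ_log_self (b := 2) (by norm_num) r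
      rw [zpow_add_one₀ (by norm_num)] at this
      rw [mul_comm]
      exact_mod_cast this.le)
  have h2 : ∫⁻ x in Xᶜ, ENNReal.ofReal ‖fderiv ℝ M x‖ ≤ ∫⁻ x, ENNReal.ofReal ‖fderiv ℝ f x‖ := by
    refine le_trans ?_ (setLIntegral_le_lintegral Xᶜ _)
    apply setLIntegral_mono_ae' hXm.compl
    obtain ⟨L, hL⟩ := h.lip_M
    obtain ⟨L', hL'⟩ := h.lip_f
    filter_upwards [hL.ae_differentiableAt, hL'.ae_differentiableAt] with x hx hx' hxX
    have hle : M x ≤ f x := not_lt.mp hxX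
    have hmin : IsLocalMin (fun y => M y - f y) x := by
      apply Filter.Eventually.of_forall
      intro y
      show M x - f x ≤ M y - f y
      have := h.le y
      linarith
    have h3 := hmin.fderiv_eq_zero
    rw [fderiv_fun_sub hx hx', sub_eq_zero] at h3
    rw [h3]
  have h4 := hf2 f D h.lip_f hD hT
  have h5 := hN f D hf h.int_f hD hT
  rw [Measure.restrict_univ] at h1
  simp only [indicator_univ] at h1
  rw [← lintegral_add_compl _ hXm]
  calc (∫⁻ x in X, ENNReal.ofReal ‖fderiv ℝ M x‖) + ∫⁻ x in Xᶜ, ENNReal.ofReal ‖fderiv ℝ M x‖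
      ≤ ENNReal.ofReal C * (ENNReal.ofReal (C₂ * D) + ENNReal.ofReal (C₃ * D))
        + ENNReal.ofReal (C₂ * D) := by
        apply add_le_add
        · exact h1.trans (mul_le_mul_right (add_le_add h4 h5) _)
        · exact h2.trans h4
    _ = ENNReal.ofReal ((C * (C₂ + C₃) + C₂) * D) := by
        rw [← ENNReal.ofReal_add (by positivity) (by positivity), ← ENNReal.ofReal_mul hC.le,
          ← ENNReal.ofReal_add (by positivity) (by positivity)]
        congr 1
        ring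

end

end Vale.Agent.P137F
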