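import Mathlib

/-!
# P137: the uncentered Hardy-Littlewood maximal operator on `W^{1,1}`: definitions
-/

namespace Vale.Agent.P137F

open MeasureTheory Metric Set ENNReal

noncomputable section

/-- Euclidean space of dimension `d`. -/
abbrev E (d : ℕ) := EuclideanSpace ℝ (Fin d)

/-- the distance of `b` to the interval spanned by `a` and `c`. -/
def dist3 (a b c : ℝ) : ℝ := (|b - a| + |c - b| - |c - a|) / 2

/-- `f` has `L¹` modulus of translation at most `D ‖v‖`. -/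
def TransBV {d : ℕ} (f : E d → ℝ) (D : ℝ) : Prop :=
  ∀ v : E d, ∫⁻ y, ENNReal.ofReal |f (y + v) - f y| ≤ ENNReal.ofReal (D * ‖v‖)

/-- non-monotonicity functional of `f` at scale `t` on the set `Q`. -/
def NN {d : ℕ} (f : E d → ℝ) (K : ℕ) (ρ t : ℝ) (Q : Set (E d)) : ℝ≥0∞ :=
  ∑ k ∈ Finset.Icc 1 K, ∫⁻ y in Q, ∫⁻ v in ball (0 : E d) ρ,
    ENNReal.ofReal (dist3 (f (y - ((k : ℝ) * t) • v)) (f y) (f (y + t • v)))

/-- indicator of the superlevel set `{f > l}`. -/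
def ind {d : ℕ} (l : ℝ) (f : E d → ℝ) (y : E d) : ℝ := if l < f y then 1 else 0

/-- the point `x` is of type A in direction `θ`: moving from `x` in direction `θ` the function
`M` stays `≥ M x` until one meets a point where `f > M x`, and the segment stays in `Z`. -/
def inA {d : ℕ} (f M : E d → ℝ) (Z : Set (E d)) (θ x : E d) : Prop :=
  ∃ q : ℚ, 0 < q ∧ M x < f (x + (q : ℝ) • θ) ∧
    ∀ s : ℝ, 0 ≤ s → s ≤ (q : ℝ) → M x ≤ M (x + s • θ) ∧ x + s • θ ∈ Z

/-- the point `x` is of type B at scale `t` near `p` in direction `θ`, with level in `Γ`. -/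
def inX {d : ℕ} (M : E d → ℝ) (Γ : Set ℝ) (p : E d) (t L : ℝ) (θ x : E d) : Prop :=
  ‖x - p‖ < L * t ∧ M x ∈ Γ ∧ ∀ s : ℝ, 0 ≤ s → s ≤ t → M x ≤ M (x + s • θ)

/-- volume of the unit ball -/
def kap (d : ℕ) : ℝ := volume.real (ball (0 : E d) 1)

/-- the far cone region around `ν` -/
def farP {d : ℕ} (R : ℕ) (ν : E d) : Set (E d) :=
  {h | (R : ℝ) ≤ ‖h‖ ∧ ‖h‖ ≤ 20 * R ∧ ‖h‖ / 2 ≤ inner ℝ h ν}

/-- the far cone region around `-ν` -/
def farM {d : ℕ} (R : ℕ) (ν : E d) : Set (E d) :=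
  {h | (R : ℝ) ≤ ‖h‖ ∧ ‖h‖ ≤ 20 * R ∧ inner ℝ h ν ≤ -(‖h‖ / 2)}

/-- conclusion (iii) of the local lemma: many directions `θ` near `ν` such that the segment from
`-ν` in direction `θ` stays in the region where some unit average is `≥ 0` and ends in `{f > 0}`.
Here `S` is the length of the segment. -/
def goodDir {d : ℕ} (f : E d → ℝ) (S : ℝ) (ν : E d) : Set (E d) :=
  {θ | θ ∈ ball ν (1 / 1000) ∧ 0 < f (-ν + S • θ) ∧
    ∀ s : ℝ, 0 ≤ s → s ≤ S → ∃ z : E d, ‖(-ν + s • θ) - z‖ ≤ 1 ∧ 0 ≤ ∫ y in ball z 1, f y}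

/-- bad levels at scale `t` near `p`. -/
def Gam {d : ℕ} (f : E d → ℝ) (K : ℕ) (ρ c₁ C₁ t : ℝ) (p : E d) : Set ℝ :=
  {l | ENNReal.ofReal (c₁ * t ^ d) ≤ NN (ind l f) K ρ t (ball p (ρ * t))} ∪
  {l | ENNReal.ofReal (c₁ * t ^ d) ≤ volume {y | y ∈ ball p (ρ * t) ∧
      ENNReal.ofReal (|f y - l| * t ^ d) ≤ ENNReal.ofReal C₁ * NN f K ρ t (ball p (ρ * t))}}

/-- `x` has a contact ball of radius `r` (center `z`). -/
def Contact {d : ℕ} (f M : E d → ℝ) (x z : E d) (r : ℝ) : Prop :=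
  0 < r ∧ ‖x - z‖ ≤ r ∧ (∫ y in ball z r, f y) = M x * volume.real (ball z r)

/-- the abstract relation between `f` and its uncentered maximal function `M` that is used in the
core argument. -/
structure MaxPair {d : ℕ} (f M : E d → ℝ) : Prop where
  lip_f : ∃ K, LipschitzWith K f
  lip_M : ∃ K, LipschitzWith K M
  int_f : Integrable f
  le : ∀ x, f x ≤ M x
  avg_le : ∀ x z : E d, ∀ r : ℝ, 0 < r → ‖x - z‖ ≤ r →
    (∫ y in ball z r, f y) ≤ M x * volume.real (ball z r)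
  exists_ball : ∀ x, f x < M x → ∃ z : E d, ∃ r : ℝ, Contact f M x z r

end

end Vale.Agent.P137F
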