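import Vale.Agent.Lib.P137F.Defs

/-!
# P137F, stage 2: definitions for `W^{1,1}`
-/

namespace Vale.Agent.P137F

open MeasureTheory Metric Set ENNReal

noncomputable section

/-- The uncentered Hardy-Littlewood maximal function: the supremum of the averages of `|f|` over all
open Euclidean balls containing `x`. -/
def uM {d : ℕ} (f : E d → ℝ) (x : E d) : ℝ≥0∞ :=
  ⨆ (z : E d) (r : ℝ) (_ : x ∈ ball z r),
    (∫⁻ y in ball z r, ENNReal.ofReal |f y|) / volume (ball z r)

/-- `G` is a weak (distributional) gradient of `u`. -/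
def IsWeakGrad {d : ℕ} (u : E d → ℝ) (G : E d → E d) : Prop :=
  ∀ φ : E d → ℝ, ContDiff ℝ ((⊤ : ℕ∞) : WithTop ℕ∞) φ → HasCompactSupport φ → ∀ i : Fin d,
    ∫ x, u x * fderiv ℝ φ x (EuclideanSpace.single i 1) = - ∫ x, G x i * φ x

/-- the union of the balls `ball x (ρ r)` over the contact balls of radius `r < δ` (`x` = contact
point). -/
def Zset {d : ℕ} (h M : E d → ℝ) (ρ δ : ℝ) : Set (E d) :=
  {y | ∃ (x z : E d) (r : ℝ), Contact h M x z r ∧ r < δ ∧ y ∈ ball x (ρ * r)}

end

end Vale.Agent.P137F
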