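import Vale.Agent.Lib.P137F.Defs

/-!
# P137F: elementary facts on `dist3`, `ind`, `NN`
-/

namespace Vale.Agent.P137F

open MeasureTheory Metric Set ENNReal

noncomputable section

theorem dist3_nonneg (a b c : ℝ) : 0 ≤ dist3 a b c := by
  unfold dist3
  have h : |c - a| ≤ |c - b| + |b - a| := by
    have := abs_add_le (c - b) (b - a)
    rwa [sub_add_sub_cancel] at this
  linarith

theorem dist3_comm (a b c : ℝ) : dist3 a b c = dist3 c b a := by
  unfold dist3
  rw [abs_sub_comm b a, abs_sub_comm c b, abs_sub_comm c a]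
  ring

theorem sub_max_le_dist3 (a b c : ℝ) : b - max a c ≤ dist3 a b c := by
  unfold dist3
  rcases le_total a c with h | h
  · rw [max_eq_right h, abs_of_nonneg (sub_nonneg.mpr h)]
    have h1 := le_abs_self (b - a)
    have h2 := neg_abs_le (c - b)
    linarith
  · rw [max_eq_left h, abs_of_nonpos (sub_nonpos.mpr h)]
    have h1 := le_abs_self (b - a)
    have h2 := neg_abs_le (c - b)
    linarith

theorem min_sub_le_dist3 (a b c : ℝ) : min a c - b ≤ dist3 a b c := by
  unfold dist3
  rcases le_total a c with h | h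
  · rw [min_eq_left h, abs_of_nonneg (sub_nonneg.mpr h)]
    have h1 := neg_abs_le (b - a)
    have h2 := le_abs_self (c - b)
    linarith
  · rw [min_eq_right h, abs_of_nonpos (sub_nonpos.mpr h)]
    have h1 := neg_abs_le (b - a)
    have h2 := le_abs_self (c - b)
    linarith

theorem dist3_le (a b c : ℝ) : dist3 a b c ≤ |b - a| := by
  unfold dist3
  have h : |c - b| ≤ |c - a| + |a - b| := by
    have := abs_add_le (c - a) (a - b)
    rwa [sub_add_sub_cancel] at this
  rw [abs_sub_comm a b] at h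
  linarith

theorem continuous_dist3 : Continuous (fun p : ℝ × ℝ × ℝ => dist3 p.1 p.2.1 p.2.2) := by
  unfold dist3
  fun_prop

/-- joint measurability of the indicator -/
theorem measurable_ind {d : ℕ} {f : E d → ℝ} (hf : Continuous f) :
    Measurable (fun p : ℝ × E d => ind p.1 f p.2) := by
  unfold ind
  apply Measurable.ite _ measurable_const measurable_const
  exact measurableSet_lt measurable_fst (hf.measurable.comp measurable_snd)

theorem dist3_ind_eq (a b c l : ℝ) :
    ENNReal.ofReal (dist3 (if l < a then 1 else 0) (if l < b then 1 else 0)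
      (if l < c then 1 else 0)) =
      (Ico (max a c) b).indicator (fun _ => (1 : ℝ≥0∞)) l +
        (Ico b (min a c)).indicator (fun _ => (1 : ℝ≥0∞)) l := by
  have h0 : dist3 0 0 0 = 0 := by norm_num [dist3]
  have h1 : dist3 1 0 0 = 0 := by norm_num [dist3]
  have h2 : dist3 0 1 0 = 1 := by norm_num [dist3]
  have h3 : dist3 0 0 1 = 0 := by norm_num [dist3]
  have h4 : dist3 1 1 0 = 0 := by norm_num [dist3]
  have h5 : dist3 1 0 1 = 1 := by norm_num [dist3]
  have h6 : dist3 0 1 1 = 0 := by norm_num [dist3]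
  have h7 : dist3 1 1 1 = 0 := by norm_num [dist3]
  by_cases ha : l < a <;> by_cases hb : l < b <;> by_cases hc : l < c <;>
    simp [Set.indicator, ha, hb, hc, h0, h1, h2, h3, h4, h5, h6, h7, not_le.mpr, not_lt.mp,
      mem_Ico]

/-- layer cake for `dist3`: the set of levels `l` such that the triple of indicators is
non-monotone is an interval of length `dist3 a b c`. -/
theorem lintegral_dist3_ind (a b c : ℝ) :
    ∫⁻ l : ℝ, ENNReal.ofReal (dist3 (if l < a then 1 else 0) (if l < b then 1 else 0)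
      (if l < c then 1 else 0)) = ENNReal.ofReal (dist3 a b c) := by
  simp_rw [dist3_ind_eq]
  rw [lintegral_add_left (measurable_const.indicator measurableSet_Ico),
    lintegral_indicator_const measurableSet_Ico, lintegral_indicator_const measurableSet_Ico,
    one_mul, one_mul, Real.volume_Ico, Real.volume_Ico]
  unfold dist3
  rcases le_total a c with h | h
  · rw [max_eq_right h, min_eq_left h, abs_of_nonneg (sub_nonneg.mpr h)]
    rcases le_total b a with h1 | h1
    · rw [abs_of_nonpos (sub_nonpos.mpr h1), abs_of_nonneg (sub_nonneg.mpr (h1.trans h)),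
        ENNReal.ofReal_of_nonpos (by linarith : b - c ≤ 0), zero_add]
      congr 1
      ring
    · rcases le_total b c with h2 | h2
      · rw [abs_of_nonneg (sub_nonneg.mpr h1), abs_of_nonneg (sub_nonneg.mpr h2),
          ENNReal.ofReal_of_nonpos (by linarith : b - c ≤ 0),
          ENNReal.ofReal_of_nonpos (by linarith : a - b ≤ 0), zero_add]
        symm
        apply ENNReal.ofReal_of_nonpos
        linarith
      · rw [abs_of_nonneg (sub_nonneg.mpr h1), abs_of_nonpos (sub_nonpos.mpr h2),
          ENNReal.ofReal_of_nonpos (by linarith : a - b ≤ 0), add_zero]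
        congr 1
        ring
  · rw [max_eq_left h, min_eq_right h, abs_of_nonpos (sub_nonpos.mpr h)]
    rcases le_total b c with h1 | h1
    · rw [abs_of_nonpos (sub_nonpos.mpr (h1.trans h)), abs_of_nonneg (sub_nonneg.mpr h1),
        ENNReal.ofReal_of_nonpos (by linarith : b - a ≤ 0), zero_add]
      congr 1
      ring
    · rcases le_total b a with h2 | h2
      · rw [abs_of_nonpos (sub_nonpos.mpr h2), abs_of_nonpos (sub_nonpos.mpr h1),
          ENNReal.ofReal_of_nonpos (by linarith : b - a ≤ 0),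
          ENNReal.ofReal_of_nonpos (by linarith : c - b ≤ 0), zero_add]
        symm
        apply ENNReal.ofReal_of_nonpos
        linarith
      · rw [abs_of_nonneg (sub_nonneg.mpr h2), abs_of_nonpos (sub_nonpos.mpr h1),
          ENNReal.ofReal_of_nonpos (by linarith : c - b ≤ 0), add_zero]
        congr 1
        ring

theorem measurable_dist3_ind {d : ℕ} {f : E d → ℝ} (hf : Continuous f) (a t : ℝ) :
    Measurable (fun q : (ℝ × E d) × E d => ENNReal.ofReal
      (dist3 (ind q.1.1 f (q.1.2 - a • q.2)) (ind q.1.1 f q.1.2)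
        (ind q.1.1 f (q.1.2 + t • q.2)))) := by
  apply ENNReal.measurable_ofReal.comp
  have h1 : Measurable (fun q : (ℝ × E d) × E d => ind q.1.1 f (q.1.2 - a • q.2)) :=
    (measurable_ind hf).comp
      (by fun_prop : Measurable (fun q : (ℝ × E d) × E d => (q.1.1, q.1.2 - a • q.2)))
  have h2 : Measurable (fun q : (ℝ × E d) × E d => ind q.1.1 f q.1.2) :=
    (measurable_ind hf).comp
      (by fun_prop : Measurable (fun q : (ℝ × E d) × E d => (q.1.1, q.1.2)))
  have h3 : Measurable (fun q : (ℝ × E d) × E d => ind q.1.1 f (q.1.2 + t • q.2)) :=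
    (measurable_ind hf).comp
      (by fun_prop : Measurable (fun q : (ℝ × E d) × E d => (q.1.1, q.1.2 + t • q.2)))
  exact continuous_dist3.measurable.comp (h1.prodMk (h2.prodMk h3))

theorem tonelli3 {d : ℕ} (F : ℝ → E d → E d → ℝ≥0∞)
    (hF : Measurable (fun q : (ℝ × E d) × E d => F q.1.1 q.1.2 q.2)) (Q B : Set (E d)) :
    ∫⁻ l : ℝ, ∫⁻ y in Q, ∫⁻ v in B, F l y v = ∫⁻ y in Q, ∫⁻ v in B, ∫⁻ l : ℝ, F l y v := by
  have hm1 : Measurable (fun p : ℝ × E d => ∫⁻ v in B, F p.1 p.2 v) := hF.lintegral_prod_right'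
  rw [lintegral_lintegral_swap hm1.aemeasurable]
  refine lintegral_congr fun y => ?_
  have hm3 : Measurable (fun p : ℝ × E d => F p.1 y p.2) :=
    hF.comp (by fun_prop : Measurable (fun p : ℝ × E d => ((p.1, y), p.2)))
  rw [lintegral_lintegral_swap hm3.aemeasurable]

theorem measurable_tonelli3 {d : ℕ} (F : ℝ → E d → E d → ℝ≥0∞)
    (hF : Measurable (fun q : (ℝ × E d) × E d => F q.1.1 q.1.2 q.2)) (Q B : Set (E d)) :
    Measurable (fun l : ℝ => ∫⁻ y in Q, ∫⁻ v in B, F l y v) := by
  have hm1 : Measurable (fun p : ℝ × E d => ∫⁻ v in B, F p.1 p.2 v) := hF.lintegral_prod_right'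
  exact hm1.lintegral_prod_right'

/-- `NN` of the level sets integrates to `NN` (Tonelli + `lintegral_dist3_ind`). -/
theorem lintegral_NN_ind {d : ℕ} {f : E d → ℝ} (hf : Continuous f) (K : ℕ) (ρ t : ℝ)
    {Q : Set (E d)} (hQ : MeasurableSet Q) :
    ∫⁻ l : ℝ, NN (ind l f) K ρ t Q = NN f K ρ t Q := by
  unfold NN
  rw [lintegral_finsetSum _ (fun (k : ℕ) _ => measurable_tonelli3 (fun l y v => ENNReal.ofReal
    (dist3 (ind l f (y - ((k : ℝ) * t) • v)) (ind l f y) (ind l f (y + t • v))))
    (measurable_dist3_ind hf ((k : ℝ) * t) t) Q (ball 0 ρ))]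
  refine Finset.sum_congr rfl fun k _ => ?_
  rw [tonelli3 (fun l y v => ENNReal.ofReal
    (dist3 (ind l f (y - ((k : ℝ) * t) • v)) (ind l f y) (ind l f (y + t • v))))
    (measurable_dist3_ind hf ((k : ℝ) * t) t) Q (ball 0 ρ)]
  refine lintegral_congr fun y => lintegral_congr fun v => ?_
  exact lintegral_dist3_ind _ _ _

theorem NN_mono {d : ℕ} (f : E d → ℝ) {K K' : ℕ} {ρ ρ' : ℝ} (t : ℝ) {Q Q' : Set (E d)}
    (hK : K ≤ K') (hρ : ρ ≤ ρ') (hQ : Q ⊆ Q') : NN f K ρ t Q ≤ NN f K' ρ' t Q' := by
  unfold NN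
  calc _ ≤ ∑ k ∈ Finset.Icc 1 K, ∫⁻ y in Q', ∫⁻ v in ball (0 : E d) ρ',
        ENNReal.ofReal (dist3 (f (y - ((k : ℝ) * t) • v)) (f y) (f (y + t • v))) := by
        refine Finset.sum_le_sum fun k _ => ?_
        refine (lintegral_mono_set hQ).trans (lintegral_mono fun y => ?_)
        exact lintegral_mono_set (ball_subset_ball hρ)
    _ ≤ _ := Finset.sum_le_sum_of_subset (Finset.Icc_subset_Icc le_rfl hK)

theorem NN_lt_top {d : ℕ} {f : E d → ℝ} (hf : Continuous f) (K : ℕ) (ρ t : ℝ) (p : E d) (r : ℝ) :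
    NN f K ρ t (ball p r) < ⊤ := by
  unfold NN
  rw [ENNReal.sum_lt_top]
  intro k _
  set R : ℝ := ‖p‖ + r + |(k : ℝ) * t| * ρ with hR
  obtain ⟨C, hC⟩ := ((isCompact_closedBall (0 : E d) (‖p‖ + r + |(k : ℝ) * t| * |ρ|)).exists_bound_of_continuousOn
    hf.continuousOn)
  have hbd : ∀ y ∈ ball p r, ∀ v ∈ ball (0 : E d) ρ,
      ENNReal.ofReal (dist3 (f (y - ((k : ℝ) * t) • v)) (f y) (f (y + t • v))) ≤
        ENNReal.ofReal (2 * C) := by
    intro y hy v hv
    apply ENNReal.ofReal_le_ofReal
    rw [mem_ball, dist_eq_norm] at hy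
    rw [mem_ball_zero_iff] at hv
    have hy' : ‖y‖ ≤ ‖p‖ + r := by
      have := norm_le_insert' y p
      linarith
    have h1 : ‖f y‖ ≤ C := by
      apply hC
      rw [mem_closedBall_zero_iff]
      have : 0 ≤ |(k : ℝ) * t| * |ρ| := by positivity
      linarith
    have h2 : ‖f (y - ((k : ℝ) * t) • v)‖ ≤ C := by
      apply hC
      rw [mem_closedBall_zero_iff]
      have h3 := norm_sub_le y (((k : ℝ) * t) • v)
      rw [norm_smul, Real.norm_eq_abs] at h3
      have h4 : |(k : ℝ) * t| * ‖v‖ ≤ |(k : ℝ) * t| * |ρ| :=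
        mul_le_mul_of_nonneg_left (hv.le.trans (le_abs_self _)) (abs_nonneg _)
      linarith
    have h3 := dist3_le (f (y - ((k : ℝ) * t) • v)) (f y) (f (y + t • v))
    have h4 := norm_sub_le (f y) (f (y - ((k : ℝ) * t) • v))
    rw [Real.norm_eq_abs] at h4
    linarith
  calc ∫⁻ y in ball p r, ∫⁻ v in ball (0 : E d) ρ,
        ENNReal.ofReal (dist3 (f (y - ((k : ℝ) * t) • v)) (f y) (f (y + t • v))) ≤
      ∫⁻ _ in ball p r, ∫⁻ _ in ball (0 : E d) ρ, ENNReal.ofReal (2 * C) := by
        apply setLIntegral_mono' measurableSet_ball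
        intro y hy
        apply setLIntegral_mono' measurableSet_ball
        intro v hv
        exact hbd y hy v hv
    _ = ENNReal.ofReal (2 * C) * volume (ball (0 : E d) ρ) * volume (ball p r) := by
        rw [setLIntegral_const, setLIntegral_const]
    _ < ⊤ := ENNReal.mul_lt_top (ENNReal.mul_lt_top ENNReal.ofReal_lt_top measure_ball_lt_top)
        measure_ball_lt_top

/-- adding a constant does not change `NN`. -/
theorem NN_sub_const {d : ℕ} (f : E d → ℝ) (c : ℝ) (K : ℕ) (ρ t : ℝ) (Q : Set (E d)) :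
    NN (fun y => f y - c) K ρ t Q = NN f K ρ t Q := by
  unfold NN dist3
  simp only [sub_sub_sub_cancel_right]

theorem lintegral_comp_affine' {d : ℕ} (F : E d → ℝ≥0∞) (z : E d) {r : ℝ} (hr : 0 < r) :
    ∫⁻ y, F (z + r • y) = ENNReal.ofReal ((r ^ d)⁻¹) * ∫⁻ y, F y := by
  have h1 : ∫⁻ y, F (z + r • y) = ∫⁻ y, F (z + y) ∂(Measure.map (fun y => r • y) volume) := by
    have := lintegral_map_equiv (μ := (volume : Measure (E d))) (fun y => F (z + y))
      (Homeomorph.smulOfNeZero r hr.ne').toMeasurableEquiv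
    exact this.symm
  have h2 := Measure.map_addHaar_smul (volume : Measure (E d)) hr.ne'
  have h3 : (fun y : E d => r • y) = (r • ·) := rfl
  rw [h1, h3, h2, lintegral_smul_measure, lintegral_add_left_eq_self (μ := volume) F z,
    finrank_euclideanSpace_fin, abs_of_nonneg (by positivity), smul_eq_mul]

/-- scaling of `NN`: with `g y = f (z + r y)`, `t ≤ r ≤ 2t`, `‖z - p‖ < t`, one passes from unit
scale to the scale `t` around `p`. -/
theorem NN_scale_le {d : ℕ} (hd : 0 < d) {f : E d → ℝ} (hf : Measurable f) (K : ℕ)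
    {ρ t r : ℝ} (hρ : 1 ≤ ρ) (ht : 0 < t) (htr : t ≤ r) (hrt : r ≤ 2 * t) {z p : E d}
    (hzp : ‖z - p‖ < t) :
    ENNReal.ofReal (t ^ d) * NN (fun y => f (z + r • y)) K ρ 1 (ball 0 ρ) ≤
      NN f K (3 * ρ) t (ball p (3 * ρ * t)) := by
  have hr : 0 < r := by linarith
  unfold NN
  rw [Finset.mul_sum]
  refine Finset.sum_le_sum fun k _ => ?_
  set H : E d → E d → ℝ≥0∞ := fun y v =>
    ENNReal.ofReal (dist3 (f (y - ((k : ℝ) * t) • v)) (f y) (f (y + t • v))) with hH
  have e1 : ∀ y v : E d, ENNReal.ofReal (dist3 (f (z + r • (y - ((k : ℝ) * 1) • v)))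
      (f (z + r • y)) (f (z + r • (y + (1 : ℝ) • v)))) = H (z + r • y) (0 + (r / t) • v) := by
    intro y v
    simp only [hH]
    have e2 : z + r • (y - ((k : ℝ) * 1) • v) =
        z + r • y - ((k : ℝ) * t) • (0 + (r / t) • v) := by
      rw [zero_add, smul_smul, smul_sub, smul_smul, add_sub_assoc]
      congr 3
      field_simp
    have e3 : z + r • (y + (1 : ℝ) • v) = z + r • y + t • (0 + (r / t) • v) := by
      rw [zero_add, smul_smul, one_smul, smul_add, add_assoc]
      congr 3
      field_simp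
    rw [e2, e3]
  -- the inner integral
  have hin : ∀ y : E d, ∫⁻ v in ball (0 : E d) ρ, H (z + r • y) (0 + (r / t) • v) ≤
      ∫⁻ v in ball (0 : E d) (3 * ρ), H (z + r • y) v := by
    intro y
    have hrt0 : 0 < r / t := by positivity
    have hrt1 : 1 ≤ r / t := by rwa [one_le_div ht]
    have hrt2 : r / t ≤ 2 := by rwa [div_le_iff₀ ht]
    calc ∫⁻ v in ball (0 : E d) ρ, H (z + r • y) (0 + (r / t) • v) ≤
        ∫⁻ v, (ball (0 : E d) (3 * ρ)).indicator (H (z + r • y)) (0 + (r / t) • v) := by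
          rw [← lintegral_indicator measurableSet_ball]
          apply lintegral_mono
          intro v
          beta_reduce
          by_cases hv : v ∈ ball (0 : E d) ρ
          · rw [indicator_of_mem hv, indicator_of_mem]
            rw [mem_ball_zero_iff] at hv ⊢
            rw [zero_add, norm_smul, Real.norm_of_nonneg hrt0.le]
            have h1 : r / t * ‖v‖ ≤ 2 * ‖v‖ := mul_le_mul_of_nonneg_right hrt2 (norm_nonneg _)
            linarith
          · rw [indicator_of_notMem hv]
            exact zero_le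
      _ = ENNReal.ofReal (((r / t) ^ d)⁻¹) *
          ∫⁻ v, (ball (0 : E d) (3 * ρ)).indicator (H (z + r • y)) v :=
          lintegral_comp_affine' _ _ hrt0
      _ ≤ 1 * ∫⁻ v, (ball (0 : E d) (3 * ρ)).indicator (H (z + r • y)) v := by
          gcongr
          rw [ENNReal.ofReal_le_one]
          exact inv_le_one_of_one_le₀ (one_le_pow₀ hrt1)
      _ = _ := by
          rw [one_mul, lintegral_indicator measurableSet_ball]
  set G : E d → ℝ≥0∞ := fun y => ∫⁻ v in ball (0 : E d) (3 * ρ), H y v with hG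
  calc ENNReal.ofReal (t ^ d) * ∫⁻ y in ball (0 : E d) ρ, ∫⁻ v in ball (0 : E d) ρ,
        ENNReal.ofReal (dist3 (f (z + r • (y - ((k : ℝ) * 1) • v)))
          (f (z + r • y)) (f (z + r • (y + (1 : ℝ) • v)))) ≤
      ENNReal.ofReal (t ^ d) * ∫⁻ y in ball (0 : E d) ρ, G (z + r • y) := by
        gcongr with y
        simp_rw [e1]
        exact hin y
    _ ≤ ENNReal.ofReal (t ^ d) *
        ∫⁻ y, (ball p (3 * ρ * t)).indicator G (z + r • y) := by
        refine mul_le_mul' le_rfl ?_
        rw [← lintegral_indicator measurableSet_ball]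
        apply lintegral_mono
        intro y
        beta_reduce
        by_cases hy : y ∈ ball (0 : E d) ρ
        · rw [indicator_of_mem hy, indicator_of_mem]
          rw [mem_ball_zero_iff] at hy
          rw [mem_ball, dist_eq_norm]
          have h1 : ‖z + r • y - p‖ ≤ ‖z - p‖ + ‖r • y‖ := by
            have e2 : z + r • y - p = (z - p) + r • y := by abel
            rw [e2]
            exact norm_add_le _ _
          rw [norm_smul, Real.norm_of_nonneg hr.le] at h1
          have h2 : r * ‖y‖ ≤ 2 * t * ρ :=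
            mul_le_mul hrt hy.le (norm_nonneg _) (by positivity)
          have h3 : t * 1 ≤ t * ρ := mul_le_mul_of_nonneg_left hρ ht.le
          linarith
        · rw [indicator_of_notMem hy]
          exact zero_le
    _ = ENNReal.ofReal (t ^ d) * (ENNReal.ofReal ((r ^ d)⁻¹) *
        ∫⁻ y, (ball p (3 * ρ * t)).indicator G y) := by
        rw [lintegral_comp_affine' _ _ hr]
    _ ≤ 1 * ∫⁻ y, (ball p (3 * ρ * t)).indicator G y := by
        rw [← mul_assoc, ← ENNReal.ofReal_mul (by positivity)]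
        gcongr
        rw [ENNReal.ofReal_le_one, ← div_eq_mul_inv, div_le_one (by positivity)]
        exact pow_le_pow_left₀ ht.le htr d
    _ = ∫⁻ y in ball p (3 * ρ * t), ∫⁻ v in ball (0 : E d) (3 * ρ), H y v := by
        rw [one_mul, lintegral_indicator measurableSet_ball]

end

end Vale.Agent.P137F
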