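import Vale.Agent.Lib.P137F.Area1D

/-!
# P137F: type B points on a line

If `s₁ < s₂` are in `A` with `G s₁ = G s₂ = l ∉ N` (null set of `null_levels`) then `s₂ ≥ s₁ + ℓ`
(otherwise `s₂` is an interior point of an interval on which `G ≥ l = G s₂`, so `G' s₂ = 0`).
Hence at most `(b-a)/ℓ + 1` points; apply `area_le` with `m = ((b-a)/ℓ+1) 1_Γ`.
-/

namespace Vale.Agent.P137F

open MeasureTheory Metric Set ENNReal

noncomputable section

/-- an `ℓ`-separated finite subset of `[a, b]` has at most `(b - a) / ℓ + 1` points -/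
theorem lineB_card (a b ℓ : ℝ) (hℓ : 0 < ℓ) (S : Finset ℝ)
    (h1 : ∀ s ∈ S, a ≤ s ∧ s ≤ b) (h2 : ∀ s ∈ S, ∀ s' ∈ S, s < s' → s + ℓ ≤ s') (hab : a ≤ b) :
    (S.card : ℝ) ≤ (b - a) / ℓ + 1 := by
  have hcard : S.card ≤ (Finset.range (⌊(b - a) / ℓ⌋₊ + 1)).card := by
    apply Finset.card_le_card_of_injOn (fun s => ⌊(s - a) / ℓ⌋₊)
    · intro s hs
      obtain ⟨h3, h4⟩ := h1 s hs
      simp only [Finset.coe_range, Set.mem_Iio]
      refine Nat.lt_succ_of_le (Nat.floor_le_floor ?_)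
      gcongr
    · have key : ∀ s ∈ S, ∀ s' ∈ S, s < s' → ⌊(s - a) / ℓ⌋₊ ≠ ⌊(s' - a) / ℓ⌋₊ := by
        intro s hs s' hs' hlt heq
        have h3 := h2 s hs s' hs' hlt
        have h4 : (s - a) / ℓ + 1 ≤ (s' - a) / ℓ := by
          rw [div_add_one hℓ.ne', div_le_div_iff_of_pos_right hℓ]
          linarith
        have h5 : (s - a) / ℓ < ⌊(s - a) / ℓ⌋₊ + 1 := Nat.lt_floor_add_one _
        have h6 : (⌊(s - a) / ℓ⌋₊ : ℝ) ≤ (s - a) / ℓ :=
          Nat.floor_le (div_nonneg (by linarith [(h1 s hs).1]) hℓ.le)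
        have h7 : ⌊(s - a) / ℓ⌋₊ + 1 ≤ ⌊(s' - a) / ℓ⌋₊ := by
          apply Nat.le_floor
          push_cast
          linarith
        omega
      intro s hs s' hs' heq
      rcases lt_trichotomy s s' with hlt | heq' | hlt
      · exact absurd heq (key s hs s' hs' hlt)
      · exact heq'
      · exact absurd heq.symm (key s' hs' s hs hlt)
  rw [Finset.card_range] at hcard
  calc (S.card : ℝ) ≤ ((⌊(b - a) / ℓ⌋₊ + 1 : ℕ) : ℝ) := by exact_mod_cast hcard
    _ = (⌊(b - a) / ℓ⌋₊ : ℝ) + 1 := by push_cast; ring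
    _ ≤ (b - a) / ℓ + 1 := by
        have := Nat.floor_le (a := (b - a) / ℓ) (div_nonneg (by linarith) hℓ.le)
        linarith

theorem lineB (G : ℝ → ℝ) (hG : ∃ K, LipschitzWith K G) (Γ : Set ℝ) (hΓ : MeasurableSet Γ)
    (a b ℓ : ℝ) (hab : a ≤ b) (hℓ : 0 < ℓ) (A : Set ℝ) (hA : MeasurableSet A)
    (h : ∀ s ∈ A, a ≤ s ∧ s ≤ b ∧ DifferentiableAt ℝ G s ∧ 0 < deriv G s ∧ G s ∈ Γ ∧
      ∀ s' : ℝ, 0 ≤ s' → s' ≤ ℓ → G s ≤ G (s + s')) :
    ∫⁻ s in A, ENNReal.ofReal (deriv G s) ≤ ENNReal.ofReal ((b - a) / ℓ + 1) * volume Γ := by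
  obtain ⟨K, hK⟩ := hG
  have hmain := area_le G hK.continuous A hA (fun s hs => ⟨(h s hs).2.2.1, (h s hs).2.2.2.1⟩)
    (Γ.indicator fun _ => ENNReal.ofReal ((b - a) / ℓ + 1)) (measurable_const.indicator hΓ) ∅
    (by simp) ?_
  · rwa [lintegral_indicator hΓ, setLIntegral_const] at hmain
  · intro l _ S hS hl
    by_cases hlΓ : l ∈ Γ
    · rw [Set.indicator_of_mem hlΓ]
      have hsep : ∀ s ∈ S, ∀ s' ∈ S, s < s' → s + ℓ ≤ s' := by
        intro s hs s' hs' hlt
        by_contra hcon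
        push Not at hcon
        have hmin : IsLocalMin G s' := by
          filter_upwards [Ioo_mem_nhds hlt hcon] with y hy
          have h3 := (h s (hS s hs)).2.2.2.2.2 (y - s) (by linarith [hy.1]) (by linarith [hy.2])
          rw [hl s' hs', ← hl s hs]
          simpa using h3
        have h4 := hmin.deriv_eq_zero
        have h5 := (h s' (hS s' hs')).2.2.2.1
        rw [h4] at h5
        exact lt_irrefl _ h5
      have hc := lineB_card a b ℓ hℓ S (fun s hs => ⟨(h s (hS s hs)).1, (h s (hS s hs)).2.1⟩)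
        hsep hab
      rw [← ENNReal.ofReal_natCast]
      exact ENNReal.ofReal_le_ofReal hc
    · rw [Set.indicator_of_notMem hlΓ]
      have : S = ∅ := by
        rw [Finset.eq_empty_iff_forall_notMem]
        intro s hs
        apply hlΓ
        rw [← hl s hs]
        exact (h s (hS s hs)).2.2.2.2.1
      rw [this]
      simp

end

end Vale.Agent.P137F
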