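import Vale.Agent.Lib.P137F.Dist3

/-!
# P137F: both sides of the level must be present near the contact ball

If `{f > 0}` has measure `≤ |B|/4` in `ball 0 2` (`B = ball 0 1`), then for `y ∈ B` the set of
`v ∈ B` with `f (y+v) > 0` or `f (y-v) > 0` has measure `≤ |B|/2`, and for the other `v`
`max (f y) 0 ≤ dist3 (f (y-v)) (f y) (f (y+v))`.  So `(|B|/2) ∫_B f₊ ≤ NN` (term `k = 1`), and
`∫_B |f| = 2 ∫_B f₊` because the mean is zero.  The other case is symmetric (apply it to `-f`, or
repeat the argument with `min_sub_le_dist3`; note that then `f (y±v) > 0`, `f y < 0`).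
-/

namespace Vale.Agent.P137F

open MeasureTheory Metric Set ENNReal

noncomputable section

theorem presence_kap_pos (d : ℕ) : 0 < kap d := by
  unfold kap
  exact ENNReal.toReal_pos (measure_ball_pos volume _ one_pos).ne' measure_ball_lt_top.ne

theorem presence_ofReal_kap (d : ℕ) : ENNReal.ofReal (kap d) = volume (ball (0 : E d) 1) := by
  unfold kap
  exact ENNReal.ofReal_toReal measure_ball_lt_top.ne

theorem presence_inner {d : ℕ} {f : E d → ℝ} (hf : Continuous f)
    (hE : volume {y | y ∈ ball (0 : E d) 2 ∧ 0 < f y} ≤ ENNReal.ofReal (kap d / 4))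
    {y : E d} (hy : y ∈ ball (0 : E d) 1) :
    ENNReal.ofReal (f y) * ENNReal.ofReal (kap d / 2) ≤
      ∫⁻ v in ball (0 : E d) 1, ENNReal.ofReal (dist3 (f (y - v)) (f y) (f (y + v))) := by
  set E₀ : Set (E d) := {y | y ∈ ball (0 : E d) 2 ∧ 0 < f y} with hE₀
  have hE₀m : MeasurableSet E₀ :=
    measurableSet_ball.inter (measurableSet_lt measurable_const hf.measurable)
  set G : Set (E d) := {v | v ∈ ball (0 : E d) 1 ∧ f (y + v) ≤ 0 ∧ f (y - v) ≤ 0} with hG
  have hGm : MeasurableSet G := by
    have h1 : Continuous fun v : E d => f (y + v) := by fun_prop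
    have h2 : Continuous fun v : E d => f (y - v) := by fun_prop
    exact measurableSet_ball.inter ((measurableSet_le h1.measurable measurable_const).inter
      (measurableSet_le h2.measurable measurable_const))
  have hsub : ball (0 : E d) 1 ⊆ (G ∪ (fun v => y + v) ⁻¹' E₀) ∪ (fun v => y - v) ⁻¹' E₀ := by
    intro v hv
    have hv1 : ‖v‖ < 1 := by rwa [mem_ball_zero_iff] at hv
    have hy1 : ‖y‖ < 1 := by rwa [mem_ball_zero_iff] at hy
    by_cases h1 : 0 < f (y + v)
    · left; right
      refine ⟨?_, h1⟩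
      rw [mem_ball_zero_iff]
      have := norm_add_le y v
      linarith
    · by_cases h2 : 0 < f (y - v)
      · right
        refine ⟨?_, h2⟩
        rw [mem_ball_zero_iff]
        have := norm_sub_le y v
        linarith
      · left; left
        exact ⟨hv, not_lt.mp h1, not_lt.mp h2⟩
  have hm1 : volume ((fun v => y + v) ⁻¹' E₀) = volume E₀ := measure_preimage_add volume y E₀
  have hm2 : volume ((fun v => y - v) ⁻¹' E₀) = volume E₀ :=
    (Measure.measurePreserving_sub_left volume y).measure_preimage hE₀m.nullMeasurableSet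
  have hk : 0 < kap d := presence_kap_pos d
  have hvol : ENNReal.ofReal (kap d / 2) ≤ volume G := by
    have h1 : ENNReal.ofReal (kap d) ≤ volume G + ENNReal.ofReal (kap d / 2) := by
      calc ENNReal.ofReal (kap d) = volume (ball (0 : E d) 1) := presence_ofReal_kap d
        _ ≤ volume ((G ∪ (fun v => y + v) ⁻¹' E₀) ∪ (fun v => y - v) ⁻¹' E₀) :=
            measure_mono hsub
        _ ≤ volume (G ∪ (fun v => y + v) ⁻¹' E₀) + volume ((fun v => y - v) ⁻¹' E₀) :=
            measure_union_le _ _
        _ ≤ (volume G + volume ((fun v => y + v) ⁻¹' E₀)) + volume ((fun v => y - v) ⁻¹' E₀) := by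
            gcongr
            exact measure_union_le _ _
        _ ≤ (volume G + ENNReal.ofReal (kap d / 4)) + ENNReal.ofReal (kap d / 4) := by
            rw [hm1, hm2]
            gcongr
        _ = volume G + ENNReal.ofReal (kap d / 2) := by
            rw [add_assoc, ← ENNReal.ofReal_add (by positivity) (by positivity)]
            congr 2
            ring
    have h2 : ENNReal.ofReal (kap d) = ENNReal.ofReal (kap d / 2) + ENNReal.ofReal (kap d / 2) := by
      rw [← ENNReal.ofReal_add (by positivity) (by positivity)]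
      congr 1
      ring
    rw [h2] at h1
    exact (ENNReal.add_le_add_iff_right ENNReal.ofReal_ne_top).mp h1
  calc ENNReal.ofReal (f y) * ENNReal.ofReal (kap d / 2)
      ≤ ENNReal.ofReal (f y) * volume G := by gcongr
    _ = ∫⁻ _v in G, ENNReal.ofReal (f y) := by rw [setLIntegral_const]
    _ ≤ ∫⁻ v in G, ENNReal.ofReal (dist3 (f (y - v)) (f y) (f (y + v))) := by
        apply setLIntegral_mono' hGm
        rintro v ⟨-, h1, h2⟩
        apply ENNReal.ofReal_le_ofReal
        have h3 := sub_max_le_dist3 (f (y - v)) (f y) (f (y + v))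
        have h4 : max (f (y - v)) (f (y + v)) ≤ 0 := max_le h2 h1
        linarith
    _ ≤ _ := lintegral_mono_set fun v hv => hv.1

theorem presence_NN_one {d : ℕ} (f : E d → ℝ) :
    NN f 1 1 1 (ball 0 1) = ∫⁻ y in ball (0 : E d) 1, ∫⁻ v in ball (0 : E d) 1,
      ENNReal.ofReal (dist3 (f (y - v)) (f y) (f (y + v))) := by
  unfold NN
  simp

theorem presence_NN_neg {d : ℕ} (f : E d → ℝ) (K : ℕ) (ρ t : ℝ) (Q : Set (E d)) :
    NN (fun y => -f y) K ρ t Q = NN f K ρ t Q := by
  have h : ∀ a b c : ℝ, dist3 (-a) (-b) (-c) = dist3 a b c := by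
    intro a b c
    unfold dist3
    have e1 : |-b - -a| = |b - a| := by rw [← abs_neg]; congr 1; ring
    have e2 : |-c - -b| = |c - b| := by rw [← abs_neg]; congr 1; ring
    have e3 : |-c - -a| = |c - a| := by rw [← abs_neg]; congr 1; ring
    rw [e1, e2, e3]
  unfold NN
  simp only [h]

theorem presence_pos {d : ℕ} (hd : 0 < d) {f : E d → ℝ} (hf : Continuous f)
    (h0 : (∫ y in ball (0 : E d) 1, f y) = 0)
    (hE : volume {y | y ∈ ball (0 : E d) 2 ∧ 0 < f y} ≤ ENNReal.ofReal (kap d / 4)) :
    ∫⁻ y in ball (0 : E d) 1, ENNReal.ofReal |f y| ≤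
      ENNReal.ofReal (4 / kap d) * NN f 1 1 1 (ball 0 1) := by
  have hk : 0 < kap d := presence_kap_pos d
  have hint : IntegrableOn f (ball (0 : E d) 1) := by
    have h1 : IntegrableOn f (closedBall (0 : E d) 1) :=
      hf.continuousOn.integrableOn_compact (isCompact_closedBall _ _)
    exact h1.mono_set ball_subset_closedBall
  have hsplit : ∫⁻ y in ball (0 : E d) 1, ENNReal.ofReal |f y|
      = (∫⁻ y in ball (0 : E d) 1, ENNReal.ofReal (f y))
        + ∫⁻ y in ball (0 : E d) 1, ENNReal.ofReal (-f y) := by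
    rw [← lintegral_add_left (by fun_prop)]
    refine lintegral_congr fun y => ?_
    rcases le_total 0 (f y) with h | h
    · rw [abs_of_nonneg h, ENNReal.ofReal_of_nonpos (by linarith : -f y ≤ 0), add_zero]
    · rw [abs_of_nonpos h, ENNReal.ofReal_of_nonpos h, zero_add]
  have hpos_ne : ∫⁻ y in ball (0 : E d) 1, ENNReal.ofReal (f y) ≠ ⊤ :=
    hint.lintegral_lt_top.ne
  have hneg_ne : ∫⁻ y in ball (0 : E d) 1, ENNReal.ofReal (-f y) ≠ ⊤ :=
    hint.neg.lintegral_lt_top.ne
  have heq : ∫⁻ y in ball (0 : E d) 1, ENNReal.ofReal (-f y)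
      = ∫⁻ y in ball (0 : E d) 1, ENNReal.ofReal (f y) := by
    have h1 := integral_eq_lintegral_pos_part_sub_lintegral_neg_part hint
    rw [h0] at h1
    exact ((ENNReal.toReal_eq_toReal_iff' hneg_ne hpos_ne).mp (by linarith))
  have hlow : (∫⁻ y in ball (0 : E d) 1, ENNReal.ofReal (f y)) * ENNReal.ofReal (kap d / 2)
      ≤ NN f 1 1 1 (ball 0 1) := by
    rw [presence_NN_one, ← lintegral_mul_const _ (by fun_prop)]
    exact setLIntegral_mono' measurableSet_ball fun y hy => presence_inner hf hE hy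
  calc ∫⁻ y in ball (0 : E d) 1, ENNReal.ofReal |f y|
      = 2 * ∫⁻ y in ball (0 : E d) 1, ENNReal.ofReal (f y) := by rw [hsplit, heq, two_mul]
    _ = ENNReal.ofReal (4 / kap d) *
        ((∫⁻ y in ball (0 : E d) 1, ENNReal.ofReal (f y)) * ENNReal.ofReal (kap d / 2)) := by
        rw [mul_comm (∫⁻ y in ball (0 : E d) 1, ENNReal.ofReal (f y)), ← mul_assoc,
          ← ENNReal.ofReal_mul (by positivity)]
        congr 1
        have : 4 / kap d * (kap d / 2) = 2 := by field_simp; norm_num
        rw [this]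
        norm_num
    _ ≤ _ := by gcongr

theorem presence_neg {d : ℕ} (hd : 0 < d) {f : E d → ℝ} (hf : Continuous f)
    (h0 : (∫ y in ball (0 : E d) 1, f y) = 0)
    (hF : volume {y | y ∈ ball (0 : E d) 2 ∧ f y ≤ 0} ≤ ENNReal.ofReal (kap d / 4)) :
    ∫⁻ y in ball (0 : E d) 1, ENNReal.ofReal |f y| ≤
      ENNReal.ofReal (4 / kap d) * NN f 1 1 1 (ball 0 1) := by
  have h1 : (∫ y in ball (0 : E d) 1, -f y) = 0 := by
    rw [integral_neg, h0, neg_zero]
  have h2 : volume {y | y ∈ ball (0 : E d) 2 ∧ 0 < -f y} ≤ ENNReal.ofReal (kap d / 4) := by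
    refine (measure_mono ?_).trans hF
    rintro y ⟨hy1, hy2⟩
    exact ⟨hy1, by linarith⟩
  have h3 := presence_pos hd hf.neg h1 h2
  simp only [Pi.neg_apply, abs_neg] at h3
  rwa [show (-f) = fun y => -f y from rfl, presence_NN_neg] at h3

end

end Vale.Agent.P137F
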