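import Vale.Agent.Lib.P137F.CaseI
import Vale.Agent.Lib.P137F.CaseII
import Vale.Agent.Lib.P137F.Presence

/-!
# P137F: the local lemma at unit scale and its scaled version
-/

namespace Vale.Agent.P137F

open MeasureTheory Metric Set ENNReal
open scoped Pointwise Topology

noncomputable section

theorem local_kap_pos (d : ℕ) : 0 < kap d := by
  unfold kap
  exact ENNReal.toReal_pos (measure_ball_pos volume _ one_pos).ne' measure_ball_lt_top.ne

/-- Local lemma at unit scale: assembly of `presence_pos`, `presence_neg`, `struct`, `caseI`,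
`caseII` (with `K = 20000 R`, `ρ = 40 R`, `S = 3R/2`). -/
theorem local_lemma (d : ℕ) (hd : 0 < d) : ∃ (K : ℕ) (ρ S c₁ C₁ η : ℝ), 1 ≤ K ∧ 1 ≤ ρ ∧ 0 < S ∧
    0 < c₁ ∧ 0 < C₁ ∧ 0 < η ∧
    ∀ (f : E d → ℝ) (ν : E d), Continuous f → ‖ν‖ = 1 →
      (∫ y in ball (0 : E d) 1, f y) = 0 →
      (∀ v : E d, ‖v + ν‖ ≤ 1 → ∫ y in ball v 1, f y ≤ 0) →
      ENNReal.ofReal c₁ ≤ NN (ind 0 f) K ρ 1 (ball 0 ρ) ∨
      ∫⁻ y in ball (0 : E d) 1, ENNReal.ofReal |f y| ≤
          ENNReal.ofReal C₁ * NN f K ρ 1 (ball 0 ρ) ∨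
      ENNReal.ofReal η ≤ volume (goodDir f S ν) := by
  have hkap := local_kap_pos d
  obtain ⟨R, c₁, hR, hc₁, hst⟩ := struct d hd
  obtain ⟨CI, hCI, hI⟩ := caseI d hd R hR
  obtain ⟨CII, hCII, hII⟩ := caseII d hd R hR
  have hR' : (12 : ℝ) ≤ (R : ℝ) := by exact_mod_cast hR
  refine ⟨20000 * R, 40 * R, 3 / 2 * R, c₁, max (4 / kap d) (max CI CII),
    kap d / (2 * 1000 ^ d), by omega, by linarith, by linarith, hc₁,
    lt_max_of_lt_left (by positivity), by positivity, ?_⟩
  intro f ν hf hν h0 hle
  by_cases hN : NN (ind 0 f) (20000 * R) (40 * R) 1 (ball (0 : E d) (40 * R)) < ENNReal.ofReal c₁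
  · -- comparison of the different `NN`
    have hcomp : ∀ (C : ℝ) (K' : ℕ) (ρ' : ℝ), C ≤ max (4 / kap d) (max CI CII) →
        K' ≤ 20000 * R → (1 : ℝ) ≤ 40 * R → ρ' ≤ 40 * R →
        ENNReal.ofReal C * NN f K' 1 1 (ball (0 : E d) ρ') ≤
          ENNReal.ofReal (max (4 / kap d) (max CI CII)) *
            NN f (20000 * R) (40 * R) 1 (ball (0 : E d) (40 * R)) := by
      intro C K' ρ' hC hK' h1 hρ'
      exact mul_le_mul' (ENNReal.ofReal_le_ofReal hC) (NN_mono f 1 hK' h1 (ball_subset_ball hρ'))
    by_cases hpos : volume {y | y ∈ ball (0 : E d) 2 ∧ 0 < f y} ≤ ENNReal.ofReal (kap d / 4)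
    · right; left
      exact (presence_pos hd hf h0 hpos).trans
        (hcomp _ 1 1 (le_max_left _ _) (by omega) (by linarith) (by linarith))
    by_cases hneg : volume {y | y ∈ ball (0 : E d) 2 ∧ f y ≤ 0} ≤ ENNReal.ofReal (kap d / 4)
    · right; left
      exact (presence_neg hd hf h0 hneg).trans
        (hcomp _ 1 1 (le_max_left _ _) (by omega) (by linarith) (by linarith))
    have hN' : NN (ind 0 f) R (40 * R) 1 (ball (0 : E d) (40 * R)) < ENNReal.ofReal c₁ :=
      lt_of_le_of_lt (NN_mono _ 1 (by omega) le_rfl (Subset.refl _)) hN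
    rcases hst f ν hf hν hN' (not_le.mp hpos) (not_le.mp hneg) with hcase | hcase
    · right; left
      exact (hI f ν hf hν h0 hle hcase).trans
        (hcomp _ (20000 * R) 2 ((le_max_left _ _).trans (le_max_right _ _)) le_rfl
          (by linarith) (by linarith))
    · right
      rcases hII f ν hf hν h0 hcase with h | h
      · left
        exact h.trans
          (hcomp _ (20000 * R) (5 / 2 * R) ((le_max_right _ _).trans (le_max_right _ _)) le_rfl
            (by linarith) (by linarith))
      · right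
        exact h
  · left
    exact not_lt.mp hN

/-- change of variables for integrals over balls. -/
theorem local_setIntegral {d : ℕ} (f : E d → ℝ) (z v : E d) {r : ℝ} (hr : 0 < r) :
    ∫ y in ball v 1, f (z + r • y) = (r ^ d)⁻¹ * ∫ y in ball (z + r • v) r, f y := by
  have h1 := MeasureTheory.Measure.setIntegral_comp_smul_of_pos (volume : Measure (E d))
    (fun y => f (z + y)) (ball v 1) hr
  rw [h1, _root_.smul_ball hr.ne', finrank_euclideanSpace_fin, smul_eq_mul, Real.norm_of_nonneg hr.le,
    mul_one]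
  congr 1
  rw [← integral_indicator measurableSet_ball, ← integral_indicator measurableSet_ball]
  rw [← integral_add_left_eq_self ((ball (z + r • v) r).indicator f) z]
  congr 1
  funext y
  by_cases hy : y ∈ ball (r • v) r
  · have hy' : z + y ∈ ball (z + r • v) r := by
      rw [mem_ball, dist_add_left]; exact hy
    rw [indicator_of_mem hy, indicator_of_mem hy']
  · have hy' : z + y ∉ ball (z + r • v) r := by
      rw [mem_ball, dist_add_left]; exact hy
    rw [indicator_of_notMem hy, indicator_of_notMem hy']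

theorem local_volume_ball {d : ℕ} (z : E d) {r : ℝ} (hr : 0 < r) :
    volume.real (ball z r) = r ^ d * kap d := by
  unfold kap
  rw [Measure.real, Measure.addHaar_ball_of_pos volume z hr, ENNReal.toReal_mul,
    ENNReal.toReal_ofReal (by positivity), finrank_euclideanSpace_fin, Measure.real]

/-- the rescaled integral of `f - m`. -/
theorem local_scaled_integral {d : ℕ} {f : E d → ℝ} (hf : Continuous f) (m : ℝ) (z v : E d) {r : ℝ}
    (hr : 0 < r) :
    ∫ y in ball v 1, (f (z + r • y) - m) =
      (r ^ d)⁻¹ * ((∫ y in ball (z + r • v) r, f y) - m * volume.real (ball (z + r • v) r)) := by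
  have hc : Continuous fun y : E d => f (z + r • y) := by fun_prop
  have hi : IntegrableOn (fun y : E d => f (z + r • y)) (ball v 1) :=
    (hc.continuousOn.integrableOn_compact (isCompact_closedBall v 1)).mono_set
      ball_subset_closedBall
  have hrd : (r : ℝ) ^ d ≠ 0 := by positivity
  rw [integral_sub hi (by
      rw [← IntegrableOn]
      exact integrableOn_const measure_ball_lt_top.ne), local_setIntegral f z v hr,
    setIntegral_const, smul_eq_mul, local_volume_ball v one_pos, local_volume_ball _ hr]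
  field_simp
  rw [one_pow]
  ring

/-- Markov: half of the unit ball is good. -/
theorem local_markov {d : ℕ} {g : E d → ℝ} (hg : Continuous g) :
    ENNReal.ofReal (kap d / 2) ≤ volume {y | y ∈ ball (0 : E d) 1 ∧
      ENNReal.ofReal |g y| ≤ ENNReal.ofReal (2 / kap d) *
        ∫⁻ y in ball (0 : E d) 1, ENNReal.ofReal |g y|} := by
  have hkap := local_kap_pos d
  set I : ℝ≥0∞ := ∫⁻ y in ball (0 : E d) 1, ENNReal.ofReal |g y| with hI
  set ε : ℝ≥0∞ := ENNReal.ofReal (2 / kap d) * I with hε
  have hmeas : Measurable fun y : E d => ENNReal.ofReal |g y| := by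
    have : Continuous fun y : E d => |g y| := by fun_prop
    exact this.measurable.ennreal_ofReal
  set A : Set (E d) := {y | y ∈ ball (0 : E d) 1 ∧ ENNReal.ofReal |g y| ≤ ε} with hA
  set B : Set (E d) := {y | ε < ENNReal.ofReal |g y|} with hB
  have hBm : MeasurableSet B := measurableSet_lt measurable_const hmeas
  have hvol : volume (ball (0 : E d) 1) = ENNReal.ofReal (kap d) := by
    unfold kap
    rw [Measure.real, ENNReal.ofReal_toReal measure_ball_lt_top.ne]
  have hBle : volume (B ∩ ball (0 : E d) 1) ≤ ENNReal.ofReal (kap d / 2) := by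
    have hrestr : volume (B ∩ ball (0 : E d) 1) = (volume.restrict (ball (0 : E d) 1)) B := by
      rw [Measure.restrict_apply hBm]
    rw [hrestr]
    have hmk := mul_meas_ge_le_lintegral (μ := volume.restrict (ball (0 : E d) 1)) hmeas ε
    rw [← hI] at hmk
    by_cases hI0 : I = 0
    · have h1 : (fun y : E d => ENNReal.ofReal |g y|)
          =ᵐ[volume.restrict (ball (0 : E d) 1)] 0 := (lintegral_eq_zero_iff hmeas).mp (by
            rw [← hI0])
      have h2 : (volume.restrict (ball (0 : E d) 1)) B = 0 := by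
        have h3 : ∀ᵐ y ∂(volume.restrict (ball (0 : E d) 1)), ¬ y ∈ B := by
          filter_upwards [h1] with y hy
          rw [hB, mem_ofPred_eq, hy]
          simp
        rw [ae_iff] at h3
        simpa using h3
      rw [h2]
      exact zero_le
    · by_cases hIt : I = ⊤
      · have h2 : B = ∅ := by
          rw [hB, hε, hIt, ENNReal.mul_top (by
            rw [Ne, ENNReal.ofReal_eq_zero, not_le]
            positivity)]
          ext y
          simp
        rw [h2, measure_empty]
        exact zero_le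
      · have h2 : (volume.restrict (ball (0 : E d) 1)) B ≤
            (volume.restrict (ball (0 : E d) 1)) {y | ε ≤ ENNReal.ofReal |g y|} :=
          measure_mono fun y (hy : ε < ENNReal.ofReal |g y|) => hy.le
        refine h2.trans ?_
        set m := (volume.restrict (ball (0 : E d) 1)) {y | ε ≤ ENNReal.ofReal |g y|} with hm
        have h3 : ENNReal.ofReal (2 / kap d) * m ≤ 1 := by
          have h4 : I * (ENNReal.ofReal (2 / kap d) * m) ≤ I * 1 := by
            rw [mul_one]
            calc I * (ENNReal.ofReal (2 / kap d) * m) = ε * m := by rw [hε]; ring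
              _ ≤ I := hmk
          exact (ENNReal.mul_le_mul_iff_right hI0 hIt).mp h4
        have h5 : ENNReal.ofReal (kap d / 2) * ENNReal.ofReal (2 / kap d) = 1 := by
          rw [← ENNReal.ofReal_mul (by positivity)]
          have : kap d / 2 * (2 / kap d) = 1 := by field_simp
          rw [this, ENNReal.ofReal_one]
        calc m = 1 * m := (one_mul m).symm
          _ = ENNReal.ofReal (kap d / 2) * (ENNReal.ofReal (2 / kap d) * m) := by
              rw [← h5, mul_assoc]
          _ ≤ ENNReal.ofReal (kap d / 2) * 1 := by gcongr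
          _ = ENNReal.ofReal (kap d / 2) := mul_one _
  have hsub : ball (0 : E d) 1 ⊆ A ∪ (B ∩ ball (0 : E d) 1) := by
    intro y hy
    by_cases h : ENNReal.ofReal |g y| ≤ ε
    · exact Or.inl ⟨hy, h⟩
    · exact Or.inr ⟨not_le.mp h, hy⟩
  have h1 : ENNReal.ofReal (kap d) ≤ volume A + ENNReal.ofReal (kap d / 2) := by
    rw [← hvol]
    exact (measure_mono hsub).trans ((measure_union_le _ _).trans (by gcongr))
  have h2 : ENNReal.ofReal (kap d) = ENNReal.ofReal (kap d / 2) + ENNReal.ofReal (kap d / 2) := by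
    rw [← ENNReal.ofReal_add (by positivity) (by positivity)]
    congr 1
    ring
  rw [h2] at h1
  exact (ENNReal.add_le_add_iff_right ENNReal.ofReal_ne_top).mp h1

/-- transport of a lower bound for the measure of a subset of the unit ball. -/
theorem local_volume_image {d : ℕ} (z : E d) {r t κ : ℝ} (ht : 0 < t) (htr : t ≤ r)
    {A B : Set (E d)} (hκ : ENNReal.ofReal κ ≤ volume A)
    (hAB : ∀ y ∈ A, z + r • y ∈ B) : ENNReal.ofReal (κ * t ^ d) ≤ volume B := by
  have hr : 0 < r := lt_of_lt_of_le ht htr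
  have h1 : r • A ⊆ (fun y => z + y) ⁻¹' B := by
    rintro _ ⟨y, hy, rfl⟩
    exact hAB y hy
  have h2 : volume (r • A) ≤ volume B := by
    calc volume (r • A) ≤ volume ((fun y => z + y) ⁻¹' B) := measure_mono h1
      _ = volume B := measure_preimage_add volume z B
  refine le_trans ?_ h2
  rw [Measure.addHaar_smul, finrank_euclideanSpace_fin, abs_of_pos (by positivity)]
  rw [mul_comm κ, ENNReal.ofReal_mul (by positivity)]
  gcongr

/-- Scaled local lemma. Apply `local_lemma` to `g y = f (z + r y) - M x`, with `x = z - r ν`;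
use `NN_scale_le`, `NN_sub_const`.  In the first two alternatives `M x ∈ Gam ...` for every
`p ∈ ball z t` (in the second one: by Markov at least half of `ball z r` satisfies
`|f y - M x| ≤ 2 ∫_{ball z r} |f - M x| / |ball z r|`, and `|ball z r| ≥ κ t^d`).
In the third alternative the direction `θ` is of type A with `q` slightly smaller than `S r`
(`f` is continuous); the segment stays in `ball x (ρ r) ⊆ Z`. -/
theorem local_scaled (d : ℕ) (hd : 0 < d) : ∃ (K : ℕ) (ρ c₁ C₁ η : ℝ), 1 ≤ K ∧ 1 ≤ ρ ∧
    0 < c₁ ∧ 0 < C₁ ∧ 0 < η ∧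
    ∀ (f M : E d → ℝ), MaxPair f M → ∀ (x z ν : E d) (r : ℝ), 0 < r → ‖ν‖ = 1 →
      z = x + r • ν → (∫ y in ball z r, f y) = M x * volume.real (ball z r) →
      ∀ t : ℝ, 0 < t → t ≤ r → r ≤ 2 * t → ∀ Z : Set (E d), ball x (ρ * r) ⊆ Z →
        (∀ p ∈ ball z t, M x ∈ Gam f K ρ c₁ C₁ t p) ∨
        ENNReal.ofReal η ≤ volume {θ | θ ∈ ball ν (1 / 1000) ∧ inA f M Z θ x} := by
  have hkap := local_kap_pos d
  obtain ⟨K, ρ₀, S, c, C, η, hK, hρ₀, hS, hc, hC, hη, hloc⟩ := local_lemma d hd
  refine ⟨K, max (3 * ρ₀) (2 * S), min c (kap d / 2), 2 / kap d * C, η, hK,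
    le_max_of_le_left (by linarith), lt_min hc (by positivity), by positivity, hη, ?_⟩
  intro f M hfM x z ν r hr hν hz hint t ht htr hrt Z hZ
  set ρ : ℝ := max (3 * ρ₀) (2 * S) with hρ
  have hρ1 : 3 * ρ₀ ≤ ρ := le_max_left _ _
  have hρ2 : 2 * S ≤ ρ := le_max_right _ _
  obtain ⟨Lf, hLf⟩ := hfM.lip_f
  have hfc : Continuous f := hLf.continuous
  set g : E d → ℝ := fun y => f (z + r • y) - M x with hg
  have hgc : Continuous g := by rw [hg]; fun_prop
  have hg0 : (∫ y in ball (0 : E d) 1, g y) = 0 := by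
    rw [hg, local_scaled_integral hfc (M x) z 0 hr, smul_zero, add_zero, hint, sub_self, mul_zero]
  have hvpos : ∀ y : E d, 0 < volume.real (ball y r) := by
    intro y
    rw [local_volume_ball y hr]
    positivity
  have hgle : ∀ v : E d, ‖v + ν‖ ≤ 1 → ∫ y in ball v 1, g y ≤ 0 := by
    intro v hv
    rw [hg, local_scaled_integral hfc (M x) z v hr]
    have h1 : ‖x - (z + r • v)‖ ≤ r := by
      have h2 : x - (z + r • v) = -(r • (v + ν)) := by rw [hz]; module
      rw [h2, norm_neg, norm_smul, Real.norm_of_nonneg hr.le]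
      nlinarith
    have h3 := hfM.avg_le x (z + r • v) r hr h1
    exact mul_nonpos_of_nonneg_of_nonpos (by positivity) (by linarith)
  rcases hloc g ν hgc hν hg0 hgle with h | h | h
  · -- first alternative
    left
    intro p hp
    left
    have hp' : ‖z - p‖ < t := by
      rw [← dist_eq_norm, dist_comm]
      exact hp
    have hind : ind 0 g = fun y => ind (M x) f (z + r • y) := by
      funext y
      unfold ind
      simp only [hg, sub_pos]
    have hm : Measurable (ind (M x) f) := by
      have := (measurable_ind hfc).comp (measurable_const (a := M x) |>.prodMk measurable_id)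
      exact this
    have h1 := NN_scale_le hd hm K hρ₀ ht htr hrt hp'
    rw [← hind] at h1
    have h2 : NN (ind (M x) f) K (3 * ρ₀) t (ball p (3 * ρ₀ * t)) ≤
        NN (ind (M x) f) K ρ t (ball p (ρ * t)) :=
      NN_mono _ t le_rfl hρ1 (ball_subset_ball (by gcongr))
    rw [mem_ofPred_eq]
    refine le_trans ?_ (h1.trans h2)
    rw [mul_comm (min c (kap d / 2)), ENNReal.ofReal_mul (by positivity)]
    gcongr
    exact (ENNReal.ofReal_le_ofReal (min_le_left _ _)).trans h
  · -- second alternative
    left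
    intro p hp
    right
    have hp' : ‖z - p‖ < t := by
      rw [← dist_eq_norm, dist_comm]
      exact hp
    have h1 := NN_scale_le hd hfc.measurable K hρ₀ ht htr hrt hp'
    have h2 : NN f K (3 * ρ₀) t (ball p (3 * ρ₀ * t)) ≤ NN f K ρ t (ball p (ρ * t)) :=
      NN_mono _ t le_rfl hρ1 (ball_subset_ball (by gcongr))
    have h3 : NN g K ρ₀ 1 (ball 0 ρ₀) = NN (fun y => f (z + r • y)) K ρ₀ 1 (ball 0 ρ₀) :=
      NN_sub_const _ _ _ _ _ _
    rw [h3] at h
    have h4 := local_markov hgc
    rw [mem_ofPred_eq]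
    have h5 := local_volume_image (B := {y | y ∈ ball p (ρ * t) ∧
      ENNReal.ofReal (|f y - M x| * t ^ d) ≤
        ENNReal.ofReal (2 / kap d * C) * NN f K ρ t (ball p (ρ * t))}) z ht htr h4 ?_
    · refine le_trans (ENNReal.ofReal_le_ofReal ?_) h5
      gcongr
      exact min_le_right _ _
    · rintro y ⟨hy1, hy2⟩
      refine ⟨?_, ?_⟩
      · rw [mem_ball, dist_eq_norm]
        have e1 : z + r • y - p = (z - p) + r • y := by abel
        have e2 : ‖r • y‖ ≤ 2 * t := by
          rw [norm_smul, Real.norm_of_nonneg hr.le]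
          rw [mem_ball_zero_iff] at hy1
          nlinarith [norm_nonneg y]
        have e3 : 3 * t ≤ ρ * t := by
          have : 3 ≤ ρ := by linarith
          gcongr
        rw [e1]
        calc ‖(z - p) + r • y‖ ≤ ‖z - p‖ + ‖r • y‖ := norm_add_le _ _
          _ < t + 2 * t := by linarith
          _ = 3 * t := by ring
          _ ≤ ρ * t := e3
      · have e1 : |f (z + r • y) - M x| = |g y| := rfl
        rw [e1, mul_comm, ENNReal.ofReal_mul (by positivity)]
        calc ENNReal.ofReal (t ^ d) * ENNReal.ofReal |g y|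
            ≤ ENNReal.ofReal (t ^ d) * (ENNReal.ofReal (2 / kap d) *
                (ENNReal.ofReal C * NN (fun y => f (z + r • y)) K ρ₀ 1 (ball 0 ρ₀))) := by
              gcongr
              exact hy2.trans (by gcongr)
          _ = ENNReal.ofReal (2 / kap d * C) *
                (ENNReal.ofReal (t ^ d) *
                  NN (fun y => f (z + r • y)) K ρ₀ 1 (ball 0 ρ₀)) := by
              rw [ENNReal.ofReal_mul (by positivity)]
              ring
          _ ≤ _ := by
              gcongr
              exact h1.trans h2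
  · -- third alternative
    right
    refine h.trans (measure_mono ?_)
    rintro θ ⟨hθ, hpos, hseg⟩
    refine ⟨hθ, ?_⟩
    have hθn : ‖θ‖ < 2 := by
      have h1 : ‖θ - ν‖ < 1 / 1000 := by rwa [← dist_eq_norm]
      calc ‖θ‖ = ‖(θ - ν) + ν‖ := by rw [sub_add_cancel]
        _ ≤ ‖θ - ν‖ + ‖ν‖ := norm_add_le _ _
        _ < 2 := by rw [hν]; linarith
    have hpos' : M x < f (x + (r * S) • θ) := by
      have e1 : z + r • (-ν + S • θ) = x + (r * S) • θ := by rw [hz]; module
      simp only [hg, e1] at hpos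
      linarith
    have hrS : 0 < r * S := by positivity
    have hev : ∀ᶠ s : ℝ in 𝓝[<] (r * S), M x < f (x + s • θ) ∧ 0 < s := by
      have hc1 : ContinuousAt (fun s : ℝ => f (x + s • θ)) (r * S) := by fun_prop
      have h1 : ∀ᶠ s : ℝ in 𝓝 (r * S), M x < f (x + s • θ) :=
        hc1.eventually (lt_mem_nhds hpos')
      have h2 : ∀ᶠ s : ℝ in 𝓝 (r * S), 0 < s := lt_mem_nhds hrS
      exact (h1.and h2).filter_mono nhdsWithin_le_nhds
    obtain ⟨a, ha, hsub⟩ := (mem_nhdsLT_iff_exists_Ioo_subset).mp hev
    obtain ⟨q, hq1, hq2⟩ := exists_rat_btwn (show a < r * S from ha)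
    have hq := hsub ⟨hq1, hq2⟩
    refine ⟨q, by exact_mod_cast hq.2, hq.1, ?_⟩
    intro s hs0 hsq
    have hsr : s / r ≤ S := by
      rw [div_le_iff₀ hr]
      linarith [mul_comm r S]
    refine ⟨?_, ?_⟩
    · obtain ⟨z', hz', hz'0⟩ := hseg (s / r) (by positivity) hsr
      rw [hg, local_scaled_integral hfc (M x) z z' hr] at hz'0
      have h1 : M x * volume.real (ball (z + r • z') r) ≤ ∫ y in ball (z + r • z') r, f y := by
        have h2 : 0 < (r ^ d)⁻¹ := by positivity
        have h3 := nonneg_of_mul_nonneg_right hz'0 h2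
        linarith
      have h2 : ‖x + s • θ - (z + r • z')‖ ≤ r := by
        have e1 : x + s • θ - (z + r • z') = r • ((-ν + (s / r) • θ) - z') := by
          rw [hz, smul_sub, smul_add, smul_smul, mul_div_cancel₀ s hr.ne']
          module
        rw [e1, norm_smul, Real.norm_of_nonneg hr.le]
        nlinarith
      have h3 := hfM.avg_le (x + s • θ) (z + r • z') r hr h2
      exact le_of_mul_le_mul_right (h1.trans h3) (hvpos _)
    · apply hZ
      rw [mem_ball, dist_eq_norm, add_sub_cancel_left, norm_smul, Real.norm_of_nonneg hs0]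
      have h1 : s * ‖θ‖ ≤ (q : ℝ) * ‖θ‖ := by gcongr
      have hq0 : (0 : ℝ) < (q : ℝ) := hq.2
      have h2 : (q : ℝ) * ‖θ‖ ≤ (q : ℝ) * 2 := by gcongr
      have h3 : (q : ℝ) * 2 < r * S * 2 := by linarith
      have h4 : r * S * 2 ≤ ρ * r := by nlinarith
      linarith

end

end Vale.Agent.P137F
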