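import Vale.Agent.Lib.P137F.Defs2

/-!
# P137F: the maximal function of a nonnegative Lipschitz function with compact support

* `uM f` is bounded by `sup f`, and Lipschitz with the constant of `f` (translate balls).
* `f x ≤ M x`: averages over `ball x r`, `r → 0`.
* `avg_le` for balls with `‖x - z‖ ≤ r`: enlarge the radius a little and let it decrease to `r`.
* `exists_ball`: if `f x < M x`, a maximising sequence `(z_k, r_k)` has `r_k` bounded (the average is
  `≤ ‖f‖₁ / (κ r^d)`, `M x > 0`, `d ≥ 1`) and bounded below by a positive constant (for small balls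
  containing `x` the average is `≤ f x + 2 K r`); compactness.
-/

namespace Vale.Agent.P137F

open MeasureTheory Metric Set ENNReal

noncomputable section

/-- The average of `f` over the ball `ball z r`, rescaled to the unit ball; it makes sense for all
real `r`. -/
def GG {d : ℕ} (f : E d → ℝ) (z : E d) (r : ℝ) : ℝ :=
  (∫ w in ball (0 : E d) 1, f (z + r • w)) / volume.real (ball (0 : E d) 1)

theorem GG_vol_pos {d : ℕ} : 0 < volume.real (ball (0 : E d) 1) :=
  ENNReal.toReal_pos (measure_ball_pos _ _ one_pos).ne' measure_ball_lt_top.ne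

theorem GG_vol {d : ℕ} (z : E d) {r : ℝ} (hr : 0 < r) :
    volume.real (ball z r) = r ^ d * volume.real (ball (0 : E d) 1) := by
  rw [measureReal_def, Measure.addHaar_ball_of_pos volume z hr, ENNReal.toReal_mul,
    ENNReal.toReal_ofReal (by positivity), finrank_euclideanSpace_fin, ← measureReal_def]

theorem GG_integral {d : ℕ} (f : E d → ℝ) (z : E d) {r : ℝ} (hr : 0 < r) :
    ∫ y in ball z r, f y = GG f z r * volume.real (ball z r) := by
  have h1 : ∫ y in ball z r, f y = ∫ y in ball (0 : E d) r, f (z + y) := by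
    have h := (measurePreserving_add_left (volume : Measure (E d)) z).setIntegral_preimage_emb
      (measurableEmbedding_addLeft z) f (ball z r)
    rw [← h]
    congr 2
    ext y
    simp [mem_ball, dist_eq_norm]
  have h2 := Measure.setIntegral_comp_smul_of_pos (volume : Measure (E d))
    (fun y => f (z + y)) (ball (0 : E d) 1) hr
  rw [smul_unitBall_of_pos hr, finrank_euclideanSpace_fin] at h2
  have hv := GG_vol_pos (d := d)
  have hrd : 0 < r ^ d := by positivity
  rw [GG, GG_vol z hr, h1]
  have h3 : ∫ w in ball (0 : E d) 1, f (z + r • w) =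
      (r ^ d)⁻¹ * ∫ y in ball (0 : E d) r, f (z + y) := h2
  rw [h3]
  field_simp

theorem GG_lip {d : ℕ} {f : E d → ℝ} {K : NNReal} (hK : LipschitzWith K f) (z z' : E d)
    (r r' : ℝ) : GG f z r ≤ GG f z' r' + K * (‖z - z'‖ + |r - r'|) := by
  have hv := GG_vol_pos (d := d)
  have hfin : volume (ball (0 : E d) 1) ≠ ⊤ := measure_ball_lt_top.ne
  have hint : ∀ (z : E d) (r : ℝ), IntegrableOn (fun w => f (z + r • w)) (ball (0 : E d) 1) := by
    intro z r
    have hc : Continuous (fun w : E d => f (z + r • w)) :=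
      hK.continuous.comp (continuous_const.add (continuous_const_smul r))
    exact (hc.continuousOn.integrableOn_compact (isCompact_closedBall (0 : E d) 1)).mono_set
      ball_subset_closedBall
  have h1 : ∫ w in ball (0 : E d) 1, f (z + r • w) ≤
      ∫ w in ball (0 : E d) 1, (f (z' + r' • w) + K * (‖z - z'‖ + |r - r'|)) := by
    apply setIntegral_mono_on (hint z r) _ measurableSet_ball
    · intro w hw
      have hw1 : ‖w‖ < 1 := by simpa using hw
      have h := hK.dist_le_mul (z + r • w) (z' + r' • w)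
      rw [Real.dist_eq, dist_eq_norm] at h
      have h2 : z + r • w - (z' + r' • w) = (z - z') + (r - r') • w := by
        rw [sub_smul]; abel
      rw [h2] at h
      have h3 : ‖(z - z') + (r - r') • w‖ ≤ ‖z - z'‖ + |r - r'| := by
        refine (norm_add_le _ _).trans ?_
        rw [norm_smul, Real.norm_eq_abs]
        have : |r - r'| * ‖w‖ ≤ |r - r'| * 1 :=
          mul_le_mul_of_nonneg_left hw1.le (abs_nonneg _)
        linarith
      have h4 : (K : ℝ) * ‖(z - z') + (r - r') • w‖ ≤ K * (‖z - z'‖ + |r - r'|) :=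
        mul_le_mul_of_nonneg_left h3 K.2
      have h5 := (abs_le.1 (h.trans h4)).2
      linarith
    · exact (hint z' r').add (integrableOn_const hfin)
  rw [integral_add (hint z' r') (integrableOn_const hfin), setIntegral_const, smul_eq_mul] at h1
  rw [GG, GG]
  have h2 : (∫ w in ball (0 : E d) 1, f (z' + r' • w)) / volume.real (ball (0 : E d) 1) +
      K * (‖z - z'‖ + |r - r'|) = ((∫ w in ball (0 : E d) 1, f (z' + r' • w)) +
      volume.real (ball (0 : E d) 1) * (K * (‖z - z'‖ + |r - r'|))) /
        volume.real (ball (0 : E d) 1) := by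
    field_simp
  rw [h2]
  exact div_le_div_of_nonneg_right h1 hv.le

theorem GG_zero {d : ℕ} (f : E d → ℝ) (z : E d) : GG f z 0 = f z := by
  have hv := GG_vol_pos (d := d)
  simp only [GG, zero_smul, add_zero, setIntegral_const, smul_eq_mul]
  field_simp

theorem GG_cont {d : ℕ} {f : E d → ℝ} {K : NNReal} (hK : LipschitzWith K f) :
    Continuous (fun p : E d × ℝ => GG f p.1 p.2) := by
  have h : LipschitzWith (2 * K) (fun p : E d × ℝ => GG f p.1 p.2) := by
    apply LipschitzWith.of_le_add_mul
    intro p q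
    have h1 := GG_lip hK p.1 q.1 p.2 q.2
    have h2 : ‖p.1 - q.1‖ ≤ dist p q := by
      rw [← dist_eq_norm]; exact le_max_left _ _
    have h3 : |p.2 - q.2| ≤ dist p q := by
      rw [← Real.dist_eq]; exact le_max_right _ _
    have h4 : (K : ℝ) * (‖p.1 - q.1‖ + |p.2 - q.2|) ≤ K * (dist p q + dist p q) :=
      mul_le_mul_of_nonneg_left (by linarith) K.2
    have h5 : ((2 * K : NNReal) : ℝ) = 2 * K := by push_cast; ring
    rw [h5]
    linarith
  exact h.continuous

theorem GG_nonneg {d : ℕ} {f : E d → ℝ} (h0 : ∀ x, 0 ≤ f x) (z : E d) (r : ℝ) :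
    0 ≤ GG f z r :=
  div_nonneg (setIntegral_nonneg measurableSet_ball (fun _ _ => h0 _)) GG_vol_pos.le

/-- The quotient in the definition of `uM` is the real average. -/
theorem GG_avg {d : ℕ} {f : E d → ℝ} (h0 : ∀ x, 0 ≤ f x) (hf : Integrable f) (z : E d) {r : ℝ}
    (hr : 0 < r) :
    (∫⁻ y in ball z r, ENNReal.ofReal |f y|) / volume (ball z r) = ENNReal.ofReal (GG f z r) := by
  have h1 : ∫⁻ y in ball z r, ENNReal.ofReal |f y| =
      ENNReal.ofReal (∫ y in ball z r, f y) := by
    rw [ofReal_integral_eq_lintegral_ofReal hf.integrableOn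
      (Filter.Eventually.of_forall (fun y => h0 y))]
    congr 1
    ext y
    rw [abs_of_nonneg (h0 y)]
  have hv : 0 < volume.real (ball z r) :=
    ENNReal.toReal_pos (measure_ball_pos _ _ hr).ne' measure_ball_lt_top.ne
  have h2 : volume (ball z r) = ENNReal.ofReal (volume.real (ball z r)) := by
    rw [measureReal_def, ENNReal.ofReal_toReal measure_ball_lt_top.ne]
  rw [h1, h2, ← ENNReal.ofReal_div_of_pos hv, GG_integral f z hr,
    mul_div_cancel_right₀ _ hv.ne']

theorem maxPair_uM {d : ℕ} (hd : 0 < d) {f : E d → ℝ} (h0 : ∀ x, 0 ≤ f x)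
    (hlip : ∃ K, LipschitzWith K f) (hcs : HasCompactSupport f) :
    (∀ x, uM f x < ⊤) ∧ MaxPair f (fun x => (uM f x).toReal) := by
  obtain ⟨K, hK⟩ := hlip
  have hint : Integrable f := hK.continuous.integrable_of_hasCompactSupport hcs
  have hv := GG_vol_pos (d := d)
  -- bound of `f`
  obtain ⟨B, hB⟩ : ∃ B, ∀ x, ‖f x‖ ≤ B := hcs.exists_bound_of_continuous hK.continuous
  have hB' : ∀ x, f x ≤ B := fun x => (le_abs_self _).trans (hB x)
  have hB0 : 0 ≤ B := (norm_nonneg _).trans (hB 0)
  have hGB : ∀ (z : E d) (r : ℝ), GG f z r ≤ B := by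
    intro z r
    rw [GG, div_le_iff₀ hv]
    have h1 : ∫ w in ball (0 : E d) 1, f (z + r • w) ≤ ∫ w in ball (0 : E d) 1, B := by
      apply setIntegral_mono_on _ (integrableOn_const measure_ball_lt_top.ne) measurableSet_ball
        (fun w _ => hB' _)
      have hc : Continuous (fun w : E d => f (z + r • w)) :=
        hK.continuous.comp (continuous_const.add (continuous_const_smul r))
      exact (hc.continuousOn.integrableOn_compact (isCompact_closedBall (0 : E d) 1)).mono_set
        ball_subset_closedBall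
    rw [setIntegral_const, smul_eq_mul] at h1
    linarith
  have hpos : ∀ {x z : E d} {r : ℝ}, x ∈ ball z r → 0 < r := fun hx =>
    lt_of_le_of_lt dist_nonneg (mem_ball.1 hx)
  have hle : ∀ (x : E d) (c : ℝ), (∀ (z : E d) (r : ℝ), x ∈ ball z r → GG f z r ≤ c) →
      uM f x ≤ ENNReal.ofReal c := by
    intro x c h
    refine iSup_le fun z => iSup_le fun r => iSup_le fun hx => ?_
    rw [GG_avg h0 hint z (hpos hx)]
    exact ENNReal.ofReal_le_ofReal (h z r hx)
  have hlt : ∀ x, uM f x < ⊤ := fun x =>
    (hle x B (fun z r _ => hGB z r)).trans_lt ENNReal.ofReal_lt_top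
  have hge : ∀ (x z : E d) (r : ℝ), x ∈ ball z r → GG f z r ≤ (uM f x).toReal := by
    intro x z r hx
    have h1 : ENNReal.ofReal (GG f z r) ≤ uM f x := by
      rw [← GG_avg h0 hint z (hpos hx)]
      exact le_iSup_of_le z (le_iSup_of_le r (le_iSup_of_le hx le_rfl))
    exact (ENNReal.ofReal_le_iff_le_toReal (hlt x).ne).1 h1
  have hge0 : ∀ (x z : E d) (r : ℝ), 0 ≤ r → ‖x - z‖ ≤ r → GG f z r ≤ (uM f x).toReal := by
    intro x z r hr hxz
    apply _root_.le_of_forall_pos_le_add
    intro ε hε
    have hδ : 0 < ε / ((K : ℝ) + 1) := div_pos hε (by positivity)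
    have h1 := hge x z (r + ε / ((K : ℝ) + 1)) (by
      rw [mem_ball, dist_eq_norm]; linarith)
    have h2 := GG_lip hK z z r (r + ε / ((K : ℝ) + 1))
    have h3 : |r - (r + ε / ((K : ℝ) + 1))| = ε / ((K : ℝ) + 1) := by
      rw [sub_add_cancel_left, abs_neg, abs_of_pos hδ]
    rw [sub_self, norm_zero, zero_add, h3] at h2
    have h4 : (K : ℝ) * (ε / ((K : ℝ) + 1)) ≤ ε := by
      have hK0 : (0 : ℝ) ≤ K := K.2
      rw [mul_div_assoc', div_le_iff₀ (by positivity)]
      nlinarith
    linarith
  have hM : ∀ (x : E d) (c : ℝ), c < (uM f x).toReal → 0 ≤ c →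
      ∃ (z : E d) (r : ℝ), x ∈ ball z r ∧ c < GG f z r := by
    intro x c hc hc0
    by_contra hcon
    push Not at hcon
    have h1 := hle x c hcon
    have h2 := ENNReal.toReal_mono ENNReal.ofReal_ne_top h1
    rw [ENNReal.toReal_ofReal hc0] at h2
    linarith
  refine ⟨hlt, ?_⟩
  refine ⟨⟨K, hK⟩, ⟨K, ?_⟩, hint, ?_, ?_, ?_⟩
  · -- Lipschitz
    apply LipschitzWith.of_le_add_mul
    intro x y
    have hc0 : 0 ≤ (uM f y).toReal + K * dist x y :=
      add_nonneg ENNReal.toReal_nonneg (mul_nonneg K.2 dist_nonneg)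
    have h1 := hle x ((uM f y).toReal + K * dist x y) (by
      intro z r hx
      have h2 := GG_lip hK z (z + (y - x)) r r
      have h3 := hge y (z + (y - x)) r (by
        rw [mem_ball, dist_eq_norm] at hx ⊢
        have : y - (z + (y - x)) = x - z := by abel
        rw [this]; exact hx)
      have h4 : ‖z - (z + (y - x))‖ = dist x y := by
        rw [dist_eq_norm]; congr 1; abel
      rw [h4, sub_self, abs_zero, add_zero] at h2
      linarith)
    have h2 := ENNReal.toReal_mono ENNReal.ofReal_ne_top h1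
    rwa [ENNReal.toReal_ofReal hc0] at h2
  · intro x
    have h1 := hge0 x x 0 le_rfl (by simp)
    rwa [GG_zero] at h1
  · intro x z r hr hxz
    rw [GG_integral f z hr]
    exact mul_le_mul_of_nonneg_right (hge0 x z r hr.le hxz) measureReal_nonneg
  · intro x hx
    have hx' : f x < (uM f x).toReal := hx
    set m : ℝ := (uM f x).toReal with hm
    have hm0 : 0 < m := lt_of_le_of_lt (h0 x) hx'
    -- upper bound for the radius
    set I : ℝ := ∫ y, f y with hI
    have hI0 : 0 ≤ I := integral_nonneg h0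
    set κ : ℝ := volume.real (ball (0 : E d) 1) with hκ
    set c₀ : ℝ := (f x + m) / 2 with hc₀
    have hc₀m : c₀ < m := by rw [hc₀]; linarith
    have hc₀f : f x < c₀ := by rw [hc₀]; linarith
    have hc₀0 : 0 < c₀ := lt_of_le_of_lt (h0 x) hc₀f
    set R : ℝ := max 1 (I / (κ * c₀)) with hR
    set s : ℝ := (c₀ - f x) / (2 * (K : ℝ) + 1) with hs
    have hK0 : (0 : ℝ) ≤ K := K.2
    have hs0 : 0 < s := div_pos (by linarith) (by positivity)
    have hrange : ∀ (z : E d) (r : ℝ), x ∈ ball z r → c₀ < GG f z r → s ≤ r ∧ r ≤ R := by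
      intro z r hxz hGz
      have hr := hpos hxz
      have hnx : ‖x - z‖ < r := by rwa [mem_ball, dist_eq_norm] at hxz
      constructor
      · have h1 := GG_lip hK z x r 0
        rw [GG_zero, sub_zero, abs_of_pos hr, norm_sub_rev] at h1
        have h2 : (K : ℝ) * (‖x - z‖ + r) ≤ K * (r + r) :=
          mul_le_mul_of_nonneg_left (by linarith) hK0
        rw [hs, div_le_iff₀ (by positivity)]
        nlinarith
      · by_cases hr1 : r ≤ 1
        · exact hr1.trans (le_max_left _ _)
        · push Not at hr1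
          refine le_trans ?_ (le_max_right _ _)
          rw [le_div_iff₀ (by positivity)]
          have h1 : ∫ y in ball z r, f y ≤ I :=
            setIntegral_le_integral hint (Filter.Eventually.of_forall h0)
          rw [GG_integral f z hr, GG_vol z hr] at h1
          have h2 : r ≤ r ^ d := le_self_pow₀ hr1.le hd.ne'
          have h3 : c₀ * (r * κ) ≤ GG f z r * (r ^ d * κ) := by
            apply mul_le_mul hGz.le _ (by positivity) (GG_nonneg h0 z r)
            exact mul_le_mul_of_nonneg_right h2 hv.le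
          nlinarith
    -- compactness
    set P : Set (E d × ℝ) := {p | s ≤ p.2 ∧ p.2 ≤ R ∧ ‖x - p.1‖ ≤ p.2} with hP
    have hPc : IsCompact P := by
      apply Metric.isCompact_of_isClosed_isBounded
      · have h1 : IsClosed {p : E d × ℝ | s ≤ p.2} := isClosed_le continuous_const continuous_snd
        have h2 : IsClosed {p : E d × ℝ | p.2 ≤ R} := isClosed_le continuous_snd continuous_const
        have h3 : IsClosed {p : E d × ℝ | ‖x - p.1‖ ≤ p.2} :=
          isClosed_le (continuous_const.sub continuous_fst).norm continuous_snd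
        have h4 : P = {p : E d × ℝ | s ≤ p.2} ∩ ({p : E d × ℝ | p.2 ≤ R} ∩
            {p : E d × ℝ | ‖x - p.1‖ ≤ p.2}) := by
          ext p; simp [hP]
        rw [h4]
        exact h1.inter (h2.inter h3)
      · apply (Metric.isBounded_closedBall (x := ((x, (0 : ℝ)) : E d × ℝ)) (r := R)).subset
        intro p hp
        obtain ⟨hp1, hp2, hp3⟩ := hp
        rw [mem_closedBall, Prod.dist_eq]
        apply max_le
        · show dist p.1 x ≤ R
          rw [dist_eq_norm, norm_sub_rev]; linarith
        · show dist p.2 0 ≤ R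
          rw [Real.dist_eq, sub_zero, abs_of_nonneg (hs0.le.trans hp1)]; exact hp2
    have hPn : P.Nonempty := by
      obtain ⟨z, r, hxz, hGz⟩ := hM x c₀ hc₀m hc₀0.le
      obtain ⟨h1, h2⟩ := hrange z r hxz hGz
      refine ⟨(z, r), h1, h2, ?_⟩
      rw [mem_ball, dist_eq_norm] at hxz
      exact hxz.le
    obtain ⟨p, hpP, hpmax⟩ := hPc.exists_isMaxOn hPn (GG_cont hK).continuousOn
    obtain ⟨hp1, hp2, hp3⟩ := hpP
    have hp0 : 0 < p.2 := lt_of_lt_of_le hs0 hp1
    have hub : GG f p.1 p.2 ≤ m := hge0 x p.1 p.2 hp0.le hp3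
    have hlb : m ≤ GG f p.1 p.2 := by
      by_contra hcon
      push Not at hcon
      have hmax : max c₀ (GG f p.1 p.2) < m := max_lt hc₀m hcon
      obtain ⟨z, r, hxz, hGz⟩ := hM x (max c₀ (GG f p.1 p.2)) hmax
        (hc₀0.le.trans (le_max_left _ _))
      obtain ⟨h1, h2⟩ := hrange z r hxz (lt_of_le_of_lt (le_max_left _ _) hGz)
      have hzP : ((z, r) : E d × ℝ) ∈ P := by
        refine ⟨h1, h2, ?_⟩
        rw [mem_ball, dist_eq_norm] at hxz
        exact hxz.le
      have h3 : GG f z r ≤ GG f p.1 p.2 := hpmax hzP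
      have h4 := lt_of_le_of_lt (le_max_right _ _) hGz
      linarith
    refine ⟨p.1, p.2, hp0, hp3, ?_⟩
    rw [GG_integral f p.1 hp0, le_antisymm hub hlb]

end

end Vale.Agent.P137F
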