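import Vale.Agent.Lib.P137F.Dist3

/-!
# P137F: a set with few non-monotone triples is regular at unit scale in a big ball

Proof. For real sequences `∑_{i<M} |x (i+1) - x i| = |x M - x 0| + 2 ∑_{k=1}^{M-1} dist3 (x 0) (x k) (x (k+1))`
(telescoping the definition of `dist3`).  Apply it to `x i = u (h + i v)`, `u = ind 0 f ∈ {0,1}`,
`‖v‖ < 10`, `h ∈ ball 0 (30 R)`, `M = R`, integrate over `h` and `v`; for each `i < R`,
`∫_{h ∈ ball 0 (30R)} |u (h+(i+1)v) - u (h+iv)| ≥ ∫_{h ∈ ball 0 (20R)} |u (h+v) - u h|`, and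
the triple `(h, h + k v, h + (k+1) v)` is `(y - k v, y, y + v)` with `y = h + k v ∈ ball 0 (40R)`.
-/

namespace Vale.Agent.P137F

open MeasureTheory Metric Set ENNReal

noncomputable section

theorem sum_abs_eq (x : ℕ → ℝ) (M : ℕ) (hM : 1 ≤ M) :
    ∑ i ∈ Finset.range M, |x (i + 1) - x i| =
      |x M - x 0| + 2 * ∑ k ∈ Finset.Ico 1 M, dist3 (x 0) (x k) (x (k + 1)) := by
  induction M, hM using Nat.le_induction with
  | base => simp
  | succ M hM ih =>
    rw [Finset.sum_range_succ, ih, Finset.sum_Ico_succ_top hM, mul_add]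
    unfold dist3
    ring

theorem regular_shift_le {d : ℕ} (F : E d → ℝ≥0∞) {a c : ℝ} {w : E d} (h : a + ‖w‖ ≤ c) :
    ∫⁻ x in ball (0 : E d) a, F x ≤ ∫⁻ x in ball (0 : E d) c, F (x + w) := by
  rw [← lintegral_indicator measurableSet_ball, ← lintegral_indicator measurableSet_ball,
    ← lintegral_add_right_eq_self _ w]
  refine lintegral_mono fun x => ?_
  by_cases hx : x + w ∈ ball (0 : E d) a
  · have hx' : x ∈ ball (0 : E d) c := by
      rw [mem_ball_zero_iff] at hx ⊢
      have h1 : ‖x‖ ≤ ‖x + w‖ + ‖w‖ := by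
        have := norm_sub_le (x + w) w
        rwa [add_sub_cancel_right] at this
      linarith
    rw [indicator_of_mem hx, indicator_of_mem hx']
  · rw [indicator_of_notMem hx]
    exact zero_le

theorem measurable_ind_zero {d : ℕ} {f : E d → ℝ} (hf : Continuous f) : Measurable (ind 0 f) := by
  unfold ind
  exact Measurable.ite (measurableSet_lt measurable_const hf.measurable) measurable_const
    measurable_const

theorem regular_abs_ind_sub_le {d : ℕ} (f : E d → ℝ) (x y : E d) :
    |ind 0 f x - ind 0 f y| ≤ 1 := by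
  unfold ind
  split_ifs <;> simp

theorem regular_dist3_measurable {d : ℕ} {u : E d → ℝ} (hu : Measurable u) {α : Type*}
    [MeasurableSpace α] {p q r : α → E d} (hp : Measurable p) (hq : Measurable q)
    (hr : Measurable r) : Measurable (fun a => ENNReal.ofReal (dist3 (u (p a)) (u (q a)) (u (r a)))) := by
  refine ENNReal.measurable_ofReal.comp ?_
  unfold dist3
  have h1 := hu.comp hp
  have h2 := hu.comp hq
  have h3 := hu.comp hr
  simp only [Function.comp_def] at h1 h2 h3
  have e1 : Measurable fun a => |u (q a) - u (p a)| := (h2.sub h1).abs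
  have e2 : Measurable fun a => |u (r a) - u (q a)| := (h3.sub h2).abs
  have e3 : Measurable fun a => |u (r a) - u (p a)| := (h3.sub h1).abs
  exact ((e1.add e2).sub e3).div_const 2

/-- the pointwise (in `v`) form. -/
theorem regular_pointwise {d : ℕ} {f : E d → ℝ} (hf : Continuous f) (R : ℕ) (hR : 1 ≤ R)
    {v : E d} (hv : v ∈ ball (0 : E d) 10) :
    (R : ℝ≥0∞) * ∫⁻ h in ball (0 : E d) (20 * R), ENNReal.ofReal |ind 0 f (h + v) - ind 0 f h| ≤
      volume (ball (0 : E d) (30 * R)) + 2 * ∑ k ∈ Finset.Icc 1 R,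
        ∫⁻ y in ball (0 : E d) (40 * R),
          ENNReal.ofReal (dist3 (ind 0 f (y - ((k : ℝ) * 1) • v)) (ind 0 f y)
            (ind 0 f (y + (1 : ℝ) • v))) := by
  have hu := measurable_ind_zero hf
  have hv' : ‖v‖ < 10 := by simpa using hv
  have hRpos : (0 : ℝ) < R := by exact_mod_cast hR
  set u := ind 0 f with hudef
  -- step 1
  have h1 : ∀ i ∈ Finset.range R,
      ∫⁻ h in ball (0 : E d) (20 * R), ENNReal.ofReal |u (h + v) - u h| ≤
        ∫⁻ h in ball (0 : E d) (30 * R),
          ENNReal.ofReal |u (h + ((i + 1 : ℕ) : ℝ) • v) - u (h + (i : ℝ) • v)| := by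
    intro i hi
    have hi' : (i : ℝ) ≤ R := by exact_mod_cast (Finset.mem_range.1 hi).le
    have hi0 : (0 : ℝ) ≤ i := Nat.cast_nonneg i
    have hw : (20 * (R : ℝ)) + ‖(i : ℝ) • v‖ ≤ 30 * R := by
      rw [norm_smul, Real.norm_of_nonneg hi0]
      nlinarith [norm_nonneg v]
    refine (regular_shift_le (fun h => ENNReal.ofReal |u (h + v) - u h|) hw).trans ?_
    refine lintegral_mono fun h => ?_
    have e : h + ((i + 1 : ℕ) : ℝ) • v = h + (i : ℝ) • v + v := by
      push_cast
      rw [add_smul, one_smul, add_assoc]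
    rw [e]
  -- step 2
  have h2 : (R : ℝ≥0∞) * ∫⁻ h in ball (0 : E d) (20 * R), ENNReal.ofReal |u (h + v) - u h| ≤
      ∑ i ∈ Finset.range R, ∫⁻ h in ball (0 : E d) (30 * R),
          ENNReal.ofReal |u (h + ((i + 1 : ℕ) : ℝ) • v) - u (h + (i : ℝ) • v)| := by
    have := Finset.sum_le_sum h1
    simpa [Finset.sum_const, nsmul_eq_mul] using this
  refine h2.trans ?_
  have hmabs : ∀ i : ℕ, Measurable fun h : E d =>
      ENNReal.ofReal |u (h + ((i + 1 : ℕ) : ℝ) • v) - u (h + (i : ℝ) • v)| := by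
    intro i
    refine ENNReal.measurable_ofReal.comp ?_
    exact ((hu.comp (measurable_add_const _)).sub (hu.comp (measurable_add_const _))).abs
  have hmd : ∀ k : ℕ, Measurable fun h : E d =>
      ENNReal.ofReal (dist3 (u h) (u (h + (k : ℝ) • v)) (u (h + ((k + 1 : ℕ) : ℝ) • v))) := by
    intro k
    exact regular_dist3_measurable hu measurable_id (measurable_add_const _)
      (measurable_add_const _)
  rw [← lintegral_finsetSum _ (fun i _ => hmabs i)]
  -- pointwise identity
  have h3 : ∀ h : E d, ∑ i ∈ Finset.range R,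
      ENNReal.ofReal |u (h + ((i + 1 : ℕ) : ℝ) • v) - u (h + (i : ℝ) • v)| ≤
      1 + 2 * ∑ k ∈ Finset.Ico 1 R,
        ENNReal.ofReal (dist3 (u h) (u (h + (k : ℝ) • v)) (u (h + ((k + 1 : ℕ) : ℝ) • v))) := by
    intro h
    have e := sum_abs_eq (fun i : ℕ => u (h + (i : ℝ) • v)) R hR
    simp only [Nat.cast_zero, zero_smul, add_zero] at e
    rw [← ENNReal.ofReal_sum_of_nonneg (fun i _ => abs_nonneg _), e,
      ENNReal.ofReal_add (abs_nonneg _) (mul_nonneg zero_le_two
        (Finset.sum_nonneg fun k _ => dist3_nonneg _ _ _)),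
      ENNReal.ofReal_mul zero_le_two, ENNReal.ofReal_sum_of_nonneg (fun k _ => dist3_nonneg _ _ _)]
    refine add_le_add ?_ ?_
    · rw [← ENNReal.ofReal_one]
      exact ENNReal.ofReal_le_ofReal (regular_abs_ind_sub_le f _ _)
    · rw [ENNReal.ofReal_ofNat]
  refine (lintegral_mono h3).trans ?_
  rw [lintegral_add_left measurable_const, lintegral_const, one_mul,
    Measure.restrict_apply MeasurableSet.univ, univ_inter,
    lintegral_const_mul _ (Finset.measurable_fun_sum _ fun k _ => hmd k),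
    lintegral_finsetSum _ (fun k _ => hmd k)]
  refine add_le_add le_rfl (mul_le_mul_right ?_ 2)
  refine (Finset.sum_le_sum fun k hk => ?_).trans (Finset.sum_le_sum_of_subset
    (f := fun k : ℕ => ∫⁻ y in ball (0 : E d) (40 * R),
          ENNReal.ofReal (dist3 (u (y - ((k : ℝ) * 1) • v)) (u y)
            (u (y + (1 : ℝ) • v)))) (fun k hk => ?_))
  · have hk' : (k : ℝ) ≤ R := by exact_mod_cast (Finset.mem_Ico.1 hk).2.le
    have hk0 : (0 : ℝ) ≤ k := Nat.cast_nonneg k
    have hw : (30 * (R : ℝ)) + ‖-((k : ℝ) • v)‖ ≤ 40 * R := by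
      rw [norm_neg, norm_smul, Real.norm_of_nonneg hk0]
      nlinarith [norm_nonneg v]
    refine (regular_shift_le (fun h => ENNReal.ofReal (dist3 (u h) (u (h + (k : ℝ) • v))
      (u (h + ((k + 1 : ℕ) : ℝ) • v)))) hw).trans ?_
    refine lintegral_mono fun y => ?_
    have e1 : y + -((k : ℝ) • v) = y - ((k : ℝ) * 1) • v := by rw [mul_one, sub_eq_add_neg]
    have e2 : y + -((k : ℝ) • v) + (k : ℝ) • v = y := by abel
    have e3 : y + -((k : ℝ) • v) + ((k + 1 : ℕ) : ℝ) • v = y + (1 : ℝ) • v := by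
      push_cast
      rw [add_smul]
      abel
    show ENNReal.ofReal (dist3 (u (y + -((k : ℝ) • v))) (u (y + -((k : ℝ) • v) + (k : ℝ) • v))
      (u (y + -((k : ℝ) • v) + ((k + 1 : ℕ) : ℝ) • v))) ≤ _
    rw [e3, e2, e1]
  · rw [Finset.mem_Ico] at hk
    rw [Finset.mem_Icc]
    omega

theorem regular {d : ℕ} (hd : 0 < d) {f : E d → ℝ} (hf : Continuous f) (R : ℕ) (hR : 1 ≤ R) :
    (R : ℝ≥0∞) * ∫⁻ v in ball (0 : E d) 10, ∫⁻ h in ball (0 : E d) (20 * R),
        ENNReal.ofReal |ind 0 f (h + v) - ind 0 f h| ≤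
      volume (ball (0 : E d) 10) * volume (ball (0 : E d) (30 * R)) +
        2 * NN (ind 0 f) R 10 1 (ball 0 (40 * R)) := by
  have hu := measurable_ind_zero hf
  rw [← lintegral_const_mul' _ _ (ENNReal.natCast_ne_top R)]
  have hjoint : ∀ k : ℕ, Measurable (Function.uncurry fun (v y : E d) =>
      ENNReal.ofReal (dist3 (ind 0 f (y - ((k : ℝ) * 1) • v)) (ind 0 f y)
            (ind 0 f (y + (1 : ℝ) • v)))) := by
    intro k
    have hc1 : Continuous fun p : E d × E d => p.2 - ((k : ℝ) * 1) • p.1 := by fun_prop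
    have hc3 : Continuous fun p : E d × E d => p.2 + (1 : ℝ) • p.1 := by fun_prop
    exact regular_dist3_measurable hu hc1.measurable measurable_snd hc3.measurable
  have hint : ∀ k : ℕ, Measurable fun v : E d => ∫⁻ y in ball (0 : E d) (40 * R),
      ENNReal.ofReal (dist3 (ind 0 f (y - ((k : ℝ) * 1) • v)) (ind 0 f y)
            (ind 0 f (y + (1 : ℝ) • v))) := fun k => (hjoint k).lintegral_prod_right'
  calc ∫⁻ v in ball (0 : E d) 10, (R : ℝ≥0∞) * ∫⁻ h in ball (0 : E d) (20 * R),
        ENNReal.ofReal |ind 0 f (h + v) - ind 0 f h|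
      ≤ ∫⁻ v in ball (0 : E d) 10, (volume (ball (0 : E d) (30 * R)) + 2 * ∑ k ∈ Finset.Icc 1 R,
        ∫⁻ y in ball (0 : E d) (40 * R),
          ENNReal.ofReal (dist3 (ind 0 f (y - ((k : ℝ) * 1) • v)) (ind 0 f y)
            (ind 0 f (y + (1 : ℝ) • v)))) :=
        setLIntegral_mono' measurableSet_ball fun v hv => regular_pointwise hf R hR hv
    _ = volume (ball (0 : E d) 10) * volume (ball (0 : E d) (30 * R)) +
        2 * NN (ind 0 f) R 10 1 (ball 0 (40 * R)) := by
      rw [lintegral_add_left measurable_const, lintegral_const,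
        Measure.restrict_apply MeasurableSet.univ, univ_inter, mul_comm (volume (ball (0 : E d) 10)),
        lintegral_const_mul _ (Finset.measurable_fun_sum _ fun k _ => hint k),
        lintegral_finsetSum _ (fun k _ => hint k)]
      unfold NN
      congr 2
      refine Finset.sum_congr rfl fun k _ => ?_
      exact lintegral_lintegral_swap (hjoint k).aemeasurable

end

end Vale.Agent.P137F
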