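import Vale.Agent.Lib.P137F.Regular

/-!
# P137F: structure of a level set with few non-monotone triples

Put `u = ind 0 f`, `δ = 1 / (16 * 10^d)`, `ε = 1 / (4 * 17000^d)`, `κ = |ball 0 1|`.
* by `regular` and Markov, for all `h ∈ ball 0 (20R)` outside a set `X₁` of measure
  `≤ (τ/δ) |ball 0 (20R)|`, `∫_{v ∈ ball 0 10} |u (h+v) - u h| ≤ δ |ball 0 10|`; for such `h`: if
  `u h = 1` then `|{f ≤ 0} ∩ ball h 10| ≤ δ |ball 0 10|` (`E`-dense) and if `u h = 0` then
  `|{f > 0} ∩ ball h 10| ≤ δ |ball 0 10|` (`F`-dense).  Here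
  `τ = (1.5^d)/R + 2 NN / (R |ball 0 10| |ball 0 (20R)|)`.
* if `u h = u (-h) = 1` and `h, -h ∉ X₁` then for `b ∈ {f ≤ 0} ∩ ball 0 2` (measure `≥ κ/4`) outside
  a set of measure `≤ 2 δ |ball 0 10| ≤ κ/8` the triple `(b - h, b, b + h)` is bad; hence the set of
  such `h` has measure `≤ (8/κ) NN` (term `k = 1`, `v = h`); the same for `u h = u (-h) = 0` with
  `b ∈ {f > 0} ∩ ball 0 2`.
* So for most `h ∈ ball 0 (20R)` exactly one of `h, -h` is `E`-dense and the other is `F`-dense.
  If some `h₀` with `R ≤ ‖h₀‖`, `⟪h₀,ν⟫ ≤ -‖h₀‖/2` is `E`-dense with `-h₀` `F`-dense we are in case I.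
  Otherwise for most `h ∈ farM R ν` one has `u h = 0` and `u (-h) = 1`: case II.
Choose `R` with `1.5^d/(R δ) ≤ ε/8` and then `c₁` small.
-/

namespace Vale.Agent.P137F

open MeasureTheory Metric Set ENNReal

noncomputable section

/-- `h` is `E`-dense (and `-h` is `F`-dense): case I. -/
def CaseIcond {d : ℕ} (f : E d → ℝ) (R : ℕ) (ν h₀ : E d) : Prop :=
  (R : ℝ) ≤ ‖h₀‖ ∧ ‖h₀‖ ≤ 20 * R ∧ inner ℝ h₀ ν ≤ -(‖h₀‖ / 2) ∧
    volume {y | y ∈ ball h₀ 10 ∧ f y ≤ 0} ≤ ENNReal.ofReal (kap d / 16) ∧
    volume {y | y ∈ ball (-h₀) 10 ∧ 0 < f y} ≤ ENNReal.ofReal (kap d / 16)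

/-- case II. -/
def CaseIIcond {d : ℕ} (f : E d → ℝ) (R : ℕ) (ν : E d) : Prop :=
  volume {y | y ∈ farM R ν ∧ 0 < f y} ≤
      ENNReal.ofReal (kap d * (20 * R) ^ d / (4 * 17000 ^ d)) ∧
    volume {y | y ∈ farP R ν ∧ f y ≤ 0} ≤
      ENNReal.ofReal (kap d * (20 * R) ^ d / (4 * 17000 ^ d))

theorem struct_kap_pos (d : ℕ) : 0 < kap d := by
  unfold kap
  rw [Measure.real, ENNReal.toReal_pos_iff]
  exact ⟨measure_ball_pos _ _ one_pos, measure_ball_lt_top⟩

theorem struct_vol_ball (d : ℕ) (x : E d) {r : ℝ} (hr : 0 < r) :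
    volume (ball x r) = ENNReal.ofReal (kap d * r ^ d) := by
  rw [Measure.addHaar_ball_of_pos volume x hr, finrank_euclideanSpace, Fintype.card_fin,
    mul_comm (kap d), ENNReal.ofReal_mul (pow_nonneg hr.le d)]
  congr 1
  unfold kap
  rw [Measure.real, ENNReal.ofReal_toReal measure_ball_lt_top.ne]

theorem struct_meas_ind {d : ℕ} {f : E d → ℝ} (hf : Continuous f) : Measurable (ind 0 f) := by
  unfold ind
  exact Measurable.ite (measurableSet_lt measurable_const hf.measurable) measurable_const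
    measurable_const

theorem struct_le_div {A B : ℝ} (hA : 0 < A) (m : ℝ≥0∞)
    (h : ENNReal.ofReal A * m ≤ ENNReal.ofReal B) : m ≤ ENNReal.ofReal (B / A) := by
  rw [ENNReal.ofReal_div_of_pos hA, ENNReal.le_div_iff_mul_le (Or.inl ?_) (Or.inl ?_), mul_comm]
  · exact h
  · exact (ENNReal.ofReal_pos.2 hA).ne'
  · exact ENNReal.ofReal_ne_top

/-- the oscillation of the indicator on the ball of radius 10 -/
def structG {d : ℕ} (f : E d → ℝ) (h : E d) : ℝ≥0∞ :=
  ∫⁻ v in ball (0 : E d) 10, ENNReal.ofReal |ind 0 f (h + v) - ind 0 f h|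

theorem structG_measurable {d : ℕ} {f : E d → ℝ} (hf : Continuous f) :
    Measurable (structG f) := by
  unfold structG
  have hu := struct_meas_ind hf
  refine Measurable.lintegral_prod_right' (f := fun p : E d × E d =>
    ENNReal.ofReal |ind 0 f (p.1 + p.2) - ind 0 f p.1|) ?_
  exact (((hu.comp (measurable_fst.add measurable_snd)).sub
    (hu.comp measurable_fst)).abs).ennreal_ofReal

theorem structG_one {d : ℕ} {f : E d → ℝ} (hf : Continuous f) {h : E d} (hh : 0 < f h) :
    volume {y | y ∈ ball h 10 ∧ f y ≤ 0} = structG f h := by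
  have h1 : structG f h = ∫⁻ v, ((ball (0 : E d) 10) ∩ {v | f (h + v) ≤ 0}).indicator 1 v := by
    unfold structG
    rw [← lintegral_indicator measurableSet_ball]
    refine lintegral_congr fun v => ?_
    by_cases hv : v ∈ ball (0 : E d) 10
    · by_cases hfv : 0 < f (h + v)
      · rw [indicator_of_mem hv, indicator_of_notMem (fun hc => absurd hc.2 (not_le.2 hfv))]
        simp [ind, hh, hfv]
      · rw [indicator_of_mem hv, indicator_of_mem (show v ∈ (ball (0 : E d) 10) ∩
          {v | f (h + v) ≤ 0} from ⟨hv, not_lt.1 hfv⟩)]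
        simp [ind, hh, hfv]
    · rw [indicator_of_notMem hv, indicator_of_notMem (fun hc => hv hc.1)]
  have hc : Continuous fun v : E d => f (h + v) := hf.comp (continuous_const.add continuous_id)
  have hms : MeasurableSet ((ball (0 : E d) 10) ∩ {v | f (h + v) ≤ 0}) :=
    measurableSet_ball.inter (measurableSet_le hc.measurable measurable_const)
  rw [h1, lintegral_indicator_one hms, ← measure_preimage_add volume h
    {y | y ∈ ball h 10 ∧ f y ≤ 0}]
  congr 1
  ext v
  simp [mem_ball, dist_eq_norm]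

theorem structG_zero {d : ℕ} {f : E d → ℝ} (hf : Continuous f) {h : E d} (hh : f h ≤ 0) :
    volume {y | y ∈ ball h 10 ∧ 0 < f y} = structG f h := by
  have h1 : structG f h = ∫⁻ v, ((ball (0 : E d) 10) ∩ {v | 0 < f (h + v)}).indicator 1 v := by
    unfold structG
    rw [← lintegral_indicator measurableSet_ball]
    refine lintegral_congr fun v => ?_
    by_cases hv : v ∈ ball (0 : E d) 10
    · by_cases hfv : 0 < f (h + v)
      · rw [indicator_of_mem hv, indicator_of_mem (show v ∈ (ball (0 : E d) 10) ∩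
          {v | 0 < f (h + v)} from ⟨hv, hfv⟩)]
        simp [ind, not_lt.2 hh, hfv]
      · rw [indicator_of_mem hv, indicator_of_notMem (fun hc => hfv hc.2)]
        simp [ind, not_lt.2 hh, hfv]
    · rw [indicator_of_notMem hv, indicator_of_notMem (fun hc => hv hc.1)]
  have hc : Continuous fun v : E d => f (h + v) := hf.comp (continuous_const.add continuous_id)
  have hms : MeasurableSet ((ball (0 : E d) 10) ∩ {v | 0 < f (h + v)}) :=
    measurableSet_ball.inter (measurableSet_lt measurable_const hc.measurable)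
  rw [h1, lintegral_indicator_one hms, ← measure_preimage_add volume h
    {y | y ∈ ball h 10 ∧ 0 < f y}]
  congr 1
  ext v
  simp [mem_ball, dist_eq_norm]

/-- integral of the non-monotonicity of the triples `(y - v, y, y + v)` over `y` -/
def structT {d : ℕ} (f : E d → ℝ) (r : ℝ) (v : E d) : ℝ≥0∞ :=
  ∫⁻ y in ball (0 : E d) r,
    ENNReal.ofReal (dist3 (ind 0 f (y - v)) (ind 0 f y) (ind 0 f (y + v)))

theorem struct_meas_triple {d : ℕ} {f : E d → ℝ} (hf : Continuous f) :
    Measurable (fun p : E d × E d =>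
      ENNReal.ofReal (dist3 (ind 0 f (p.2 - p.1)) (ind 0 f p.2) (ind 0 f (p.2 + p.1)))) := by
  have hu := struct_meas_ind hf
  have h1 : Measurable fun p : E d × E d => ind 0 f (p.2 - p.1) :=
    hu.comp (measurable_snd.sub measurable_fst)
  have h2 : Measurable fun p : E d × E d => ind 0 f p.2 := hu.comp measurable_snd
  have h3 : Measurable fun p : E d × E d => ind 0 f (p.2 + p.1) :=
    hu.comp (measurable_snd.add measurable_fst)
  unfold dist3
  exact ((((h2.sub h1).abs.add (h3.sub h2).abs).sub (h3.sub h1).abs).div_const 2).ennreal_ofReal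

theorem structT_measurable {d : ℕ} {f : E d → ℝ} (hf : Continuous f) (r : ℝ) :
    Measurable (structT f r) := by
  unfold structT
  exact Measurable.lintegral_prod_right' (struct_meas_triple hf)

theorem structT_le {d : ℕ} {f : E d → ℝ} (hf : Continuous f) {R : ℕ} (hR : 1 ≤ R) (r : ℝ) :
    ∫⁻ v in ball (0 : E d) r, structT f r v ≤ NN (ind 0 f) R r 1 (ball 0 r) := by
  unfold structT
  rw [lintegral_lintegral_swap (f := fun (v y : E d) =>
      ENNReal.ofReal (dist3 (ind 0 f (y - v)) (ind 0 f y) (ind 0 f (y + v))))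
      (struct_meas_triple hf).aemeasurable]
  unfold NN
  refine le_trans (le_of_eq ?_) (Finset.single_le_sum (f := fun k : ℕ =>
    ∫⁻ y in ball (0 : E d) r, ∫⁻ v in ball (0 : E d) r,
      ENNReal.ofReal (dist3 (ind 0 f (y - ((k : ℝ) * 1) • v)) (ind 0 f y)
        (ind 0 f (y + (1 : ℝ) • v)))) (fun _ _ => zero_le) (Finset.mem_Icc.2 ⟨le_rfl, hR⟩))
  simp only [Nat.cast_one, mul_one, one_smul]

theorem struct_T_lower {d : ℕ} {f : E d → ℝ} {κ : ℝ} (hκ : 0 < κ) {r : ℝ}
    (hr : 2 ≤ r) (h : E d) (S₀ A B : Set (E d)) (hmS : MeasurableSet S₀) (hmA : MeasurableSet A)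
    (hmB : MeasurableSet B) (hsub : S₀ ⊆ ball 0 2)
    (h0 : ENNReal.ofReal (κ / 4) ≤ volume S₀)
    (hA : volume (ball (0 : E d) 2 ∩ A) ≤ ENNReal.ofReal (κ / 16))
    (hB : volume (ball (0 : E d) 2 ∩ B) ≤ ENNReal.ofReal (κ / 16))
    (hone : ∀ y ∈ S₀, y ∉ A → y ∉ B →
      1 ≤ ENNReal.ofReal (dist3 (ind 0 f (y - h)) (ind 0 f y) (ind 0 f (y + h)))) :
    ENNReal.ofReal (κ / 8) ≤ structT f r h := by
  set S : Set (E d) := S₀ \ (A ∪ B) with hS
  have hSm : MeasurableSet S := hmS.diff (hmA.union hmB)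
  have h1 : volume S₀ ≤ volume S + (ENNReal.ofReal (κ / 16) + ENNReal.ofReal (κ / 16)) := by
    have hsub' : S₀ ⊆ S ∪ ((ball (0 : E d) 2 ∩ A) ∪ (ball (0 : E d) 2 ∩ B)) := by
      intro y hy
      by_cases hyA : y ∈ A
      · exact Or.inr (Or.inl ⟨hsub hy, hyA⟩)
      · by_cases hyB : y ∈ B
        · exact Or.inr (Or.inr ⟨hsub hy, hyB⟩)
        · exact Or.inl ⟨hy, fun hc => hc.elim hyA hyB⟩
    exact (measure_mono hsub').trans ((measure_union_le _ _).trans
      (add_le_add le_rfl ((measure_union_le _ _).trans (add_le_add hA hB))))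
  have h2 : ENNReal.ofReal (κ / 8) + (ENNReal.ofReal (κ / 16) + ENNReal.ofReal (κ / 16)) ≤
      volume S + (ENNReal.ofReal (κ / 16) + ENNReal.ofReal (κ / 16)) := by
    refine le_trans (le_of_eq ?_) (h0.trans h1)
    rw [← ENNReal.ofReal_add (by positivity) (by positivity),
      ← ENNReal.ofReal_add (by positivity) (by positivity)]
    congr 1
    ring
  have h3 : ENNReal.ofReal (κ / 8) ≤ volume S :=
    ENNReal.le_of_add_le_add_right (by finiteness) h2
  refine h3.trans ?_
  unfold structT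
  calc volume S = ∫⁻ _ in S, 1 := by rw [setLIntegral_one]
    _ ≤ ∫⁻ y in S, ENNReal.ofReal (dist3 (ind 0 f (y - h)) (ind 0 f y) (ind 0 f (y + h))) := by
        refine setLIntegral_mono' hSm fun y hy => ?_
        exact hone y hy.1 (fun hc => hy.2 (Or.inl hc)) (fun hc => hy.2 (Or.inr hc))
    _ ≤ _ := lintegral_mono_set (fun y hy => ball_subset_ball hr (hsub hy.1))

theorem struct_shift {d : ℕ} (P : E d → Prop) (h : E d) {c : ℝ≥0∞}
    (hc : volume {y | y ∈ ball h 10 ∧ P y} ≤ c) :
    volume (ball (0 : E d) 2 ∩ {y | P (y + h)}) ≤ c := by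
  refine le_trans ?_ hc
  rw [← measure_preimage_add_right volume h {y | y ∈ ball h 10 ∧ P y}]
  refine measure_mono fun y hy => ?_
  refine ⟨?_, hy.2⟩
  have h1 : ‖y‖ < 2 := by simpa [mem_ball, dist_eq_norm] using hy.1
  simp only [mem_ball, dist_eq_norm, add_sub_cancel_right]
  linarith

theorem struct_key {d : ℕ} {f : E d → ℝ} (hf : Continuous f) {κ : ℝ} (hκ : 0 < κ) {r : ℝ}
    (hr : 2 ≤ r)
    (hP : ENNReal.ofReal (κ / 4) < volume {y | y ∈ ball (0 : E d) 2 ∧ 0 < f y})
    (hN : ENNReal.ofReal (κ / 4) < volume {y | y ∈ ball (0 : E d) 2 ∧ f y ≤ 0}) (h : E d)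
    (h1 : structG f h < ENNReal.ofReal (κ / 16)) (h2 : structG f (-h) < ENNReal.ofReal (κ / 16))
    (h3 : structT f r h < ENNReal.ofReal (κ / 8))
    (hI : ¬ (volume {y | y ∈ ball h 10 ∧ f y ≤ 0} ≤ ENNReal.ofReal (κ / 16) ∧
      volume {y | y ∈ ball (-h) 10 ∧ 0 < f y} ≤ ENNReal.ofReal (κ / 16))) :
    f h ≤ 0 ∧ 0 < f (-h) := by
  have hle : ∀ c : E d, MeasurableSet {y | f (y + c) ≤ 0} := fun c =>
    measurableSet_le (hf.comp (continuous_id.add continuous_const)).measurable measurable_const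
  have hlt : ∀ c : E d, MeasurableSet {y | 0 < f (y + c)} := fun c =>
    measurableSet_lt measurable_const (hf.comp (continuous_id.add continuous_const)).measurable
  by_cases ha : 0 < f h
  · exfalso
    by_cases hb : 0 < f (-h)
    · refine absurd ?_ (not_le.2 h3)
      refine struct_T_lower hκ hr h {y | y ∈ ball (0 : E d) 2 ∧ f y ≤ 0}
        {y | f (y + -h) ≤ 0} {y | f (y + h) ≤ 0} ?_ (hle _) (hle _) (fun y hy => hy.1) hN.le ?_ ?_ ?_
      · exact measurableSet_ball.inter (measurableSet_le hf.measurable measurable_const)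
      · exact struct_shift (fun y => f y ≤ 0) (-h) ((structG_one hf hb).trans_le h2.le)
      · exact struct_shift (fun y => f y ≤ 0) h ((structG_one hf ha).trans_le h1.le)
      · intro y hy hyA hyB
        have e1 : ind 0 f (y - h) = 1 := by
          rw [sub_eq_add_neg]; exact if_pos (not_le.1 hyA)
        have e2 : ind 0 f y = 0 := if_neg (not_lt.2 hy.2)
        have e3 : ind 0 f (y + h) = 1 := if_pos (not_le.1 hyB)
        rw [e1, e2, e3]
        norm_num [dist3]
    · exact hI ⟨(structG_one hf ha).trans_le h1.le,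
        (structG_zero hf (not_lt.1 hb)).trans_le h2.le⟩
  · refine ⟨not_lt.1 ha, ?_⟩
    by_contra hb
    refine absurd ?_ (not_le.2 h3)
    refine struct_T_lower hκ hr h {y | y ∈ ball (0 : E d) 2 ∧ 0 < f y}
      {y | 0 < f (y + -h)} {y | 0 < f (y + h)} ?_ (hlt _) (hlt _) (fun y hy => hy.1) hP.le ?_ ?_ ?_
    · exact measurableSet_ball.inter (measurableSet_lt measurable_const hf.measurable)
    · exact struct_shift (fun y => 0 < f y) (-h)
        ((structG_zero hf (not_lt.1 hb)).trans_le h2.le)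
    · exact struct_shift (fun y => 0 < f y) h ((structG_zero hf (not_lt.1 ha)).trans_le h1.le)
    · intro y hy hyA hyB
      have e1 : ind 0 f (y - h) = 0 := by
        rw [sub_eq_add_neg]; exact if_neg hyA
      have e2 : ind 0 f y = 1 := if_pos hy.2
      have e3 : ind 0 f (y + h) = 0 := if_neg hyB
      rw [e1, e2, e3]
      norm_num [dist3]

theorem struct (d : ℕ) (hd : 0 < d) : ∃ (R : ℕ) (c₁ : ℝ), 12 ≤ R ∧ 0 < c₁ ∧
    ∀ (f : E d → ℝ) (ν : E d), Continuous f → ‖ν‖ = 1 →
      NN (ind 0 f) R (40 * R) 1 (ball 0 (40 * R)) < ENNReal.ofReal c₁ →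
      ENNReal.ofReal (kap d / 4) < volume {y | y ∈ ball (0 : E d) 2 ∧ 0 < f y} →
      ENNReal.ofReal (kap d / 4) < volume {y | y ∈ ball (0 : E d) 2 ∧ f y ≤ 0} →
      (∃ h₀, CaseIcond f R ν h₀) ∨ CaseIIcond f R ν := by
  have hκ : 0 < kap d := struct_kap_pos d
  set κ := kap d with hκdef
  set R : ℕ := 512 * 255000 ^ d with hRdef
  have hR12 : 12 ≤ R := by
    have : 1 ≤ 255000 ^ d := Nat.one_le_pow _ _ (by norm_num)
    omega
  have hRr : (12 : ℝ) ≤ R := by exact_mod_cast hR12
  set Θ : ℝ := κ * (20 * R) ^ d / (4 * 17000 ^ d) with hΘ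
  have hΘ0 : 0 < Θ := by positivity
  refine ⟨R, κ * Θ / 256, hR12, by positivity, ?_⟩
  intro f ν hf hν hNN hP hN
  by_cases hI : ∃ h₀, CaseIcond f R ν h₀
  · exact Or.inl hI
  refine Or.inr ?_
  set X : Set (E d) := {h | ENNReal.ofReal (κ / 16) ≤ structG f h} ∩ ball 0 (20 * R) with hX
  set V : Set (E d) := {h | ENNReal.ofReal (κ / 8) ≤ structT f (40 * R) h} ∩ ball 0 (40 * R)
    with hV
  have hXvol : volume X ≤ ENNReal.ofReal (Θ / 4) := by
    have h1 : ENNReal.ofReal (κ / 16) * volume X ≤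
        ∫⁻ h in ball (0 : E d) (20 * R), structG f h := by
      have := mul_meas_ge_le_lintegral (μ := volume.restrict (ball (0 : E d) (20 * R)))
        (structG_measurable hf) (ENNReal.ofReal (κ / 16))
      rwa [Measure.restrict_apply (measurableSet_le measurable_const (structG_measurable hf))]
        at this
    have hmeas : Measurable fun p : E d × E d =>
        ENNReal.ofReal |ind 0 f (p.1 + p.2) - ind 0 f p.1| := by
      have hu := struct_meas_ind hf
      exact (((hu.comp (measurable_fst.add measurable_snd)).sub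
        (hu.comp measurable_fst)).abs).ennreal_ofReal
    have h2 : ∫⁻ h in ball (0 : E d) (20 * R), structG f h =
        ∫⁻ v in ball (0 : E d) 10, ∫⁻ h in ball (0 : E d) (20 * R),
          ENNReal.ofReal |ind 0 f (h + v) - ind 0 f h| := by
      unfold structG
      exact lintegral_lintegral_swap (f := fun h v : E d =>
        ENNReal.ofReal |ind 0 f (h + v) - ind 0 f h|) hmeas.aemeasurable
    have h3 := regular hd hf R (by omega)
    rw [← h2] at h3
    have h4 : NN (ind 0 f) R 10 1 (ball 0 (40 * R)) ≤ ENNReal.ofReal (κ * Θ / 256) :=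
      (NN_mono (ind 0 f) 1 le_rfl (by linarith) Subset.rfl).trans hNN.le
    have h5 : ENNReal.ofReal (R * (κ / 16)) * volume X ≤
        ENNReal.ofReal (κ * 10 ^ d * (κ * (30 * R) ^ d) + 2 * (κ * Θ / 256)) := by
      calc ENNReal.ofReal (R * (κ / 16)) * volume X
          = (R : ℝ≥0∞) * (ENNReal.ofReal (κ / 16) * volume X) := by
            rw [ENNReal.ofReal_mul (by positivity), ENNReal.ofReal_natCast, mul_assoc]
        _ ≤ (R : ℝ≥0∞) * ∫⁻ h in ball (0 : E d) (20 * R), structG f h := by gcongr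
        _ ≤ volume (ball (0 : E d) 10) * volume (ball (0 : E d) (30 * R)) +
              2 * NN (ind 0 f) R 10 1 (ball 0 (40 * R)) := h3
        _ ≤ ENNReal.ofReal (κ * 10 ^ d) * ENNReal.ofReal (κ * (30 * R) ^ d) +
              2 * ENNReal.ofReal (κ * Θ / 256) := by
            rw [struct_vol_ball d 0 (by norm_num : (0 : ℝ) < 10),
              struct_vol_ball d 0 (by positivity : (0 : ℝ) < 30 * R)]
            gcongr
        _ = _ := by
            rw [ENNReal.ofReal_add (by positivity) (by positivity),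
              ENNReal.ofReal_mul (p := κ * 10 ^ d) (by positivity),
              ENNReal.ofReal_mul (p := 2) (by norm_num)]
            norm_num
    refine (struct_le_div (by positivity) _ h5).trans (ENNReal.ofReal_le_ofReal ?_)
    rw [div_le_iff₀ (by positivity)]
    have h6 : κ * 10 ^ d * (κ * (30 * R) ^ d) = κ * Θ * (4 * 255000 ^ d) := by
      rw [hΘ]
      have e1 : (10 : ℝ) ^ d * (30 * R) ^ d = (20 * R) ^ d * 15 ^ d := by
        rw [← mul_pow, ← mul_pow]; congr 1; ring
      have e2 : (255000 : ℝ) ^ d = 17000 ^ d * 15 ^ d := by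
        rw [← mul_pow]; norm_num
      rw [e2]
      have e3 : κ * 10 ^ d * (κ * (30 * R) ^ d) = κ * κ * ((10 : ℝ) ^ d * (30 * R) ^ d) := by ring
      rw [e3, e1]
      field_simp
    have h7 : (R : ℝ) = 512 * 255000 ^ d := by rw [hRdef]; push_cast; ring
    rw [h6]
    have h8 : (4 : ℝ) * 255000 ^ d = R / 128 := by rw [h7]; ring
    rw [h8]
    have h9 : 0 < κ * Θ := by positivity
    nlinarith
  have hVvol : volume V ≤ ENNReal.ofReal (Θ / 2) := by
    have h1 : ENNReal.ofReal (κ / 8) * volume V ≤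
        ∫⁻ v in ball (0 : E d) (40 * R), structT f (40 * R) v := by
      have := mul_meas_ge_le_lintegral (μ := volume.restrict (ball (0 : E d) (40 * R)))
        (structT_measurable hf (40 * R)) (ENNReal.ofReal (κ / 8))
      rwa [Measure.restrict_apply (measurableSet_le measurable_const
        (structT_measurable hf (40 * R)))] at this
    have h2 := (h1.trans (structT_le hf (by omega : 1 ≤ R) (40 * R))).trans hNN.le
    refine (struct_le_div (by positivity) _ h2).trans (ENNReal.ofReal_le_ofReal ?_)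
    rw [div_le_iff₀ (by positivity)]
    have h9 : 0 < κ * Θ := by positivity
    nlinarith
  set Bad : Set (E d) := (X ∪ (fun h => -h) ⁻¹' X) ∪ (V ∪ sphere 0 (20 * R)) with hBad
  have hBvol : volume Bad ≤ ENNReal.ofReal Θ := by
    have h1 : volume ((fun h : E d => -h) ⁻¹' X) = volume X := by
      have := Measure.measure_preimage_neg (volume : Measure (E d)) X
      exact this
    have h2 : volume (sphere (0 : E d) (20 * R)) = 0 :=
      Measure.addHaar_sphere_of_ne_zero volume 0 (by positivity)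
    calc volume Bad ≤ (volume X + volume X) + (volume V + 0) := by
          refine (measure_union_le _ _).trans (add_le_add ?_ ?_)
          · exact (measure_union_le _ _).trans (add_le_add le_rfl h1.le)
          · exact (measure_union_le _ _).trans (add_le_add le_rfl h2.le)
      _ ≤ (ENNReal.ofReal (Θ / 4) + ENNReal.ofReal (Θ / 4)) + (ENNReal.ofReal (Θ / 2) + 0) := by
          gcongr
      _ = ENNReal.ofReal Θ := by
          rw [add_zero, ← ENNReal.ofReal_add (by positivity) (by positivity),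
            ← ENNReal.ofReal_add (by positivity) (by positivity)]
          congr 1; ring
  have key : ∀ h ∈ farM R ν, h ∉ Bad → f h ≤ 0 ∧ 0 < f (-h) := by
    intro h hh hbad
    obtain ⟨hh1, hh2, hh3⟩ := hh
    have hns : ‖h‖ ≠ 20 * R := fun hc => hbad (Or.inr (Or.inr (by simpa using hc)))
    have hlt : ‖h‖ < 20 * R := lt_of_le_of_ne hh2 hns
    have hball : h ∈ ball (0 : E d) (20 * R) := by simpa using hlt
    have hballn : -h ∈ ball (0 : E d) (20 * R) := by simpa using hlt
    have hball4 : h ∈ ball (0 : E d) (40 * R) := by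
      have : ‖h‖ < 40 * R := by linarith
      simpa using this
    refine struct_key hf hκ (r := 40 * R) (by linarith) hP hN h ?_ ?_ ?_ ?_
    · by_contra hc
      exact hbad (Or.inl (Or.inl ⟨not_lt.1 hc, hball⟩))
    · by_contra hc
      exact hbad (Or.inl (Or.inr ⟨not_lt.1 hc, hballn⟩))
    · by_contra hc
      exact hbad (Or.inr (Or.inl ⟨not_lt.1 hc, hball4⟩))
    · rintro ⟨hc1, hc2⟩
      exact hI ⟨h, hh1, hh2, hh3, hc1, hc2⟩
  constructor
  · refine le_trans (measure_mono ?_) hBvol
    rintro y ⟨hy1, hy2⟩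
    by_contra hc
    exact absurd hy2 (not_lt.2 (key y hy1 hc).1)
  · have h1 : volume ((fun h : E d => -h) ⁻¹' Bad) = volume Bad := by
      have := Measure.measure_preimage_neg (volume : Measure (E d)) Bad
      exact this
    refine le_trans (measure_mono ?_) (h1.trans_le hBvol)
    rintro y ⟨hy1, hy2⟩
    by_contra hc
    have hyM : -y ∈ farM R ν := by
      obtain ⟨a, b, c⟩ := hy1
      refine ⟨by rwa [norm_neg], by rwa [norm_neg], ?_⟩
      rw [norm_neg, inner_neg_left]
      linarith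
    have := (key (-y) hyM hc).2
    rw [neg_neg] at this
    exact absurd hy2 (not_le.2 this)

end

end Vale.Agent.P137F
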