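import Vale.Agent.Lib.P137F.Defect
import Vale.Agent.Lib.P137F.Defs2

/-!
# P137F: the small scales contribute little, uniformly near a given gradient field `H`

Let `W` be continuous with compact support, `∫ ‖W - H‖ ≤ ε₀`.  For `h ∈ C¹_c` with
`∫ ‖∇h - H‖ ≤ ε₀`, `D_v := ∫ |⟪∇h, v⟫|` bounds the translation modulus and
`∫ |h (y + t v) - h y| dy ≥ t (D_v - 2 ‖v‖ ∫‖∇h - W‖ - ‖v‖ sup_{‖w‖ ≤ t‖v‖} ∫ ‖W (y+w) - W y‖)`.
Apply `defect_tail` for every `v ∈ ball 0 ρ` and `k ≤ K` and integrate over `v`.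
-/

namespace Vale.Agent.P137F

open MeasureTheory Metric Set ENNReal

noncomputable section

theorem tail_fderiv_cont {d : ℕ} {h : E d → ℝ} (hh : ContDiff ℝ 1 h) (v : E d) :
    Continuous (fun y => fderiv ℝ h y v) :=
  (hh.continuous_fderiv (by norm_num)).clm_apply continuous_const

/-- the fundamental theorem of calculus along a segment -/
theorem tail_ftc {d : ℕ} {h : E d → ℝ} (hh : ContDiff ℝ 1 h) (y v : E d) :
    ∫ s in (0 : ℝ)..1, fderiv ℝ h (y + s • v) v = h (y + v) - h y := by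
  have hd : ∀ s ∈ uIcc (0 : ℝ) 1,
      HasDerivAt (fun s : ℝ => h (y + s • v)) (fderiv ℝ h (y + s • v) v) s := by
    intro s _
    have h1 : HasFDerivAt h (fderiv ℝ h (y + s • v)) (y + s • v) :=
      (hh.differentiable (by norm_num) _).hasFDerivAt
    have h2 : HasDerivAt (fun s : ℝ => y + s • v) v s := by
      have := ((hasDerivAt_id s).smul_const v).const_add y
      simpa using this
    exact h1.comp_hasDerivAt s h2
  have hc : Continuous (fun s : ℝ => fderiv ℝ h (y + s • v) v) :=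
    (tail_fderiv_cont hh v).comp (by fun_prop)
  rw [intervalIntegral.integral_eq_sub_of_hasDerivAt hd (hc.intervalIntegrable _ _)]
  simp

theorem tail_meas {d : ℕ} {h : E d → ℝ} (hh : ContDiff ℝ 1 h) (v : E d) :
    Measurable (fun p : E d × ℝ => ENNReal.ofReal |fderiv ℝ h (p.1 + p.2 • v) v|) := by
  have : Continuous (fun p : E d × ℝ => |fderiv ℝ h (p.1 + p.2 • v) v|) :=
    ((tail_fderiv_cont hh v).comp (by fun_prop)).abs
  exact this.measurable.ennreal_ofReal

theorem tail_meas2 {d : ℕ} {h : E d → ℝ} (hh : ContDiff ℝ 1 h) (v : E d) :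
    Measurable (fun p : E d × ℝ =>
      ENNReal.ofReal |fderiv ℝ h (p.1 + p.2 • v) v - fderiv ℝ h p.1 v|) := by
  have : Continuous (fun p : E d × ℝ => |fderiv ℝ h (p.1 + p.2 • v) v - fderiv ℝ h p.1 v|) :=
    (((tail_fderiv_cont hh v).comp (by fun_prop)).sub
      ((tail_fderiv_cont hh v).comp (by fun_prop))).abs
  exact this.measurable.ennreal_ofReal

/-- translation modulus of a `C¹` function with compact support -/
theorem transBV_of_contDiff {d : ℕ} {h : E d → ℝ} (hh : ContDiff ℝ 1 h) (hcs : HasCompactSupport h)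
    (v : E d) : ∫⁻ y, ENNReal.ofReal |h (y + v) - h y| ≤
      ∫⁻ y, ENNReal.ofReal |fderiv ℝ h y v| := by
  have h1 : ∀ y, ENNReal.ofReal |h (y + v) - h y| ≤
      ∫⁻ s in Ioc (0 : ℝ) 1, ENNReal.ofReal |fderiv ℝ h (y + s • v) v| := by
    intro y
    rw [← tail_ftc hh y v, intervalIntegral.integral_of_le zero_le_one, ← Real.enorm_eq_ofReal_abs]
    refine (enorm_integral_le_lintegral_enorm _).trans (le_of_eq ?_)
    refine lintegral_congr fun s => ?_
    rw [Real.enorm_eq_ofReal_abs]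
  calc ∫⁻ y, ENNReal.ofReal |h (y + v) - h y|
      ≤ ∫⁻ y, ∫⁻ s in Ioc (0 : ℝ) 1, ENNReal.ofReal |fderiv ℝ h (y + s • v) v| :=
        lintegral_mono h1
    _ = ∫⁻ s in Ioc (0 : ℝ) 1, ∫⁻ y, ENNReal.ofReal |fderiv ℝ h (y + s • v) v| :=
        lintegral_lintegral_swap (tail_meas hh v).aemeasurable
    _ = ∫⁻ _ in Ioc (0 : ℝ) 1, ∫⁻ y, ENNReal.ofReal |fderiv ℝ h y v| := by
        refine lintegral_congr fun s => ?_
        exact lintegral_add_right_eq_self (fun y => ENNReal.ofReal |fderiv ℝ h y v|) (s • v)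
    _ = ∫⁻ y, ENNReal.ofReal |fderiv ℝ h y v| := by
        rw [setLIntegral_const]
        simp

/-- continuity of translations in `L¹` -/
theorem tail_translate {d : ℕ} (H : E d → E d) (hH : Integrable H) (η : ℝ) (hη : 0 < η) :
    ∃ r : ℝ, 0 < r ∧ ∀ w : E d, ‖w‖ ≤ r → ∫⁻ y, ‖H (y + w) - H y‖ₑ ≤ ENNReal.ofReal η := by
  obtain ⟨g, hgc, hgH, hgcont, hgi⟩ := hH.exists_hasCompactSupport_lintegral_sub_le
    (ε := ENNReal.ofReal (η / 4)) (by simpa using hη)
  have hK : IsCompact (cthickening 1 (tsupport g)) := hgc.isCompact.cthickening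
  set V := volume.real (cthickening 1 (tsupport g)) with hV
  have hV0 : 0 ≤ V := measureReal_nonneg
  have hu := hgc.uniformContinuous_of_continuous hgcont
  rw [Metric.uniformContinuous_iff] at hu
  obtain ⟨r, hr, hur⟩ := hu (η / (2 * (V + 1))) (by positivity)
  refine ⟨min (r / 2) 1, by positivity, ?_⟩
  intro w hw
  have hw1 : ‖w‖ < r := lt_of_le_of_lt (hw.trans (min_le_left _ _)) (by linarith)
  have hw2 : ‖w‖ ≤ 1 := hw.trans (min_le_right _ _)
  have hg1 : ∀ y, ‖g (y + w) - g y‖ₑ ≤ (cthickening 1 (tsupport g)).indicator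
      (fun _ => ENNReal.ofReal (η / (2 * (V + 1)))) y := by
    intro y
    by_cases hy : y ∈ cthickening 1 (tsupport g)
    · rw [Set.indicator_of_mem hy, ← ofReal_norm]
      apply ENNReal.ofReal_le_ofReal
      rw [← dist_eq_norm]
      apply (hur _).le
      rw [dist_eq_norm]
      simpa using hw1
    · rw [Set.indicator_of_notMem hy]
      have hy1 : g y = 0 := by
        by_contra hne
        exact hy (self_subset_cthickening _ (subset_tsupport _ hne))
      have hy2 : g (y + w) = 0 := by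
        by_contra hne
        apply hy
        apply mem_cthickening_of_dist_le y (y + w) 1 _ (subset_tsupport _ hne)
        rw [dist_eq_norm]
        simpa using hw2
      rw [hy1, hy2]
      simp
  have hg2 : ∫⁻ y, ‖g (y + w) - g y‖ₑ ≤ ENNReal.ofReal (η / 2) := by
    calc ∫⁻ y, ‖g (y + w) - g y‖ₑ ≤ ∫⁻ y, ((cthickening 1 (tsupport g)).indicator
      (fun _ => ENNReal.ofReal (η / (2 * (V + 1)))) y) := lintegral_mono hg1
      _ = ENNReal.ofReal (η / (2 * (V + 1))) * volume (cthickening 1 (tsupport g)) := by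
          rw [lintegral_indicator hK.measurableSet, setLIntegral_const]
      _ = ENNReal.ofReal (η / (2 * (V + 1)) * V) := by
          rw [← ofReal_measureReal hK.measure_lt_top.ne, ← ENNReal.ofReal_mul (by positivity)]
      _ ≤ ENNReal.ofReal (η / 2) := by
          apply ENNReal.ofReal_le_ofReal
          rw [div_mul_eq_mul_div, div_le_div_iff₀ (by positivity) (by positivity)]
          nlinarith
  have hHm : AEStronglyMeasurable H volume := hH.1
  have hHm' : AEStronglyMeasurable (fun y => H (y + w)) volume := (hH.comp_add_right w).1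
  have hgm : AEMeasurable (fun y => ‖H (y + w) - g (y + w)‖ₑ) volume :=
    (hHm'.sub (by fun_prop : Continuous fun y => g (y + w)).aestronglyMeasurable).enorm
  have hgm2 : Measurable (fun y => ‖g (y + w) - g y‖ₑ) :=
    (by fun_prop : Continuous fun y => ‖g (y + w) - g y‖ₑ).measurable
  calc ∫⁻ y, ‖H (y + w) - H y‖ₑ
      ≤ ∫⁻ y, ((‖H (y + w) - g (y + w)‖ₑ + ‖g (y + w) - g y‖ₑ) + ‖H y - g y‖ₑ) := by
        refine lintegral_mono fun y => ?_
        have : H (y + w) - H y = (H (y + w) - g (y + w)) + (g (y + w) - g y) - (H y - g y) := by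
          abel
        rw [this]
        exact (enorm_sub_le).trans (add_le_add (enorm_add_le _ _) le_rfl)
    _ = ((∫⁻ y, ‖H (y + w) - g (y + w)‖ₑ) + ∫⁻ y, ‖g (y + w) - g y‖ₑ) + ∫⁻ y, ‖H y - g y‖ₑ := by
        rw [lintegral_add_left' (by exact hgm.add hgm2.aemeasurable), lintegral_add_left' hgm]
    _ ≤ (ENNReal.ofReal (η / 4) + ENNReal.ofReal (η / 2)) + ENNReal.ofReal (η / 4) := by
        refine add_le_add (add_le_add ?_ hg2) hgH
        rw [lintegral_add_right_eq_self (fun y => ‖H y - g y‖ₑ) w]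
        exact hgH
    _ = ENNReal.ofReal η := by
        rw [← ENNReal.ofReal_add (by positivity) (by positivity),
          ← ENNReal.ofReal_add (by positivity) (by positivity)]
        congr 1
        ring

/-- lower bound for the translation modulus -/
theorem tail_lower {d : ℕ} {h : E d → ℝ} (hh : ContDiff ℝ 1 h) (hcs : HasCompactSupport h)
    (H : E d → E d) (hH : Integrable H) (w : E d) (A η : ℝ≥0∞)
    (hA : ∫⁻ x, ‖gradient h x - H x‖ₑ ≤ A)
    (hη : ∀ s ∈ Ioc (0 : ℝ) 1, ∫⁻ y, ‖H (y + s • w) - H y‖ₑ ≤ η) :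
    ∫⁻ y, ENNReal.ofReal |fderiv ℝ h y w| ≤
      (∫⁻ y, ENNReal.ofReal |h (y + w) - h y|) + ‖w‖ₑ * (A + η + A) := by
  have hgc : Continuous (gradient h) := by
    unfold gradient
    exact (LinearIsometryEquiv.continuous _).comp (hh.continuous_fderiv (by norm_num))
  have h1 : ∀ y, ENNReal.ofReal |fderiv ℝ h y w| ≤ ENNReal.ofReal |h (y + w) - h y| +
      ∫⁻ s in Ioc (0 : ℝ) 1, ENNReal.ofReal |fderiv ℝ h (y + s • w) w - fderiv ℝ h y w| := by
    intro y
    have hc : Continuous (fun s : ℝ => fderiv ℝ h (y + s • w) w) :=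
      (tail_fderiv_cont hh w).comp (by fun_prop)
    have h2 : fderiv ℝ h y w = (h (y + w) - h y) -
        ∫ s in (0 : ℝ)..1, (fderiv ℝ h (y + s • w) w - fderiv ℝ h y w) := by
      rw [intervalIntegral.integral_sub (hc.intervalIntegrable _ _)
        (continuous_const.intervalIntegrable _ _), tail_ftc hh y w]
      simp
    have h3 : ENNReal.ofReal |fderiv ℝ h y w| = ‖(h (y + w) - h y) -
        ∫ s in (0 : ℝ)..1, (fderiv ℝ h (y + s • w) w - fderiv ℝ h y w)‖ₑ := by
      rw [← h2, Real.enorm_eq_ofReal_abs]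
    rw [h3]
    refine enorm_sub_le.trans ?_
    rw [Real.enorm_eq_ofReal_abs (h (y + w) - h y)]
    refine add_le_add le_rfl ?_
    rw [intervalIntegral.integral_of_le zero_le_one]
    refine (enorm_integral_le_lintegral_enorm _).trans (le_of_eq ?_)
    refine lintegral_congr fun s => ?_
    rw [Real.enorm_eq_ofReal_abs]
  have h4 : ∀ s ∈ Ioc (0 : ℝ) 1,
      ∫⁻ y, ENNReal.ofReal |fderiv ℝ h (y + s • w) w - fderiv ℝ h y w| ≤
        ‖w‖ₑ * (A + η + A) := by
    intro s hs
    have hm1 : AEMeasurable (fun y => ‖gradient h (y + s • w) - H (y + s • w)‖ₑ) volume :=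
      ((by fun_prop : Continuous fun y => gradient h (y + s • w)).aestronglyMeasurable.sub
        (hH.comp_add_right (s • w)).1).enorm
    have hm2 : AEMeasurable (fun y => ‖H (y + s • w) - H y‖ₑ) volume :=
      ((hH.comp_add_right (s • w)).1.sub hH.1).enorm
    calc ∫⁻ y, ENNReal.ofReal |fderiv ℝ h (y + s • w) w - fderiv ℝ h y w|
        ≤ ∫⁻ y, ‖w‖ₑ * ((‖gradient h (y + s • w) - H (y + s • w)‖ₑ + ‖H (y + s • w) - H y‖ₑ) +
            ‖gradient h y - H y‖ₑ) := by
          refine lintegral_mono fun y => ?_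
          rw [← inner_gradient_left, ← inner_gradient_left, ← inner_sub_left,
            ← Real.enorm_eq_ofReal_abs]
          have h5 : ‖inner ℝ (gradient h (y + s • w) - gradient h y) w‖ₑ ≤
              ‖w‖ₑ * ‖gradient h (y + s • w) - gradient h y‖ₑ := by
            rw [← ofReal_norm, ← ofReal_norm, ← ofReal_norm,
              ← ENNReal.ofReal_mul (norm_nonneg _)]
            apply ENNReal.ofReal_le_ofReal
            rw [mul_comm]
            exact norm_inner_le_norm _ _
          refine h5.trans (mul_le_mul' le_rfl ?_)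
          have h6 : gradient h (y + s • w) - gradient h y =
              (gradient h (y + s • w) - H (y + s • w)) + (H (y + s • w) - H y) -
                (gradient h y - H y) := by
            abel
          rw [h6]
          exact (enorm_sub_le).trans (add_le_add (enorm_add_le _ _) le_rfl)
      _ = ‖w‖ₑ * (((∫⁻ y, ‖gradient h (y + s • w) - H (y + s • w)‖ₑ) +
            ∫⁻ y, ‖H (y + s • w) - H y‖ₑ) + ∫⁻ y, ‖gradient h y - H y‖ₑ) := by
          rw [lintegral_const_mul' _ _ enorm_ne_top, lintegral_add_left' (by exact hm1.add hm2),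
            lintegral_add_left' hm1]
      _ ≤ ‖w‖ₑ * (A + η + A) := by
          refine mul_le_mul' le_rfl (add_le_add (add_le_add ?_ (hη s hs)) hA)
          rw [lintegral_add_right_eq_self (fun y => ‖gradient h y - H y‖ₑ) (s • w)]
          exact hA
  have hm3 : Measurable (fun y : E d => ENNReal.ofReal |h (y + w) - h y|) := by
    have : Continuous (fun y : E d => |h (y + w) - h y|) := by
      have := hh.continuous
      fun_prop
    exact this.measurable.ennreal_ofReal
  calc ∫⁻ y, ENNReal.ofReal |fderiv ℝ h y w|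
      ≤ ∫⁻ y, (ENNReal.ofReal |h (y + w) - h y| +
      ∫⁻ s in Ioc (0 : ℝ) 1, ENNReal.ofReal |fderiv ℝ h (y + s • w) w - fderiv ℝ h y w|) :=
        lintegral_mono h1
    _ = (∫⁻ y, ENNReal.ofReal |h (y + w) - h y|) +
      ∫⁻ y, ∫⁻ s in Ioc (0 : ℝ) 1,
        ENNReal.ofReal |fderiv ℝ h (y + s • w) w - fderiv ℝ h y w| := by
        rw [lintegral_add_left hm3]
    _ = (∫⁻ y, ENNReal.ofReal |h (y + w) - h y|) +
      ∫⁻ s in Ioc (0 : ℝ) 1, ∫⁻ y,
        ENNReal.ofReal |fderiv ℝ h (y + s • w) w - fderiv ℝ h y w| := by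
        rw [lintegral_lintegral_swap (tail_meas2 hh w).aemeasurable]
    _ ≤ (∫⁻ y, ENNReal.ofReal |h (y + w) - h y|) +
      ∫⁻ _ in Ioc (0 : ℝ) 1, ‖w‖ₑ * (A + η + A) := by
        refine add_le_add le_rfl ?_
        exact setLIntegral_mono measurable_const h4
    _ = _ := by
        rw [setLIntegral_const]
        simp

theorem tail_small {d : ℕ} (hd : 0 < d) (H : E d → E d) (hH : Integrable H) (K : ℕ) (ρ : ℝ)
    (hρ : 0 < ρ) (ε : ℝ) (hε : 0 < ε) : ∃ ε₀ : ℝ, 0 < ε₀ ∧ ∃ N : ℤ, ∀ h : E d → ℝ,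
      ContDiff ℝ 1 h → HasCompactSupport h →
      ∫⁻ x, ENNReal.ofReal ‖gradient h x - H x‖ ≤ ENNReal.ofReal ε₀ →
      ∑' n : ℤ, (if n < N then ENNReal.ofReal ((2 : ℝ) ^ (-n)) * NN h K ρ ((2 : ℝ) ^ n) univ
        else 0) ≤ ENNReal.ofReal ε := by
  -- parameters
  set B := (∑ k ∈ Finset.Icc 1 K, ((k : ℝ) * 2 ^ k)) * volume.real (ball (0 : E d) ρ) with hB
  have hB0 : 0 ≤ B := by positivity
  set ε' := ε / (B + 1) with hε'
  have hε'0 : 0 < ε' := by positivity
  obtain ⟨r, hr, hrt⟩ := tail_translate H hH (ε' / (2 * ρ)) (by positivity)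
  refine ⟨ε' / (4 * ρ), by positivity, ?_⟩
  obtain ⟨n0, hn0⟩ := exists_pow_lt_of_lt_one (show 0 < r / (ρ * 2 ^ K) by positivity)
    (show (1 / 2 : ℝ) < 1 by norm_num)
  refine ⟨-(n0 : ℤ), ?_⟩
  set N : ℤ := -(n0 : ℤ) with hN
  have hNr : ∀ j : ℕ, j ≤ K → (2 : ℝ) ^ (N + j) * ρ ≤ r := by
    intro j hj
    have h1 : (2 : ℝ) ^ (N + (j : ℤ)) = (1 / 2 : ℝ) ^ n0 * 2 ^ j := by
      rw [zpow_add₀ (by norm_num), hN, zpow_neg, zpow_natCast, zpow_natCast, one_div, inv_pow]
    have h2 : (2 : ℝ) ^ j ≤ 2 ^ K := pow_le_pow_right₀ (by norm_num) hj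
    rw [lt_div_iff₀ (by positivity)] at hn0
    rw [h1]
    calc (1 / 2 : ℝ) ^ n0 * 2 ^ j * ρ ≤ (1 / 2 : ℝ) ^ n0 * 2 ^ K * ρ := by gcongr
      _ = (1 / 2 : ℝ) ^ n0 * (ρ * 2 ^ K) := by ring
      _ ≤ r := hn0.le
  intro h hh hcs hA
  have hm : Continuous h := hh.continuous
  have hf : Integrable h := hm.integrable_of_hasCompactSupport hcs
  have hA' : ∫⁻ x, ‖gradient h x - H x‖ₑ ≤ ENNReal.ofReal (ε' / (4 * ρ)) := by
    refine le_trans (le_of_eq ?_) hA
    refine lintegral_congr fun x => ?_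
    rw [ofReal_norm]
  have hmeas : ∀ (k : ℕ) (t : ℝ), Measurable (fun p : E d × E d =>
      ENNReal.ofReal (dist3 (h (p.1 - ((k : ℝ) * t) • p.2)) (h p.1) (h (p.1 + t • p.2)))) := by
    intro k t
    have h1 : Continuous (fun p : E d × E d =>
        (h (p.1 - ((k : ℝ) * t) • p.2), h p.1, h (p.1 + t • p.2))) := by fun_prop
    exact (continuous_dist3.comp h1).measurable.ennreal_ofReal
  have hswap : ∀ (k : ℕ) (t : ℝ),
      ∫⁻ y in univ, ∫⁻ v in ball (0 : E d) ρ,
        ENNReal.ofReal (dist3 (h (y - ((k : ℝ) * t) • v)) (h y) (h (y + t • v))) =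
      ∫⁻ v in ball (0 : E d) ρ, ∫⁻ y,
        ENNReal.ofReal (dist3 (h (y - ((k : ℝ) * t) • v)) (h y) (h (y + t • v))) := by
    intro k t
    rw [Measure.restrict_univ]
    exact lintegral_lintegral_swap (hmeas k t).aemeasurable
  have hJm : ∀ (k : ℕ) (n : ℤ), Measurable (fun v : E d => if n < N then defJ h v k n else 0) := by
    intro k n
    by_cases hn : n < N
    · simp only [if_pos hn]
      unfold defJ
      refine Measurable.const_mul ?_ _
      exact ((hmeas k ((2 : ℝ) ^ n)).comp measurable_swap).lintegral_prod_right'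
    · simp only [if_neg hn]
      exact measurable_const
  have hE : ∀ n : ℤ, (if n < N then ENNReal.ofReal ((2 : ℝ) ^ (-n)) * NN h K ρ ((2 : ℝ) ^ n) univ
        else 0) = ∑ k ∈ Finset.Icc 1 K, ∫⁻ v in ball (0 : E d) ρ,
          (if n < N then defJ h v k n else 0) := by
    intro n
    by_cases hn : n < N
    · simp only [if_pos hn]
      unfold NN
      rw [Finset.mul_sum]
      refine Finset.sum_congr rfl fun k _ => ?_
      rw [hswap, ← lintegral_const_mul' _ _ ENNReal.ofReal_ne_top]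
      rfl
    · simp only [if_neg hn]
      simp
  simp_rw [hE]
  rw [Summable.tsum_finsetSum (fun _ _ => ENNReal.summable)]
  have hk : ∀ k ∈ Finset.Icc 1 K, ∑' n : ℤ, ∫⁻ v in ball (0 : E d) ρ,
      (if n < N then defJ h v k n else 0) ≤
      ENNReal.ofReal (((k : ℝ) * 2 ^ k) * volume.real (ball (0 : E d) ρ) * ε') := by
    intro k hk
    obtain ⟨hk1, hkK⟩ := Finset.mem_Icc.1 hk
    rw [← lintegral_tsum (fun n => (hJm k n).aemeasurable)]
    have h1 : ∀ v ∈ ball (0 : E d) ρ, ∑' n : ℤ, (if n < N then defJ h v k n else 0) ≤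
        ENNReal.ofReal ((k : ℝ) * 2 ^ k * ε') := by
      intro v hv
      have hv2 : ‖v‖ ≤ ρ := by
        rw [mem_ball_zero_iff] at hv
        exact hv.le
      -- the constant `D_v`
      have hint : Integrable (fun y => fderiv ℝ h y v) := by
        refine (tail_fderiv_cont hh v).integrable_of_hasCompactSupport ?_
        have h2 : HasCompactSupport (fderiv ℝ h) := hcs.fderiv ℝ
        exact h2.comp_left (g := fun L : E d →L[ℝ] ℝ => L v) rfl
      have hfin : ∫⁻ y, ENNReal.ofReal |fderiv ℝ h y v| ≠ ⊤ := by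
        have h2 := hint.hasFiniteIntegral
        unfold HasFiniteIntegral at h2
        refine ne_of_lt (lt_of_le_of_lt (le_of_eq ?_) h2)
        refine lintegral_congr fun y => ?_
        rw [Real.enorm_eq_ofReal_abs]
      set D := (∫⁻ y, ENNReal.ofReal |fderiv ℝ h y v|).toReal with hD
      have hD0 : 0 ≤ D := ENNReal.toReal_nonneg
      have hDe : ENNReal.ofReal D = ∫⁻ y, ENNReal.ofReal |fderiv ℝ h y v| :=
        ENNReal.ofReal_toReal hfin
      have hscale : ∀ t : ℝ, 0 < t → ∫⁻ y, ENNReal.ofReal |fderiv ℝ h y (t • v)| =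
          ENNReal.ofReal (t * D) := by
        intro t ht
        rw [ENNReal.ofReal_mul ht.le, hDe, ← lintegral_const_mul' _ _ ENNReal.ofReal_ne_top]
        refine lintegral_congr fun y => ?_
        rw [map_smul, smul_eq_mul, abs_mul, abs_of_pos ht, ENNReal.ofReal_mul ht.le]
      refine defect_tail hm hf (D := D) k hk1 v N ε' hε'0.le ?_ ?_
      · intro n
        refine (transBV_of_contDiff hh hcs ((2 : ℝ) ^ n • v)).trans (le_of_eq ?_)
        exact hscale _ (by positivity)
      · intro j hj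
        have ht : (0 : ℝ) < (2 : ℝ) ^ (N + (j : ℤ)) := by positivity
        have hnorm : ‖(2 : ℝ) ^ (N + (j : ℤ)) • v‖ ≤ (2 : ℝ) ^ (N + (j : ℤ)) * ρ := by
          rw [norm_smul, Real.norm_of_nonneg ht.le]
          gcongr
        have h3 := tail_lower hh hcs H hH ((2 : ℝ) ^ (N + (j : ℤ)) • v)
          (ENNReal.ofReal (ε' / (4 * ρ))) (ENNReal.ofReal (ε' / (2 * ρ))) hA' (by
            intro s hs
            apply hrt
            rw [norm_smul, Real.norm_of_nonneg hs.1.le]
            have h4 := hNr j (hj.trans hkK)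
            calc s * ‖(2 : ℝ) ^ (N + (j : ℤ)) • v‖ ≤ 1 * ‖(2 : ℝ) ^ (N + (j : ℤ)) • v‖ :=
                  mul_le_mul_of_nonneg_right hs.2 (norm_nonneg _)
              _ ≤ r := by rw [one_mul]; exact hnorm.trans h4)
        rw [hscale _ ht] at h3
        have h5 : ‖(2 : ℝ) ^ (N + (j : ℤ)) • v‖ₑ * (ENNReal.ofReal (ε' / (4 * ρ)) +
            ENNReal.ofReal (ε' / (2 * ρ)) + ENNReal.ofReal (ε' / (4 * ρ))) ≤
            ENNReal.ofReal ((2 : ℝ) ^ (N + (j : ℤ)) * ε') := by
          rw [← ENNReal.ofReal_add (by positivity) (by positivity),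
            ← ENNReal.ofReal_add (by positivity) (by positivity), ← ofReal_norm,
            ← ENNReal.ofReal_mul (norm_nonneg _)]
          apply ENNReal.ofReal_le_ofReal
          calc ‖(2 : ℝ) ^ (N + (j : ℤ)) • v‖ * (ε' / (4 * ρ) + ε' / (2 * ρ) + ε' / (4 * ρ))
              ≤ ((2 : ℝ) ^ (N + (j : ℤ)) * ρ) * (ε' / (4 * ρ) + ε' / (2 * ρ) + ε' / (4 * ρ)) :=
                mul_le_mul_of_nonneg_right hnorm (by positivity)
            _ = (2 : ℝ) ^ (N + (j : ℤ)) * ε' := by
                field_simp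
                ring
        rw [mul_sub, ENNReal.ofReal_sub _ (by positivity)]
        rw [tsub_le_iff_right]
        exact h3.trans (add_le_add le_rfl h5)
    refine (setLIntegral_mono measurable_const h1).trans (le_of_eq ?_)
    rw [setLIntegral_const]
    have hfin : volume (ball (0 : E d) ρ) ≠ ⊤ := measure_ball_lt_top.ne
    rw [← ofReal_measureReal hfin, ← ENNReal.ofReal_mul (by positivity)]
    congr 1
    ring
  refine (Finset.sum_le_sum hk).trans ?_
  rw [← ENNReal.ofReal_sum_of_nonneg (fun k _ => by positivity)]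
  refine ENNReal.ofReal_le_ofReal ?_
  rw [← Finset.sum_mul, ← Finset.sum_mul, ← hB, hε', mul_div_assoc', div_le_iff₀ (by positivity)]
  nlinarith

end

end Vale.Agent.P137F
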