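import Vale.Agent.Lib.P137F.BadBall
import Vale.Agent.Lib.P137F.WeakType

/-!
# P137F: `∫_{Zset} ‖∇h‖` is small for small `δ`, uniformly near `H`

Choose `W` continuous with compact support and `∫ ‖W - H‖ ≤ ε₀`, `e = ‖∇h - W‖`, `∫ e ≤ 2 ε₀`.
If `y ∈ ball x (ρ r)` with `(x, z, r)` a contact ball, `r < δ` (we may assume `ρ ≥ 8`), then
`ball x (8r) ⊆ ball y (s)`, `s = 2 ρ r < 2 ρ δ`, and `bad_ball` with `a = W y` gives
`‖W y‖ ≤ C avg_{ball y s} ‖∇h - W y‖ ≤ C uM e y + C ω`, `ω` = modulus of continuity of `W` at `2ρδ`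
(the constants depend on `ρ`, `d`).  Hence
`∫_Z ‖∇h‖ ≤ 2ε₀ + ∫_Z ‖W‖ ≤ 2ε₀ + ∫_{uM e > η} ‖W‖ + ∫ min (‖W‖) (C (η + ω))`,
with `‖W‖ ≤ ‖H‖ + ‖W - H‖`.  Choose first `η` with `∫ min (‖H‖) (2 C η)` small, then `ε₀` (so that
`|{uM e > η}| ≤ C ε₀/η` is so small that `∫ ‖H‖` over such a set is small), then `W`, then `δ`.
-/

namespace Vale.Agent.P137F

open MeasureTheory Metric Set ENNReal

noncomputable section

theorem isOpen_Zset {d : ℕ} (h M : E d → ℝ) (ρ δ : ℝ) : IsOpen (Zset h M ρ δ) := by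
  have : Zset h M ρ δ = ⋃ (x : E d) (z : E d) (r : ℝ) (_ : Contact h M x z r ∧ r < δ),
      ball x (ρ * r) := by
    ext y
    simp only [Zset, mem_ofPred_eq, mem_iUnion, exists_prop, and_assoc]
  rw [this]
  exact isOpen_iUnion fun x => isOpen_iUnion fun z => isOpen_iUnion fun r =>
    isOpen_iUnion fun _ => isOpen_ball

theorem zs_continuous_gradient {d : ℕ} {h : E d → ℝ} (hh : ContDiff ℝ 1 h) :
    Continuous (fun y => gradient h y) := by
  have h1 : Continuous (fderiv ℝ h) := hh.continuous_fderiv (by norm_num)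
  exact (InnerProductSpace.toDual ℝ (E d)).symm.continuous.comp h1

theorem zs_volume_ball {d : ℕ} (z : E d) {r : ℝ} (hr : 0 < r) :
    volume (ball z r) = ENNReal.ofReal (r ^ d * kap d) := by
  unfold kap
  rw [Measure.addHaar_ball_of_pos volume z hr, finrank_euclideanSpace_fin,
    ENNReal.ofReal_mul (by positivity), Measure.real, ENNReal.ofReal_toReal measure_ball_lt_top.ne]

theorem zs_kap_pos (d : ℕ) : 0 < kap d := by
  unfold kap
  exact ENNReal.toReal_pos (measure_ball_pos volume _ one_pos).ne' measure_ball_lt_top.ne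

/-- average of `e` over a centered ball is at most the maximal function. -/
theorem zs_avg_le {d : ℕ} (e : E d → ℝ) (he : ∀ y, 0 ≤ e y) (y : E d) {s : ℝ} (hs : 0 < s) :
    ∫⁻ w in ball y s, ENNReal.ofReal (e w) ≤ uM e y * volume (ball y s) := by
  have h1 : (∫⁻ w in ball y s, ENNReal.ofReal |e w|) / volume (ball y s) ≤ uM e y := by
    unfold uM
    exact le_iSup_of_le y (le_iSup_of_le s (le_iSup_of_le (mem_ball_self hs) le_rfl))
  have h2 : (∫⁻ w in ball y s, ENNReal.ofReal |e w|) = ∫⁻ w in ball y s, ENNReal.ofReal (e w) := by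
    congr 1
    funext w
    rw [abs_of_nonneg (he w)]
  rw [h2] at h1
  rwa [ENNReal.div_le_iff (measure_ball_pos volume y hs).ne' measure_ball_lt_top.ne] at h1

/-- on the set where the maximal function of `e` is small, `W` is small on `Zset`. -/
theorem zs_pointwise {d : ℕ} {C : ℝ} (hC : 0 < C)
    (hbad : ∀ (h M : E d → ℝ), MaxPair h M →
      ContDiff ℝ 1 h → ∀ (x z : E d) (r : ℝ), Contact h M x z r → ∀ a : E d,
      ‖a‖ * r ^ d ≤ C * ∫ y in ball x (8 * r), ‖gradient h y - a‖)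
    {h M : E d → ℝ} (hM : MaxPair h M) (hh : ContDiff ℝ 1 h)
    {W : E d → E d} (hW : Continuous W) {ρ δ η : ℝ} (hρ : 1 ≤ ρ) (hη : 0 < η)
    (hδ : ∀ y w : E d, ‖w - y‖ < (8 + ρ) * δ → ‖W w - W y‖ ≤ η)
    {y : E d} (hy : y ∈ Zset h M ρ δ)
    (hu : uM (fun w => ‖gradient h w - W w‖) y ≤ ENNReal.ofReal η) :
    ‖W y‖ ≤ C * kap d * (8 + ρ) ^ d * 2 * η := by
  have hkap := zs_kap_pos d
  obtain ⟨x, z, r, hc, hrδ, hyx⟩ := hy
  have hr : 0 < r := hc.1
  have hb := hbad h M hM hh x z r hc (W y)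
  have hg := zs_continuous_gradient hh
  have hyx' : ‖y - x‖ < ρ * r := by rwa [mem_ball, dist_eq_norm] at hyx
  have hs : 0 < (8 + ρ) * r := by positivity
  have hsub : ball x (8 * r) ⊆ ball y ((8 + ρ) * r) := by
    intro w hw
    rw [mem_ball, dist_eq_norm] at hw ⊢
    calc ‖w - y‖ = ‖(w - x) - (y - x)‖ := by rw [sub_sub_sub_cancel_right]
      _ ≤ ‖w - x‖ + ‖y - x‖ := norm_sub_le _ _
      _ < 8 * r + ρ * r := by linarith
      _ = (8 + ρ) * r := by ring
  have hcont1 : Continuous fun w => ‖gradient h w - W y‖ := (hg.sub continuous_const).norm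
  have hcont2 : Continuous fun w => ‖gradient h w - W w‖ := (hg.sub hW).norm
  have hint : Integrable (fun w => ‖gradient h w - W y‖) (volume.restrict (ball x (8 * r))) :=
    (hcont1.continuousOn.integrableOn_compact (isCompact_closedBall x (8 * r))).mono_set
      ball_subset_closedBall
  have h1 : ENNReal.ofReal (∫ w in ball x (8 * r), ‖gradient h w - W y‖) =
      ∫⁻ w in ball x (8 * r), ENNReal.ofReal ‖gradient h w - W y‖ :=
    ofReal_integral_eq_lintegral_ofReal hint (Filter.Eventually.of_forall fun w => norm_nonneg _)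
  have h2 : ∫⁻ w in ball x (8 * r), ENNReal.ofReal ‖gradient h w - W y‖ ≤
      ∫⁻ w in ball x (8 * r), (ENNReal.ofReal ‖gradient h w - W w‖ + ENNReal.ofReal η) := by
    refine setLIntegral_mono' measurableSet_ball fun w hw => ?_
    rw [← ENNReal.ofReal_add (norm_nonneg _) hη.le]
    refine ENNReal.ofReal_le_ofReal ?_
    have h3 : ‖W w - W y‖ ≤ η := by
      apply hδ
      have := hsub hw
      rw [mem_ball, dist_eq_norm] at this
      refine this.trans ?_
      have : 0 < 8 + ρ := by linarith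
      gcongr
    calc ‖gradient h w - W y‖ = ‖(gradient h w - W w) + (W w - W y)‖ := by
          rw [sub_add_sub_cancel]
      _ ≤ ‖gradient h w - W w‖ + ‖W w - W y‖ := norm_add_le _ _
      _ ≤ _ := by linarith
  have h3 : ∫⁻ w in ball x (8 * r), (ENNReal.ofReal ‖gradient h w - W w‖ + ENNReal.ofReal η) =
      (∫⁻ w in ball x (8 * r), ENNReal.ofReal ‖gradient h w - W w‖) +
        ENNReal.ofReal η * volume (ball x (8 * r)) := by
    rw [lintegral_add_right _ measurable_const, setLIntegral_const]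
  have h4 : ∫⁻ w in ball x (8 * r), ENNReal.ofReal ‖gradient h w - W w‖ ≤
      ENNReal.ofReal η * volume (ball y ((8 + ρ) * r)) := by
    calc ∫⁻ w in ball x (8 * r), ENNReal.ofReal ‖gradient h w - W w‖
        ≤ ∫⁻ w in ball y ((8 + ρ) * r), ENNReal.ofReal ‖gradient h w - W w‖ :=
          lintegral_mono_set hsub
      _ ≤ uM (fun w => ‖gradient h w - W w‖) y * volume (ball y ((8 + ρ) * r)) :=
          zs_avg_le _ (fun w => norm_nonneg _) y hs
      _ ≤ _ := by gcongr
  have h5 : ENNReal.ofReal (∫ w in ball x (8 * r), ‖gradient h w - W y‖) ≤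
      ENNReal.ofReal (2 * η * (((8 + ρ) * r) ^ d * kap d)) := by
    have h6 : ENNReal.ofReal η * volume (ball x (8 * r)) ≤
        ENNReal.ofReal η * volume (ball y ((8 + ρ) * r)) := by
      gcongr
    calc ENNReal.ofReal (∫ w in ball x (8 * r), ‖gradient h w - W y‖)
        ≤ ENNReal.ofReal η * volume (ball y ((8 + ρ) * r)) +
            ENNReal.ofReal η * volume (ball y ((8 + ρ) * r)) := by
          rw [h1]
          exact h2.trans (h3.le.trans (add_le_add h4 h6))
      _ = _ := by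
          rw [zs_volume_ball y hs, ← ENNReal.ofReal_mul hη.le, ← ENNReal.ofReal_add
            (by positivity) (by positivity)]
          congr 1
          ring
  have h7 : ∫ w in ball x (8 * r), ‖gradient h w - W y‖ ≤
      2 * η * (((8 + ρ) * r) ^ d * kap d) :=
    (ENNReal.ofReal_le_ofReal_iff (by positivity)).mp h5
  have h8 : ‖W y‖ * r ^ d ≤ (C * kap d * (8 + ρ) ^ d * 2 * η) * r ^ d := by
    calc ‖W y‖ * r ^ d ≤ C * ∫ w in ball x (8 * r), ‖gradient h w - W y‖ := hb
      _ ≤ C * (2 * η * (((8 + ρ) * r) ^ d * kap d)) := by gcongr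
      _ = _ := by rw [mul_pow]; ring
  exact le_of_mul_le_mul_right h8 (by positivity)

/-- `∫ min (‖H‖, τ) → 0` as `τ → 0`. -/
theorem zs_min_small {d : ℕ} (H : E d → E d) (hH : Integrable H) {ε : ℝ≥0∞} (hε : 0 < ε) :
    ∃ τ : ℝ, 0 < τ ∧ ∫⁻ y, min (ENNReal.ofReal ‖H y‖) (ENNReal.ofReal τ) ≤ ε := by
  have hfin : ∫⁻ y, ENNReal.ofReal ‖H y‖ ≠ ⊤ := by
    have := hH.2
    rw [hasFiniteIntegral_iff_norm] at this
    exact this.ne
  have hmeas : AEMeasurable (fun y => ENNReal.ofReal ‖H y‖) :=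
    hH.1.norm.aemeasurable.ennreal_ofReal
  have ht : Filter.Tendsto (fun n : ℕ => ∫⁻ y, min (ENNReal.ofReal ‖H y‖)
      (ENNReal.ofReal (1 / ((n : ℝ) + 1)))) Filter.atTop (nhds (∫⁻ _ : E d, (0 : ℝ≥0∞))) := by
    refine tendsto_lintegral_of_dominated_convergence' (fun y => ENNReal.ofReal ‖H y‖)
      (fun n => hmeas.min aemeasurable_const) (fun n => Filter.Eventually.of_forall fun y =>
        min_le_left _ _) hfin (Filter.Eventually.of_forall fun y => ?_)
    have h1 : Filter.Tendsto (fun n : ℕ => ENNReal.ofReal (1 / ((n : ℝ) + 1))) Filter.atTop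
        (nhds 0) := by
      have h2 := (ENNReal.continuous_ofReal.tendsto 0).comp
        (tendsto_one_div_add_atTop_nhds_zero_nat (𝕜 := ℝ))
      rw [ENNReal.ofReal_zero] at h2
      exact h2
    exact tendsto_of_tendsto_of_tendsto_of_le_of_le tendsto_const_nhds h1 (fun n => zero_le)
      (fun n => min_le_right _ _)
  rw [lintegral_zero] at ht
  obtain ⟨n, hn⟩ := (ht.eventually (gt_mem_nhds hε)).exists
  exact ⟨1 / ((n : ℝ) + 1), by positivity, hn.le⟩

theorem z_small {d : ℕ} (hd : 0 < d) (H : E d → E d) (hH : Integrable H) (ρ : ℝ) (hρ : 1 ≤ ρ)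
    (ε : ℝ) (hε : 0 < ε) : ∃ ε₀ : ℝ, 0 < ε₀ ∧ ∃ δ : ℝ, 0 < δ ∧ ∀ (h M : E d → ℝ), MaxPair h M →
      ContDiff ℝ 1 h → HasCompactSupport h →
      ∫⁻ x, ENNReal.ofReal ‖gradient h x - H x‖ ≤ ENNReal.ofReal ε₀ →
      ∫⁻ y in Zset h M ρ δ, ENNReal.ofReal ‖gradient h y‖ ≤ ENNReal.ofReal ε := by
  obtain ⟨C, hC, hbad⟩ := bad_ball d hd
  obtain ⟨Cw, hCw, hweak⟩ := weak_type d hd
  have hkap := zs_kap_pos d
  have hfin : ∫⁻ y, ENNReal.ofReal ‖H y‖ ≠ ⊤ := by
    have := hH.2
    rw [hasFiniteIntegral_iff_norm] at this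
    exact this.ne
  -- choice of `τ`, `η`
  obtain ⟨τ, hτ, hmin⟩ := zs_min_small H hH (ε := ENNReal.ofReal (ε / 4)) (by
    rw [ENNReal.ofReal_pos]; positivity)
  set C₁ : ℝ := C * kap d * (8 + ρ) ^ d * 2 with hC₁
  have hC₁pos : 0 < C₁ := by positivity
  set η : ℝ := τ / (2 * C₁) with hη
  have hηpos : 0 < η := by positivity
  -- absolute continuity
  obtain ⟨μ, hμ, hμs⟩ := exists_pos_setLIntegral_lt_of_measure_lt hfin
    (ε := ENNReal.ofReal (ε / 4)) (by
      rw [Ne, ENNReal.ofReal_eq_zero, not_le]; positivity)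
  obtain ⟨m, hm0, hmμ⟩ : ∃ m : ℝ, 0 < m ∧ ENNReal.ofReal m < μ := by
    obtain ⟨q, hq1, hq2⟩ := ENNReal.lt_iff_exists_nnreal_btwn.mp hμ
    refine ⟨q, by exact_mod_cast hq1, by rwa [ENNReal.ofReal_coe_nnreal]⟩
  set ε₀ : ℝ := min (ε / 12) (m * η / (2 * Cw)) with hε₀
  have hε₀pos : 0 < ε₀ := lt_min (by positivity) (by positivity)
  have hε₀1 : ε₀ ≤ ε / 12 := min_le_left _ _
  have hε₀2 : Cw / η * (2 * ε₀) ≤ m := by
    have h1 : ε₀ ≤ m * η / (2 * Cw) := min_le_right _ _
    calc Cw / η * (2 * ε₀) ≤ Cw / η * (2 * (m * η / (2 * Cw))) := by gcongr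
      _ = m := by field_simp
  -- choice of `W`
  obtain ⟨W, hWcs, hWint, hWc, -⟩ := hH.exists_hasCompactSupport_lintegral_sub_le
    (ε := ENNReal.ofReal ε₀) (by rw [Ne, ENNReal.ofReal_eq_zero, not_le]; exact hε₀pos)
  have hWint' : ∫⁻ y, ENNReal.ofReal ‖H y - W y‖ ≤ ENNReal.ofReal ε₀ := by
    refine le_trans (le_of_eq ?_) hWint
    congr 1
    funext y
    rw [ofReal_norm]
  -- uniform continuity
  have hunif : UniformContinuous W := hWcs.uniformContinuous_of_continuous hWc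
  obtain ⟨δ₀, hδ₀, hδ₀W⟩ := Metric.uniformContinuous_iff.mp hunif η hηpos
  refine ⟨ε₀, hε₀pos, δ₀ / (8 + ρ), by positivity, ?_⟩
  intro h M hM hh hcs hclose
  have hδ : ∀ y w : E d, ‖w - y‖ < (8 + ρ) * (δ₀ / (8 + ρ)) → ‖W w - W y‖ ≤ η := by
    intro y w hw
    have h1 : (8 + ρ) * (δ₀ / (8 + ρ)) = δ₀ := by field_simp
    rw [h1, ← dist_eq_norm] at hw
    have := hδ₀W hw
    rw [dist_eq_norm] at this
    exact this.le
  have hg := zs_continuous_gradient hh
  set e : E d → ℝ := fun w => ‖gradient h w - W w‖ with he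
  have hecont : Continuous e := (hg.sub hWc).norm
  have heint : ∫⁻ w, ENNReal.ofReal (e w) ≤ ENNReal.ofReal (2 * ε₀) := by
    calc ∫⁻ w, ENNReal.ofReal (e w)
        ≤ ∫⁻ w, (ENNReal.ofReal ‖gradient h w - H w‖ + ENNReal.ofReal ‖H w - W w‖) := by
          refine lintegral_mono fun w => ?_
          rw [← ENNReal.ofReal_add (norm_nonneg _) (norm_nonneg _)]
          refine ENNReal.ofReal_le_ofReal ?_
          calc e w = ‖(gradient h w - H w) + (H w - W w)‖ := by
                rw [he, sub_add_sub_cancel]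
            _ ≤ _ := norm_add_le _ _
      _ = (∫⁻ w, ENNReal.ofReal ‖gradient h w - H w‖) + ∫⁻ w, ENNReal.ofReal ‖H w - W w‖ := by
          refine lintegral_add_right' _ ?_
          exact (hH.1.sub hWc.aestronglyMeasurable).norm.aemeasurable.ennreal_ofReal
      _ ≤ ENNReal.ofReal ε₀ + ENNReal.ofReal ε₀ := add_le_add hclose hWint'
      _ = ENNReal.ofReal (2 * ε₀) := by
          rw [← ENNReal.ofReal_add hε₀pos.le hε₀pos.le]; congr 1; ring
  have hei : Integrable e := by
    refine ⟨hecont.aestronglyMeasurable, ?_⟩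
    rw [hasFiniteIntegral_iff_norm]
    refine lt_of_le_of_lt (le_trans (le_of_eq ?_) heint) ENNReal.ofReal_lt_top
    congr 1
    funext w
    rw [he, norm_norm]
  set A : Set (E d) := {x | ENNReal.ofReal η < uM e x} with hA
  have hAvol : volume A < μ := by
    refine lt_of_le_of_lt ?_ hmμ
    calc volume A ≤ ENNReal.ofReal (Cw / η) * ∫⁻ x, ENNReal.ofReal |e x| := hweak e hei η hηpos
      _ ≤ ENNReal.ofReal (Cw / η) * ENNReal.ofReal (2 * ε₀) := by
          gcongr
          refine le_trans (le_of_eq ?_) heint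
          congr 1
          funext w
          rw [abs_of_nonneg (norm_nonneg _)]
      _ = ENNReal.ofReal (Cw / η * (2 * ε₀)) := by rw [← ENNReal.ofReal_mul (by positivity)]
      _ ≤ ENNReal.ofReal m := ENNReal.ofReal_le_ofReal hε₀2
  set Z := Zset h M ρ (δ₀ / (8 + ρ)) with hZ
  have hZm : MeasurableSet Z := (isOpen_Zset h M ρ _).measurableSet
  have hAm : MeasurableSet A := (isOpen_superlevel_uM e _).measurableSet
  -- pointwise bound on `Z`
  have hpt : ∀ y ∈ Z, ENNReal.ofReal ‖gradient h y‖ ≤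
      ENNReal.ofReal ‖gradient h y - H y‖ + (A.indicator (fun y => ENNReal.ofReal ‖H y‖) y +
        (min (ENNReal.ofReal ‖H y‖) (ENNReal.ofReal τ) + 2 * ENNReal.ofReal ‖H y - W y‖)) := by
    intro y hy
    have h1 : ENNReal.ofReal ‖gradient h y‖ ≤
        ENNReal.ofReal ‖gradient h y - H y‖ + ENNReal.ofReal ‖H y‖ := by
      rw [← ENNReal.ofReal_add (norm_nonneg _) (norm_nonneg _)]
      refine ENNReal.ofReal_le_ofReal ?_
      calc ‖gradient h y‖ = ‖(gradient h y - H y) + H y‖ := by rw [sub_add_cancel]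
        _ ≤ _ := norm_add_le _ _
    refine h1.trans ?_
    gcongr
    by_cases hyA : y ∈ A
    · rw [indicator_of_mem hyA]
      exact le_self_add
    · rw [indicator_of_notMem hyA, zero_add]
      have hu : uM (fun w => ‖gradient h w - W w‖) y ≤ ENNReal.ofReal η := not_lt.mp hyA
      have h2 := zs_pointwise hC hbad hM hh hWc hρ hηpos hδ hy hu
      have h3 : ‖W y‖ ≤ τ / 2 := by
        refine h2.trans (le_of_eq ?_)
        rw [hη, ← hC₁]
        field_simp
      by_cases hHτ : ‖H y‖ ≤ τ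
      · rw [min_eq_left (ENNReal.ofReal_le_ofReal hHτ)]
        exact le_self_add
      · have h4 : ‖H y‖ ≤ 2 * ‖H y - W y‖ := by
          have h5 : ‖H y‖ - ‖W y‖ ≤ ‖H y - W y‖ := norm_sub_norm_le _ _
          rw [not_le] at hHτ
          linarith
        calc ENNReal.ofReal ‖H y‖ ≤ ENNReal.ofReal (2 * ‖H y - W y‖) :=
              ENNReal.ofReal_le_ofReal h4
          _ = 2 * ENNReal.ofReal ‖H y - W y‖ := by
              rw [ENNReal.ofReal_mul (by norm_num), ENNReal.ofReal_ofNat]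
          _ ≤ _ := le_add_self
  have hm1 : AEMeasurable (fun y => ENNReal.ofReal ‖gradient h y - H y‖) :=
    (hg.aestronglyMeasurable.sub hH.1).norm.aemeasurable.ennreal_ofReal
  have hm2 : AEMeasurable (A.indicator (fun y => ENNReal.ofReal ‖H y‖)) :=
    (hH.1.norm.aemeasurable.ennreal_ofReal).indicator hAm
  have hm3 : AEMeasurable (fun y => min (ENNReal.ofReal ‖H y‖) (ENNReal.ofReal τ)) :=
    (hH.1.norm.aemeasurable.ennreal_ofReal).min aemeasurable_const
  calc ∫⁻ y in Z, ENNReal.ofReal ‖gradient h y‖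
      ≤ ∫⁻ y in Z, (ENNReal.ofReal ‖gradient h y - H y‖ +
          (A.indicator (fun y => ENNReal.ofReal ‖H y‖) y +
        (min (ENNReal.ofReal ‖H y‖) (ENNReal.ofReal τ) + 2 * ENNReal.ofReal ‖H y - W y‖))) :=
        setLIntegral_mono' hZm hpt
    _ ≤ ∫⁻ y, (ENNReal.ofReal ‖gradient h y - H y‖ +
          (A.indicator (fun y => ENNReal.ofReal ‖H y‖) y +
        (min (ENNReal.ofReal ‖H y‖) (ENNReal.ofReal τ) + 2 * ENNReal.ofReal ‖H y - W y‖))) :=
        setLIntegral_le_lintegral _ _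
    _ = (∫⁻ y, ENNReal.ofReal ‖gradient h y - H y‖) +
          ((∫⁻ y in A, ENNReal.ofReal ‖H y‖) +
          ((∫⁻ y, min (ENNReal.ofReal ‖H y‖) (ENNReal.ofReal τ)) +
            2 * ∫⁻ y, ENNReal.ofReal ‖H y - W y‖)) := by
        rw [lintegral_add_left' hm1, lintegral_add_left' hm2, lintegral_add_left' hm3,
          lintegral_const_mul' _ _ (by norm_num), lintegral_indicator hAm]
    _ ≤ ENNReal.ofReal ε₀ + (ENNReal.ofReal (ε / 4) + (ENNReal.ofReal (ε / 4) +
          2 * ENNReal.ofReal ε₀)) := by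
        gcongr
        exact (hμs A hAvol).le
    _ ≤ ENNReal.ofReal ε := by
        have h2 : (2 : ℝ≥0∞) = ENNReal.ofReal 2 := by rw [ENNReal.ofReal_ofNat]
        rw [h2, ← ENNReal.ofReal_mul (by norm_num), ← ENNReal.ofReal_add (by positivity)
          (by positivity), ← ENNReal.ofReal_add (by positivity) (by positivity),
          ← ENNReal.ofReal_add (by positivity) (by positivity)]
        refine ENNReal.ofReal_le_ofReal ?_
        linarith

end

end Vale.Agent.P137F
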