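import Vale.Agent.Lib.P137F.Core
import Vale.Agent.Lib.P137F.Tail
import Vale.Agent.Lib.P137F.ZSmall

/-!
# P137F: uniform integrability of the gradients of the maximal functions

Split `{‖∇M‖ > T}`: (a) a.e. on `{M = h}` one has `∇M = ∇h` and
`∫_{‖∇h‖ > T} ‖∇h‖ ≤ 2 ∫ ‖∇h - H 1_{‖H‖ ≤ T/2}‖ ≤ 2 ε₀ + 2 ∫_{‖H‖ > T/2} ‖H‖`;
(b) if some contact ball has radius `≥ δ` then `‖∇M x‖ ≤ C A / δ^(d+1) < T` (`contact_rad`);
(c) otherwise `x ∈ X = {h < M, some contact ball of radius < δ}`: apply `core_gen` with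
`Z = Zset h M ρ δ`, `Sc = {n | n < N}` (`δ ≤ 2^N`), and `z_small`, `tail_small`.
-/

namespace Vale.Agent.P137F

open MeasureTheory Metric Set ENNReal

noncomputable section

theorem unifInt_tail {d : ℕ} {H : E d → E d} (hH : Integrable H) {ε : ℝ} (hε : 0 < ε) :
    ∃ T : ℝ, 0 < T ∧ ∫⁻ x in {x | T < ‖H x‖}, ENNReal.ofReal ‖H x‖ ≤ ENNReal.ofReal ε := by
  have hfin : ∫⁻ x, ENNReal.ofReal ‖H x‖ ≠ ⊤ := by
    have h1 := hH.hasFiniteIntegral
    rw [hasFiniteIntegral_iff_norm] at h1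
    exact h1.ne
  obtain ⟨δ, hδ, h⟩ := exists_pos_setLIntegral_lt_of_measure_lt hfin
    (ε := ENNReal.ofReal ε) (by simpa using hε)
  have hlim : Filter.Tendsto (fun n : ℕ => (∫⁻ x, ENNReal.ofReal ‖H x‖) / (n : ℝ≥0∞))
      Filter.atTop (nhds ((∫⁻ x, ENNReal.ofReal ‖H x‖) / ⊤)) :=
    ENNReal.Tendsto.const_div ENNReal.tendsto_nat_nhds_top (Or.inr hfin)
  rw [ENNReal.div_top] at hlim
  have hev := (hlim.eventually (gt_mem_nhds hδ)).and (Filter.eventually_ge_atTop 1)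
  obtain ⟨n, hn, hn1⟩ := hev.exists
  have hnpos : (0 : ℝ) < n := by exact_mod_cast hn1
  refine ⟨n, hnpos, (h _ ?_).le⟩
  refine lt_of_le_of_lt ?_ hn
  have hsub : {x | (n : ℝ) < ‖H x‖} ⊆ {x | (n : ℝ≥0∞) ≤ ENNReal.ofReal ‖H x‖} := by
    intro x hx
    have hx' : (n : ℝ) < ‖H x‖ := hx
    show (n : ℝ≥0∞) ≤ ENNReal.ofReal ‖H x‖
    rw [← ENNReal.ofReal_natCast]
    exact ENNReal.ofReal_le_ofReal hx'.le
  refine (measure_mono hsub).trans ?_
  refine meas_ge_le_lintegral_div hH.norm.aemeasurable.ennreal_ofReal ?_ ?_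
  · simpa using (by omega : n ≠ 0)
  · exact ENNReal.natCast_ne_top n

theorem unifInt_norm_gradient {d : ℕ} (h : E d → ℝ) (x : E d) :
    ‖gradient h x‖ = ‖fderiv ℝ h x‖ := by
  unfold gradient
  exact LinearIsometryEquiv.norm_map _ _

theorem unif_int {d : ℕ} (hd : 0 < d) (H : E d → E d) (hH : Integrable H) (A ε : ℝ)
    (hA : 0 < A) (hε : 0 < ε) : ∃ ε₀ : ℝ, 0 < ε₀ ∧ ∃ T : ℝ, 0 < T ∧ ∀ (h M : E d → ℝ), MaxPair h M →
      ContDiff ℝ 1 h → HasCompactSupport h → (∀ x, 0 ≤ h x) → ∫ x, h x ≤ A →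
      ∫⁻ x, ENNReal.ofReal ‖gradient h x - H x‖ ≤ ENNReal.ofReal ε₀ →
      ∫⁻ x in {x | T < ‖fderiv ℝ M x‖}, ENNReal.ofReal ‖fderiv ℝ M x‖ ≤ ENNReal.ofReal ε := by
  obtain ⟨K, ρ, C, hK, hρ, hC, hcore⟩ := core_gen d hd
  obtain ⟨Cr, hCr, hrad⟩ := contact_rad d hd
  have hε₁ : 0 < ε / (4 * C) := by positivity
  obtain ⟨e₁, he₁, δ₀, hδ₀, hz⟩ := z_small hd H hH ρ hρ (ε / (4 * C)) hε₁
  obtain ⟨e₂, he₂, N, ht⟩ := tail_small hd H hH K ρ (by linarith) (ε / (4 * C)) hε₁
  obtain ⟨T₁, hT₁, hTH⟩ := unifInt_tail hH (ε := ε / 8) (by positivity)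
  set δ : ℝ := min δ₀ ((2 : ℝ) ^ N) with hδ
  have hδpos : 0 < δ := lt_min hδ₀ (by positivity)
  set T : ℝ := max (2 * T₁) (Cr * A / δ ^ (d + 1)) with hT
  have hT1 : 2 * T₁ ≤ T := le_max_left _ _
  have hT2 : Cr * A / δ ^ (d + 1) ≤ T := le_max_right _ _
  have hTpos : 0 < T := by linarith
  refine ⟨min (ε / 8) (min e₁ e₂), by positivity, T, hTpos, ?_⟩
  intro h M hMP hh hcs h0 hA' hclose
  have hclose1 : ∫⁻ x, ENNReal.ofReal ‖gradient h x - H x‖ ≤ ENNReal.ofReal e₁ :=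
    hclose.trans (ENNReal.ofReal_le_ofReal ((min_le_right _ _).trans (min_le_left _ _)))
  have hclose2 : ∫⁻ x, ENNReal.ofReal ‖gradient h x - H x‖ ≤ ENNReal.ofReal e₂ :=
    hclose.trans (ENNReal.ofReal_le_ofReal ((min_le_right _ _).trans (min_le_right _ _)))
  have hclose3 : ∫⁻ x, ENNReal.ofReal ‖gradient h x - H x‖ ≤ ENNReal.ofReal (ε / 8) :=
    hclose.trans (ENNReal.ofReal_le_ofReal (min_le_left _ _))
  obtain ⟨KM, hKM⟩ := hMP.lip_M
  have hMc : Continuous M := hKM.continuous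
  have hhc : Continuous h := hh.continuous
  -- on the contact set the derivatives agree
  have hS₁ : ∀ x, T < ‖fderiv ℝ M x‖ → M x = h x → fderiv ℝ M x = fderiv ℝ h x := by
    intro x hx hMh
    have hne : fderiv ℝ M x ≠ 0 := by
      intro h0
      rw [h0, norm_zero] at hx
      linarith
    have hdM : DifferentiableAt ℝ M x := by
      by_contra hn
      exact hne (fderiv_zero_of_not_differentiableAt hn)
    have hdh : DifferentiableAt ℝ h x := hh.differentiable one_ne_zero x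
    have hmin : IsLocalMin (fun y => M y - h y) x := by
      refine Filter.Eventually.of_forall fun y => ?_
      have := hMP.le y
      show M x - h x ≤ M y - h y
      linarith
    have h1 := hmin.fderiv_eq_zero
    rw [fderiv_fun_sub hdM hdh] at h1
    exact sub_eq_zero.mp h1
  set S₁ : Set (E d) := {x | T < ‖fderiv ℝ M x‖} ∩ {x | M x = h x} with hS₁def
  have hmfd : Measurable fun x => ‖fderiv ℝ M x‖ := (measurable_fderiv ℝ M).norm
  have hS₁m : MeasurableSet S₁ :=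
    (measurableSet_lt measurable_const hmfd).inter (measurableSet_eq_fun hMc.measurable
      hhc.measurable)
  set X : Set (E d) := {x | ∃ (z : E d) (r : ℝ), Contact h M x z r ∧ r < δ} with hX
  have hsub : {x | T < ‖fderiv ℝ M x‖} ⊆ S₁ ∪ X := by
    intro x hx
    have hx' : T < ‖fderiv ℝ M x‖ := hx
    by_cases hMh : M x = h x
    · exact Or.inl ⟨hx, hMh⟩
    · right
      have hlt : h x < M x := lt_of_le_of_ne (hMP.le x) (Ne.symm hMh)
      obtain ⟨z, r, hc⟩ := hMP.exists_ball x hlt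
      refine ⟨z, r, hc, ?_⟩
      by_contra hno
      push Not at hno
      have h1 := hrad h M hMP h0 x z r hc
      have h2 : Cr * (∫ y, h y) / r ^ (d + 1) ≤ Cr * A / δ ^ (d + 1) := by
        have h3 : 0 ≤ ∫ y, h y := integral_nonneg h0
        gcongr
      linarith
  -- first part
  have hpart1 : ∫⁻ x in S₁, ENNReal.ofReal ‖fderiv ℝ M x‖ ≤ ENNReal.ofReal (ε / 2) := by
    have hpt : ∀ x ∈ S₁, ENNReal.ofReal ‖fderiv ℝ M x‖ ≤
        ENNReal.ofReal 2 * ENNReal.ofReal ‖gradient h x - H x‖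
          + ENNReal.ofReal 2 * ({x | T₁ < ‖H x‖}.indicator (fun x => ENNReal.ofReal ‖H x‖) x) := by
      rintro x ⟨hx1, hx2⟩
      have hx1' : T < ‖fderiv ℝ M x‖ := hx1
      rw [hS₁ x hx1 hx2, ← unifInt_norm_gradient]
      rw [hS₁ x hx1 hx2, ← unifInt_norm_gradient] at hx1'
      have htri : ‖gradient h x‖ ≤ ‖gradient h x - H x‖ + ‖H x‖ := by
        have := norm_add_le (gradient h x - H x) (H x)
        rwa [sub_add_cancel] at this
      by_cases hH1 : T₁ < ‖H x‖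
      · rw [indicator_of_mem (show x ∈ {x | T₁ < ‖H x‖} from hH1),
          ← ENNReal.ofReal_mul (by norm_num), ← ENNReal.ofReal_mul (by norm_num),
          ← ENNReal.ofReal_add (by positivity) (by positivity)]
        apply ENNReal.ofReal_le_ofReal
        have := norm_nonneg (gradient h x - H x)
        have := norm_nonneg (H x)
        linarith
      · rw [indicator_of_notMem (show x ∉ {x | T₁ < ‖H x‖} from hH1), mul_zero, add_zero,
          ← ENNReal.ofReal_mul (by norm_num)]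
        apply ENNReal.ofReal_le_ofReal
        push Not at hH1
        linarith
    have hHm : AEMeasurable (fun x => ENNReal.ofReal ‖H x‖) volume :=
      hH.norm.aemeasurable.ennreal_ofReal
    have hnull : NullMeasurableSet {x | T₁ < ‖H x‖} volume :=
      nullMeasurableSet_lt aemeasurable_const hH.norm.aemeasurable
    calc ∫⁻ x in S₁, ENNReal.ofReal ‖fderiv ℝ M x‖
        ≤ ∫⁻ x in S₁, (ENNReal.ofReal 2 * ENNReal.ofReal ‖gradient h x - H x‖
          + ENNReal.ofReal 2 * ({x | T₁ < ‖H x‖}.indicator (fun x => ENNReal.ofReal ‖H x‖) x)) :=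
          setLIntegral_mono' hS₁m hpt
      _ ≤ ∫⁻ x, (ENNReal.ofReal 2 * ENNReal.ofReal ‖gradient h x - H x‖
          + ENNReal.ofReal 2 * ({x | T₁ < ‖H x‖}.indicator (fun x => ENNReal.ofReal ‖H x‖) x)) :=
          setLIntegral_le_lintegral _ _
      _ = ENNReal.ofReal 2 * (∫⁻ x, ENNReal.ofReal ‖gradient h x - H x‖)
          + ENNReal.ofReal 2 * ∫⁻ x in {x | T₁ < ‖H x‖}, ENNReal.ofReal ‖H x‖ := by
          rw [lintegral_add_right' _ ((hHm.indicator₀ hnull).const_mul _),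
            lintegral_const_mul' _ _ ENNReal.ofReal_ne_top,
            lintegral_const_mul' _ _ ENNReal.ofReal_ne_top,
            lintegral_indicator₀ hnull]
      _ ≤ ENNReal.ofReal 2 * ENNReal.ofReal (ε / 8) +
          ENNReal.ofReal 2 * ENNReal.ofReal (ε / 8) := by gcongr
      _ = ENNReal.ofReal (ε / 2) := by
          rw [← ENNReal.ofReal_mul (by norm_num),
            ← ENNReal.ofReal_add (by positivity) (by positivity)]
          congr 1
          ring
  -- second part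
  have hpart2 : ∫⁻ x in X, ENNReal.ofReal ‖fderiv ℝ M x‖ ≤ ENNReal.ofReal (ε / 2) := by
    have h1 := hcore h M hMP (Zset h M ρ δ) (isOpen_Zset h M ρ δ) {n : ℤ | n < N} X ?_
    · have h2 : ∫⁻ x in Zset h M ρ δ, ENNReal.ofReal ‖fderiv ℝ h x‖ ≤
          ENNReal.ofReal (ε / (4 * C)) := by
        have h3 : Zset h M ρ δ ⊆ Zset h M ρ δ₀ := by
          rintro y ⟨x, z, r, hc, hr, hy⟩
          exact ⟨x, z, r, hc, lt_of_lt_of_le hr (min_le_left _ _), hy⟩
        refine (lintegral_mono_set h3).trans ?_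
        have h4 := hz h M hMP hh hcs hclose1
        simpa only [unifInt_norm_gradient] using h4
      have h3 : ∑' n : ℤ, ({n : ℤ | n < N}).indicator (fun n => ENNReal.ofReal ((2 : ℝ) ^ (-n)) *
            NN h K ρ ((2 : ℝ) ^ n) univ) n ≤ ENNReal.ofReal (ε / (4 * C)) := by
        refine le_trans (le_of_eq ?_) (ht h hh hcs hclose2)
        refine tsum_congr fun n => ?_
        by_cases hn : n < N
        · rw [if_pos hn, indicator_of_mem (show n ∈ {n : ℤ | n < N} from hn)]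
        · rw [if_neg hn, indicator_of_notMem (show n ∉ {n : ℤ | n < N} from hn)]
      calc ∫⁻ x in X, ENNReal.ofReal ‖fderiv ℝ M x‖ ≤ _ := h1
        _ ≤ ENNReal.ofReal C * (ENNReal.ofReal (ε / (4 * C)) + ENNReal.ofReal (ε / (4 * C))) := by
            gcongr
        _ = ENNReal.ofReal (ε / 2) := by
            rw [← ENNReal.ofReal_add hε₁.le hε₁.le, ← ENNReal.ofReal_mul hC.le]
            congr 1
            field_simp
            norm_num
    · rintro x ⟨z, r, hc, hr⟩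
      obtain ⟨n, hn1, hn2⟩ := exists_mem_Ico_zpow (x := r) (y := (2 : ℝ)) hc.1 (by norm_num)
      refine ⟨z, r, n, hc, ?_, hn1, ?_, ?_⟩
      · have h3 : (2 : ℝ) ^ n < (2 : ℝ) ^ N :=
          lt_of_le_of_lt hn1 (lt_of_lt_of_le hr (min_le_right _ _))
        exact (zpow_lt_zpow_iff_right₀ (by norm_num)).mp h3
      · rw [zpow_add₀ (by norm_num), zpow_one] at hn2
        linarith
      · intro y hy
        exact ⟨x, z, r, hc, hr, hy⟩
  calc ∫⁻ x in {x | T < ‖fderiv ℝ M x‖}, ENNReal.ofReal ‖fderiv ℝ M x‖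
      ≤ ∫⁻ x in S₁ ∪ X, ENNReal.ofReal ‖fderiv ℝ M x‖ := lintegral_mono_set hsub
    _ ≤ (∫⁻ x in S₁, ENNReal.ofReal ‖fderiv ℝ M x‖) +
        ∫⁻ x in X, ENNReal.ofReal ‖fderiv ℝ M x‖ := lintegral_union_le _ _ _
    _ ≤ ENNReal.ofReal (ε / 2) + ENNReal.ofReal (ε / 2) := add_le_add hpart1 hpart2
    _ = ENNReal.ofReal ε := by
        rw [← ENNReal.ofReal_add (by positivity) (by positivity)]
        congr 1
        ring

end

end Vale.Agent.P137F
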